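import Claimed.Agent.R255.Base.Law
import Claimed.Agent.R256.Lay.Dt

/-!
# Row 256, unit RND (08B = 08-round-entropy.tex l.673-1471), file 1: THE INTERFACE `PROF`      (architect helper38)

Model free: finite laws (`R255.FLaw`), real valued maps, two numeric arrays.  Report 888 (X2-X4), notes origin/helper38:notes/R256.
PRODUCER: 07 + 08A (+ prop:rt-profiles, lem:rt-time, lem:rt-slab-removal).   CONSUMER: `Rnd/*` (RV, OUT, END), which ends in `False`.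

CONVENTIONS
* GRID.  `n = r^N` mesh steps; depth `a = i/n`, width `v = j/n`; valid points `0 < i`, `2 j + i ≤ n` (`v ≤ u(a) = (1-a)/2`).
  The arrays are in MESH UNITS: `D i j = n (D(a,v))`, `J i u q = n J(a, u/n, q/n)` of (prof); entropy of one mesh step `= log(1/s)/n`.
* QUERY `(i, j, S)`, `S = r^(N-k)` : `h = S/n`, `ρ = s^h`.  SUB-STEP `= S/r` mesh steps.
* CELLS.  Integer base `M` (`M ≈ s^(-h/r)`, so `ρ ≈ M^(-r)`), cell of integer depth `k` : `⌊x M^k⌋`.  NESTED, so all chain rules are exact.  Entropy unit `U = log M`.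
  The numbers `oT dv st jj` of `RnQ.Ok` are in SUB-STEP units (mesh units divided by `S/r`).
* `C = C(a,v)`, `C' = C(a+Kh,v)`, `Z, W, θ` as below (query), `O` = the representative of (rt-incidence-point), `Y# = (Z,W)` at depth `K r`.
* the law of a query is the RESIDUAL law of lem:rt-slab-removal (all scores are power robust).
-/

set_option autoImplicit false

namespace Claimed.Agent.R256

open Claimed.Agent.R255
open Claimed.Agent.R255.FLaw (pair)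

/-- nested cell of integer depth `k` in base `M` -/
noncomputable def rnCell (M k : ℕ) (x : ℝ) : ℤ := ⌊x * (M : ℝ) ^ k⌋

/-- dyadic bases: the cells of `R256/Inc/Defs.lean` (`icCell k x = ⌊x * 2 ^ k⌋`) -/
theorem rn_cell_two (b k : ℕ) (x : ℝ) : rnCell (2 ^ b) k x = ⌊x * (2 : ℝ) ^ (b * k)⌋ := by
  unfold rnCell
  rw [pow_mul]
  push_cast
  rfl

noncomputable def rnCell2 (M k : ℕ) (x : ℝ × ℝ) : ℤ × ℤ := (rnCell M k x.1, rnCell M k x.2)

noncomputable def rnCell3 (M k : ℕ) (x : ℝ × ℝ × ℝ) : ℤ × ℤ × ℤ :=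
  (rnCell M k x.1, rnCell M k x.2.1, rnCell M k x.2.2)

noncomputable def rnCell4 (M k : ℕ) (x : Fin 4 → ℝ) : Fin 4 → ℤ := fun i => rnCell M k (x i)

/-- the null direction `e(Z) = (1, Z, |Z|²)` -/
def rnE (Z : ℝ × ℝ) : Fin 4 → ℝ := ![1, Z.1, Z.2, Z.1 ^ 2 + Z.2 ^ 2]

/-- the point `(0, W)` -/
def rnW (W : ℝ × ℝ × ℝ) : Fin 4 → ℝ := ![0, W.1, W.2.1, W.2.2]

/-- the data of one tangent query: a finite law, two names, the normalised coordinates -/
structure RnQ where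
  Ω : Type
  fin : Fintype Ω
  P : @FLaw Ω fin
  α : Type
  β : Type
  C : Ω → α
  C' : Ω → β
  Z : Ω → ℝ × ℝ
  W : Ω → ℝ × ℝ × ℝ
  th : Ω → ℝ
  O : Ω → Fin 4 → ℝ

attribute [instance] RnQ.fin

namespace RnQ

variable (q : RnQ)

/-- `Z` at depth `k` -/
noncomputable def Zc (M k : ℕ) : q.Ω → ℤ × ℤ := fun ω => rnCell2 M k (q.Z ω)
/-- `W` at depth `k` -/
noncomputable def Wc (M k : ℕ) : q.Ω → ℤ × ℤ × ℤ := fun ω => rnCell3 M k (q.W ω)
/-- `θ` at depth `k` -/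
noncomputable def tc (M k : ℕ) : q.Ω → ℤ := fun ω => rnCell M k (q.th ω)
/-- `O` at depth `k` -/
noncomputable def Oc (M k : ℕ) : q.Ω → Fin 4 → ℤ := fun ω => rnCell4 M k (q.O ω)
/-- the line `(Z, W)` at depth `k` -/
noncomputable def Yc (M k : ℕ) : q.Ω → (ℤ × ℤ) × (ℤ × ℤ × ℤ) := pair (q.Zc M k) (q.Wc M k)

/-- conditional mass, given `(C, C')`, of the slab `|n · V(Z) - c| ≤ w` -/
noncomputable def slabMass (n : ℝ × ℝ × ℝ) (c w : ℝ) (ω : q.Ω) : ℝ :=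
  q.P.pr (fun ω' => q.C ω' = q.C ω ∧ q.C' ω' = q.C' ω ∧
    |n.1 * (q.Z ω').1 + n.2.1 * (q.Z ω').2 + n.2.2 * ((q.Z ω').1 ^ 2 + (q.Z ω').2 ^ 2) - c| ≤ w)

/-- **what 08B needs to know about one query.**   `M` base, `r` sub-steps per unit depth, `K` fine depth, `A` size, `d` energy exponent, `τ` tolerance (sub-steps, probabilities),
`es` slab exponent (slab width `ρ^es = M^(-es r)`);  `oT` = increment of `D` in `a` over `h`, `dv` = increment of `D` in `v` over `h`, `st` = stationarity defect, `jj k` = `J(a, v, v + k h / r)`   (all in sub-step units). -/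
structure Ok (M r K : ℕ) (A d τ es oT dv st : ℝ) (jj : ℕ → ℝ) : Prop where
  /-- sizes -/
  bdZ : ∀ ω, |(q.Z ω).1| ≤ A ∧ |(q.Z ω).2| ≤ A
  bdW : ∀ ω, |(q.W ω).1| ≤ A ∧ |(q.W ω).2.1| ≤ A ∧ |(q.W ω).2.2| ≤ A
  bdt : ∀ ω, |q.th ω| ≤ A
  /-- (rt-incidence-point) -/
  inc : ∀ ω i, |q.O ω i - (rnW (q.W ω) i + q.th ω * rnE (q.Z ω) i)| ≤ A / (M : ℝ) ^ (K * r)
  ofun : ∀ ω ω', q.C ω = q.C ω' → q.C' ω = q.C' ω' → q.O ω = q.O ω'
  /-- lem:rt-time, at all roots `a + k h / r` (hereditary form), given the FINE line -/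
  time : ∀ k k', k ≤ k' → k' ≤ r →
    q.P.pr (fun ω => q.P.surC (q.tc M k') (pair (q.tc M k) (pair q.C (q.Yc M (K * r)))) ω
      < (d * ((k' : ℝ) - k) - τ) * Real.log M) ≤ τ
  /-- (rt-angular-score), hereditary form -/
  ang : ∀ k k', k ≤ k' → k' ≤ r →
    q.P.pr (fun ω => q.P.surC (q.Zc M k') (pair (q.Zc M k) q.C) ω < (jj k' - jj k - τ) * Real.log M) ≤ τ
  angU : q.P.entC (q.Zc M r) q.C ≤ (jj r + τ) * Real.log M
  /-- (rt-stationary-information) -/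
  stat : q.P.miC (q.Zc M (K * r)) q.C' q.C ≤ (st + τ) * Real.log M
  /-- (rt-point-score), upper half -/
  pt : q.P.entC (q.Oc M r) q.C ≤ (oT + τ) * Real.log M
  /-- first paragraph of the proof of (rv): `(Z,W)_1` determines `C(a, v+h)` up to `O(ρ⁻¹)` values -/
  wid : (dv - τ) * Real.log M ≤ q.P.entC (q.Yc M r) q.C + r * Real.log M
  /-- lem:rt-slab-removal -/
  slab : q.P.pr (fun ω => ∃ (n : ℝ × ℝ × ℝ) (c : ℝ), n.1 ^ 2 + n.2.1 ^ 2 + n.2.2 ^ 2 = 1 ∧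
    τ * q.P.fib (pair q.C q.C') ω < q.slabMass n c ((M : ℝ) ^ (-(es * r))) ω) ≤ τ

end RnQ

/-- the point `(i, j)` is in the closed wave domain -/
def RnVal (n i j : ℕ) : Prop := 0 < i ∧ 2 * j + i ≤ n

/-- the query `(i, j, S)` is admissible: `0 < a`, `0 < v`, `v + K h < u(a + K h)` -/
def RnDom (n K i j S : ℕ) : Prop := 0 < i ∧ 0 < j ∧ 2 * (j + K * S) + (i + K * S) < n

/-- **the two profile arrays** (prop:rt-profiles), mesh units, additive error `e`;  `pd = p + d = 1 + 3 d - 2 Γ` -/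
structure RnArr (n : ℕ) (pd e : ℝ) (D : ℕ → ℕ → ℝ) (J : ℕ → ℕ → ℕ → ℝ) : Prop where
  dvLo : ∀ i j j', RnVal n i j' → j ≤ j' → D i j ≤ D i j' + e
  dvHi : ∀ i j j', RnVal n i j' → j ≤ j' → D i j' ≤ D i j + 6 * ((j' : ℝ) - j) + e
  daLo : ∀ i i' j, 0 < i → RnVal n i' j → i ≤ i' → D i j ≤ D i' j + e
  daHi : ∀ i i' j, 0 < i → RnVal n i' j → i ≤ i' → D i' j ≤ D i j + 4 * ((i' : ℝ) - i) + e
  /-- (excess) -/
  exc : ∀ i j, RnVal n i j → pd * i + 4 * j ≤ D i j + e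
  /-- zero trace on `v = u(a)`, `v > 0` (no cut at `a = 1`: helper159) -/
  bdry : ∀ i j, 0 < i → 0 < j → 2 * j + i = n → D i j ≤ pd * i + 4 * j + e
  /-- `J(a, ·, ·)` is a triangular score array (`H q u = J i u q`) on `2 q + i ≤ n` -/
  jDiag : ∀ i u, RnVal n i u → |J i u u| ≤ e
  jLo : ∀ i u q, RnVal n i (q + 1) → u ≤ q → -e ≤ J i u (q + 1) - J i u q
  jHi : ∀ i u q, RnVal n i (q + 1) → u ≤ q → J i u (q + 1) - J i u q ≤ 2 + e
  jIncr : ∀ i u u' a b, RnVal n i b → u ≤ u' → u' ≤ a → a ≤ b → J i u' b - J i u' a ≤ J i u b - J i u a + e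
  /-- `J` is nonincreasing in `a` -/
  jMono : ∀ i i' u q, 0 < i → RnVal n i' q → i ≤ i' → u ≤ q → J i' u q ≤ J i u q + e

/-- **PROF** (wave case): the arrays and, for every admissible query of the levels `k0 ≤ k < N`, a finite law realising them.
The base is DYADIC, `M = 2 ^ b` with `b ≥ M0` (so `rnCell M k = icCell (b k)`, `rn_cell_ic`). -/
structure RnProf (r N k0 K M0 : ℕ) (A d pd e τ es : ℝ) : Prop where
  ex : ∃ (D : ℕ → ℕ → ℝ) (J : ℕ → ℕ → ℕ → ℝ), RnArr (r ^ N) pd e D J ∧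
    ∀ k, k0 ≤ k → k < N → ∀ i j, RnDom (r ^ N) K i j (r ^ (N - k)) →
      ∃ (q : RnQ) (b : ℕ), M0 ≤ b ∧
        q.Ok (2 ^ b) r K A d τ es
          ((D (i + r ^ (N - k)) j - D i j) / (r : ℝ) ^ (N - k - 1))
          ((D i (j + r ^ (N - k)) - D i j) / (r : ℝ) ^ (N - k - 1))
          ((J i j (j + K * r ^ (N - k)) - J (i + K * r ^ (N - k)) j (j + K * r ^ (N - k))) / (r : ℝ) ^ (N - k - 1))
          (fun l => J i j (j + l * r ^ (N - k - 1)) / (r : ℝ) ^ (N - k - 1))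

end Claimed.Agent.R256
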