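import Claimed.Agent.R256.Rnd.Defs

/-!
# Row 256, unit RND (08B), CLASSICAL twin, file 1: the interface `PROF_cl`      (architect helper38)

Classical rays: `v = 0`, measuring law = the final law (`b = 1`), only `D(a,0)` and `J(a,0,w)` are used (prop:rt-profiles).
Grid `n = r^N`, `D i = n D(i/n, 0)`, `J i q = n J(i/n, 0, q/n)` (mesh units).   Query `(i, S)`, `S = r^(N-k)`: `0 < a`, `a + K h < 1` (STRICT: classical slab removal needs `a + K h < 1`, helper106).
The law of a query satisfies THE SAME `RnQ.Ok` as for waves, with `dv = 0` (field `wid` is then void), `jj l = J(a, 0, l h / r)` (the true profile: `ang` in hereditary form follows from the two-sided typical scores).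
New information: lem:rt-memory  `J(a,0,w) ≥ m w`, `m = 3 - p = 2 - 2 d + 2 Γ`  (a PREFIX bound only: staircase profiles are allowed, so FP does not apply; `d + m/2 = 1 + Γ > 1`: `ic_incp` does).
PRODUCER: classical halves of 07 + 08A (`R256/Rc`, helper106).   CONSUMER: `Rnd/Cl*.lean`.
-/

set_option autoImplicit false

namespace Claimed.Agent.R256

/-- **the classical profile arrays**, mesh units, additive error `e`;  `pd = p + d = 1 + 3 d - 2 Γ`, `m = 3 - p` -/
structure RnArrCl (n : ℕ) (pd m e : ℝ) (D : ℕ → ℝ) (J : ℕ → ℕ → ℝ) : Prop where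
  /-- increasing `a` refines the name -/
  daLo : ∀ i i', 0 < i → i ≤ i' → i' ≤ n → D i ≤ D i' + e
  /-- `D(a,0) ≥ (p+d) a ≥ 0` -/
  low : ∀ i, 0 < i → i ≤ n → -e ≤ D i
  /-- `D(1,0) ≤ p + d` -/
  top : D n ≤ pd * n + e
  jDiag : ∀ i, 0 < i → i ≤ n → |J i 0| ≤ e
  jHi : ∀ i q, 0 < i → i ≤ n → q < n → J i (q + 1) - J i q ≤ 2 + e
  /-- `J` is nonincreasing in `a` -/
  jMono : ∀ i i' q, 0 < i → i ≤ i' → i' ≤ n → q ≤ n → J i' q ≤ J i q + e
  /-- lem:rt-memory -/
  mem : ∀ i q, 0 < i → i ≤ n → q < n → m * q ≤ J i q + e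

/-- **PROF, classical case** -/
structure RnProfCl (r N k0 K M0 : ℕ) (A d pd m e τ es : ℝ) : Prop where
  ex : ∃ (D : ℕ → ℝ) (J : ℕ → ℕ → ℝ), RnArrCl (r ^ N) pd m e D J ∧
    ∀ k, k0 ≤ k → k < N → ∀ i, 0 < i → i + K * r ^ (N - k) < r ^ N →
      ∃ (q : RnQ) (b : ℕ), M0 ≤ b ∧
        q.Ok (2 ^ b) r K A d τ es
          ((D (i + r ^ (N - k)) - D i) / (r : ℝ) ^ (N - k - 1))
          0
          ((J i (K * r ^ (N - k)) - J (i + K * r ^ (N - k)) (K * r ^ (N - k))) / (r : ℝ) ^ (N - k - 1))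
          (fun l => J i (l * r ^ (N - k - 1)) / (r : ℝ) ^ (N - k - 1))

end Claimed.Agent.R256
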