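import Claimed.Agent.R256.Rnd.Defs
import Claimed.Agent.R255.Ent.Basic

/-!
# Row 256, unit RND (08B), file `Rv`: lem:rt-width-derivative on one finite law      (leaf L-256-RN-RV, prover helper152; prefix `rn_rv_`)

`H(Y_r | C) = H(Y_r, θ_r | C) - H(θ_r | Y_r, C)`;   `(Y_r, θ_r)` takes at most `c(A)` values over each value of `(Z_r, O_r)` (`inc`);
`H(θ_r | Y_r, C) ≥ H(θ_r | θ_0, C, Y#) ≥ (d r - τ)(1 - τ) U` (`time` with `k = 0`, nested cells).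
-/

set_option autoImplicit false

namespace Claimed.Agent.R256

open Claimed.Agent.R255
open Claimed.Agent.R255.FLaw (pair)

/-! ## cells -/

theorem rn_rv_cell_nest {M k k' : ℕ} (hM : 1 ≤ M) (h : k ≤ k') {x y : ℝ} (hxy : rnCell M k' x = rnCell M k' y) :
    rnCell M k x = rnCell M k y := by
  have hM0 : (0 : ℝ) < M := by exact_mod_cast hM
  have key : ∀ z : ℝ, rnCell M k z = rnCell M k' z / ((M ^ (k' - k) : ℕ) : ℤ) := by
    intro z
    unfold rnCell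
    rw [← Int.floor_div_natCast]
    congr 1
    have e : k' = k + (k' - k) := by omega
    conv_rhs => rw [e]
    rw [pow_add]
    push_cast
    have : (M : ℝ) ^ (k + (k' - k) - k) = (M : ℝ) ^ (k' - k) := by
      congr 1
      omega
    rw [this]
    field_simp
  rw [key x, key y, hxy]

/-- points in the same cell are close -/
theorem rn_rv_cell_dist {M k : ℕ} (hM : 1 ≤ M) {x y : ℝ} (h : rnCell M k x = rnCell M k y) : |x - y| ≤ 1 / (M : ℝ) ^ k := by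
  have hM0 : (0 : ℝ) < M := by exact_mod_cast hM
  have hp : (0 : ℝ) < (M : ℝ) ^ k := pow_pos hM0 k
  unfold rnCell at h
  have h1 := Int.floor_le (x * (M : ℝ) ^ k)
  have h2 := Int.lt_floor_add_one (x * (M : ℝ) ^ k)
  have h3 := Int.floor_le (y * (M : ℝ) ^ k)
  have h4 := Int.lt_floor_add_one (y * (M : ℝ) ^ k)
  rw [h] at h1 h2
  rw [le_div_iff₀ hp, ← abs_of_pos hp, ← abs_mul, abs_le]
  constructor <;> nlinarith

/-- close points lie in neighbouring cells -/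
theorem rn_rv_cell_near {M k : ℕ} (hM : 1 ≤ M) {x y : ℝ} (n : ℕ) (h : |x - y| ≤ n / (M : ℝ) ^ k) :
    rnCell M k x ∈ Finset.Icc (rnCell M k y - (n + 1 : ℕ)) (rnCell M k y + (n + 1 : ℕ)) := by
  have hM0 : (0 : ℝ) < M := by exact_mod_cast hM
  have hp : (0 : ℝ) < (M : ℝ) ^ k := pow_pos hM0 k
  rw [le_div_iff₀ hp, ← abs_of_pos hp, ← abs_mul, abs_le] at h
  unfold rnCell
  have h1 := Int.floor_le (x * (M : ℝ) ^ k)
  have h2 := Int.lt_floor_add_one (x * (M : ℝ) ^ k)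
  have h3 := Int.floor_le (y * (M : ℝ) ^ k)
  have h4 := Int.lt_floor_add_one (y * (M : ℝ) ^ k)
  rw [Finset.mem_Icc]
  constructor
  · have : ((⌊y * (M : ℝ) ^ k⌋ - (n + 1 : ℕ) : ℤ) : ℝ) < (⌊x * (M : ℝ) ^ k⌋ : ℝ) + 1 := by
      push_cast
      nlinarith [h.1, h.2]
    have h5 : ⌊y * (M : ℝ) ^ k⌋ - (n + 1 : ℕ) < ⌊x * (M : ℝ) ^ k⌋ + 1 := by exact_mod_cast this
    omega
  · have : (⌊x * (M : ℝ) ^ k⌋ : ℝ) < ((⌊y * (M : ℝ) ^ k⌋ + (n + 1 : ℕ) : ℤ) : ℝ) + 1 := by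
      push_cast
      nlinarith [h.1, h.2]
    have h5 : ⌊x * (M : ℝ) ^ k⌋ < ⌊y * (M : ℝ) ^ k⌋ + (n + 1 : ℕ) + 1 := by exact_mod_cast this
    omega

theorem rn_rv_win_card (c : ℤ) (n : ℕ) : (Finset.Icc (c - (n : ℕ)) (c + (n : ℕ))).card = 2 * n + 1 := by
  rw [Int.card_Icc]
  have : c + (n : ℕ) + 1 - (c - (n : ℕ)) = ((2 * n + 1 : ℕ) : ℤ) := by push_cast; ring
  rw [this, Int.toNat_natCast]

/-! ## geometry of the incidence point -/

theorem rn_rv_abs_mul {a b A B : ℝ} (ha : |a| ≤ A) (hb : |b| ≤ B) : |a * b| ≤ A * B := by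
  rw [abs_mul]
  exact mul_le_mul ha hb (abs_nonneg _) ((abs_nonneg _).trans ha)

/-- `(Z, O)` up to `δ` determines `(θ, W)` up to `13 A³ δ` -/
theorem rn_rv_geo {A δ : ℝ} (hA : 1 ≤ A) (hδ : 0 ≤ δ) {Z Z' : ℝ × ℝ} {W W' : ℝ × ℝ × ℝ} {t t' : ℝ} {O O' : Fin 4 → ℝ}
    (bZ : |Z.1| ≤ A ∧ |Z.2| ≤ A) (bZ' : |Z'.1| ≤ A ∧ |Z'.2| ≤ A) (bt' : |t'| ≤ A)
    (hi : ∀ i, |O i - (rnW W i + t * rnE Z i)| ≤ A * δ) (hi' : ∀ i, |O' i - (rnW W' i + t' * rnE Z' i)| ≤ A * δ)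
    (hZ1 : |Z.1 - Z'.1| ≤ δ) (hZ2 : |Z.2 - Z'.2| ≤ δ) (hO : ∀ i, |O i - O' i| ≤ δ) :
    |t - t'| ≤ 13 * A ^ 3 * δ ∧ |W.1 - W'.1| ≤ 13 * A ^ 3 * δ ∧ |W.2.1 - W'.2.1| ≤ 13 * A ^ 3 * δ ∧
      |W.2.2 - W'.2.2| ≤ 13 * A ^ 3 * δ := by
  have hA0 : 0 < A := by linarith
  have hA2 : A ≤ A ^ 2 := by nlinarith
  have hA3 : A ^ 2 ≤ A ^ 3 := by nlinarith [sq_nonneg A]
  have a0 := abs_le.1 (hi 0)
  have a1 := abs_le.1 (hi 1)
  have a2 := abs_le.1 (hi 2)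
  have a3 := abs_le.1 (hi 3)
  have b0 := abs_le.1 (hi' 0)
  have b1 := abs_le.1 (hi' 1)
  have b2 := abs_le.1 (hi' 2)
  have b3 := abs_le.1 (hi' 3)
  have o0 := abs_le.1 (hO 0)
  have o1 := abs_le.1 (hO 1)
  have o2 := abs_le.1 (hO 2)
  have o3 := abs_le.1 (hO 3)
  simp only [rnW, rnE, Matrix.cons_val_zero, Matrix.cons_val_one, Matrix.cons_val] at a0 a1 a2 a3 b0 b1 b2 b3
  have hD : |t - t'| ≤ (1 + 2 * A) * δ := by
    rw [abs_le]
    constructor <;> linarith [a0.1, a0.2, b0.1, b0.2, o0.1, o0.2]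
  have hAδ : 0 ≤ A * δ := by positivity
  have hA2δ : A * δ ≤ A ^ 2 * δ := mul_le_mul_of_nonneg_right hA2 hδ
  have hA3δ : A ^ 2 * δ ≤ A ^ 3 * δ := mul_le_mul_of_nonneg_right hA3 hδ
  have h1δ : δ ≤ A * δ := by nlinarith
  have p1 := abs_le.1 (rn_rv_abs_mul hD bZ.1)
  have p1' := abs_le.1 (rn_rv_abs_mul hD bZ.2)
  have p2 := abs_le.1 (rn_rv_abs_mul bt' hZ1)
  have p2' := abs_le.1 (rn_rv_abs_mul bt' hZ2)
  have hs : |Z.1 ^ 2 + Z.2 ^ 2| ≤ 2 * A ^ 2 := by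
    rw [abs_of_nonneg (by positivity)]
    have h1 : Z.1 ^ 2 ≤ A ^ 2 := by rw [← sq_abs]; exact pow_le_pow_left₀ (abs_nonneg _) bZ.1 2
    have h2 : Z.2 ^ 2 ≤ A ^ 2 := by rw [← sq_abs]; exact pow_le_pow_left₀ (abs_nonneg _) bZ.2 2
    linarith
  have p3 := abs_le.1 (rn_rv_abs_mul hD hs)
  have hz1 : |Z.1 + Z'.1| ≤ 2 * A := (abs_add_le _ _).trans (by linarith [bZ.1, bZ'.1])
  have hz2 : |Z.2 + Z'.2| ≤ 2 * A := (abs_add_le _ _).trans (by linarith [bZ.2, bZ'.2])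
  have p4 := abs_le.1 (rn_rv_abs_mul bt' (rn_rv_abs_mul hZ1 hz1))
  have p5 := abs_le.1 (rn_rv_abs_mul bt' (rn_rv_abs_mul hZ2 hz2))
  have e1 : (1 + 2 * A) * δ * A = A * δ + 2 * (A ^ 2 * δ) := by ring
  have e3 : (1 + 2 * A) * δ * (2 * A ^ 2) = 2 * (A ^ 2 * δ) + 4 * (A ^ 3 * δ) := by ring
  have e4 : A * (δ * (2 * A)) = 2 * (A ^ 2 * δ) := by ring
  rw [e1] at p1 p1'
  rw [e3] at p3
  rw [e4] at p4 p5
  have f1 : t * Z.1 - t' * Z'.1 = (t - t') * Z.1 + t' * (Z.1 - Z'.1) := by ring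
  have f2 : t * Z.2 - t' * Z'.2 = (t - t') * Z.2 + t' * (Z.2 - Z'.2) := by ring
  have f3 : t * (Z.1 ^ 2 + Z.2 ^ 2) - t' * (Z'.1 ^ 2 + Z'.2 ^ 2)
      = (t - t') * (Z.1 ^ 2 + Z.2 ^ 2) + t' * ((Z.1 - Z'.1) * (Z.1 + Z'.1)) + t' * ((Z.2 - Z'.2) * (Z.2 + Z'.2)) := by ring
  refine ⟨?_, ?_, ?_, ?_⟩
  · refine hD.trans ?_
    have : (1 + 2 * A) * δ = δ + 2 * (A * δ) := by ring
    rw [this]
    have : 13 * A ^ 3 * δ = 13 * (A ^ 3 * δ) := by ring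
    rw [this]
    linarith
  · have : 13 * A ^ 3 * δ = 13 * (A ^ 3 * δ) := by ring
    rw [this, abs_le]
    constructor <;> linarith [a1.1, a1.2, b1.1, b1.2, o1.1, o1.2, p1.1, p1.2, p2.1, p2.2]
  · have : 13 * A ^ 3 * δ = 13 * (A ^ 3 * δ) := by ring
    rw [this, abs_le]
    constructor <;> linarith [a2.1, a2.2, b2.1, b2.2, o2.1, o2.2, p1'.1, p1'.2, p2'.1, p2'.2]
  · have : 13 * A ^ 3 * δ = 13 * (A ^ 3 * δ) := by ring
    rw [this, abs_le]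
    constructor <;> linarith [a3.1, a3.2, b3.1, b3.2, o3.1, o3.2, p3.1, p3.2, p4.1, p4.2, p5.1, p5.2]

/-! ## the counting step -/

/-- the number of values -/
noncomputable def rnRvN (A : ℝ) : ℕ := (2 * (⌈13 * A ^ 3⌉₊ + 1) + 1) ^ 4

theorem rn_rv_nval (q : RnQ) {M r K : ℕ} {A d τ es oT dv st : ℝ} {jj : ℕ → ℝ} (hA : 1 ≤ A) (hM : 1 ≤ M) (hK : 1 ≤ K)
    (h : q.Ok M r K A d τ es oT dv st jj) :
    q.P.NVal (fun _ => True) (pair (q.Yc M r) (q.tc M r)) (pair (q.Zc M r) (q.Oc M r)) (rnRvN A : ℝ) := by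
  classical
  intro ω₀
  obtain ⟨n, hn⟩ : ∃ n : ℕ, n = ⌈13 * A ^ 3⌉₊ := ⟨_, rfl⟩
  have hM0 : (0 : ℝ) < M := by exact_mod_cast hM
  have hM1 : (1 : ℝ) ≤ M := by exact_mod_cast hM
  have hp : (0 : ℝ) < (M : ℝ) ^ r := pow_pos hM0 r
  refine ⟨({q.Zc M r ω₀} ×ˢ (Finset.Icc (rnCell M r (q.W ω₀).1 - (n + 1 : ℕ)) (rnCell M r (q.W ω₀).1 + (n + 1 : ℕ))
      ×ˢ (Finset.Icc (rnCell M r (q.W ω₀).2.1 - (n + 1 : ℕ)) (rnCell M r (q.W ω₀).2.1 + (n + 1 : ℕ))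
      ×ˢ Finset.Icc (rnCell M r (q.W ω₀).2.2 - (n + 1 : ℕ)) (rnCell M r (q.W ω₀).2.2 + (n + 1 : ℕ)))))
      ×ˢ Finset.Icc (rnCell M r (q.th ω₀) - (n + 1 : ℕ)) (rnCell M r (q.th ω₀) + (n + 1 : ℕ)), ?_, ?_⟩
  · rw [Finset.card_product, Finset.card_product, Finset.card_product, Finset.card_product, Finset.card_singleton,
      rn_rv_win_card, rn_rv_win_card, rn_rv_win_card, rn_rv_win_card]
    apply le_of_eq
    unfold rnRvN
    rw [← hn]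
    push_cast
    ring
  · intro ω _ _ hω
    have hZ : q.Zc M r ω = q.Zc M r ω₀ := congrArg Prod.fst hω
    have hO : q.Oc M r ω = q.Oc M r ω₀ := congrArg Prod.snd hω
    have hZ1 : rnCell M r (q.Z ω).1 = rnCell M r (q.Z ω₀).1 := congrArg Prod.fst hZ
    have hZ2 : rnCell M r (q.Z ω).2 = rnCell M r (q.Z ω₀).2 := congrArg Prod.snd hZ
    have hOi : ∀ i, rnCell M r (q.O ω i) = rnCell M r (q.O ω₀ i) := fun i => congrFun hO i
    have herr : A / (M : ℝ) ^ (K * r) ≤ A * (1 / (M : ℝ) ^ r) := by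
      rw [mul_one_div]
      apply div_le_div_of_nonneg_left (by linarith) hp
      exact pow_le_pow_right₀ hM1 (Nat.le_mul_of_pos_left r hK)
    obtain ⟨g1, g2, g3, g4⟩ := rn_rv_geo hA (by positivity : (0 : ℝ) ≤ 1 / (M : ℝ) ^ r) (h.bdZ ω) (h.bdZ ω₀) (h.bdt ω₀)
      (fun i => (h.inc ω i).trans herr) (fun i => (h.inc ω₀ i).trans herr) (rn_rv_cell_dist hM hZ1) (rn_rv_cell_dist hM hZ2)
      (fun i => rn_rv_cell_dist hM (hOi i))
    have hle : 13 * A ^ 3 * (1 / (M : ℝ) ^ r) ≤ n / (M : ℝ) ^ r := by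
      rw [mul_one_div]
      apply div_le_div_of_nonneg_right _ hp.le
      rw [hn]
      exact Nat.le_ceil _
    simp only [Finset.mem_product, Finset.mem_singleton]
    exact ⟨⟨hZ, rn_rv_cell_near hM n (g2.trans hle), rn_rv_cell_near hM n (g3.trans hle), rn_rv_cell_near hM n (g4.trans hle)⟩,
      rn_rv_cell_near hM n (g1.trans hle)⟩

/-! ## the entropy chain -/

/-- upper bound for the joint entropy -/
theorem rn_rv_joint (q : RnQ) {M r K : ℕ} {A d τ es oT dv st : ℝ} {jj : ℕ → ℝ} (hA : 1 ≤ A) (hM : 1 ≤ M) (hK : 1 ≤ K)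
    (h : q.Ok M r K A d τ es oT dv st jj) :
    q.P.entC (pair (q.Yc M r) (q.tc M r)) q.C ≤ (jj r + τ) * Real.log M + (oT + τ) * Real.log M + Real.log (rnRvN A) := by
  have h1 : q.P.entC (pair (q.Yc M r) (q.tc M r)) q.C
      ≤ q.P.entC (pair (pair (q.Zc M r) (q.Oc M r)) (pair (q.Yc M r) (q.tc M r))) q.C :=
    ent_entC_mono q.P _ _ _ fun ω ω' _ _ hX _ => congrArg Prod.snd hX
  have h2 := ent_entC_chain q.P (pair (q.Zc M r) (q.Oc M r)) (pair (q.Yc M r) (q.tc M r)) q.C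
  have h3 := ent_entC_pair_le_add q.P (q.Zc M r) (q.Oc M r) q.C
  have h4 : q.P.entC (pair (q.Yc M r) (q.tc M r)) (pair (pair (q.Zc M r) (q.Oc M r)) q.C)
      ≤ q.P.entC (pair (q.Yc M r) (q.tc M r)) (pair (q.Zc M r) (q.Oc M r)) :=
    ent_entC_anti q.P _ _ _ fun ω ω' _ _ hY => congrArg Prod.fst hY
  have h5 := ent_entC_le_log_nval q.P _ _ (rn_rv_nval q hA hM hK h)
  linarith [h.angU, h.pt]

/-- lower bound for the time entropy -/
theorem rn_rv_time (q : RnQ) {M r K : ℕ} {A d τ es oT dv st : ℝ} {jj : ℕ → ℝ} (hM : 1 ≤ M) (hK : 1 ≤ K) (hτ0 : 0 ≤ τ) (hτ1 : τ ≤ 1)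
    (h : q.Ok M r K A d τ es oT dv st jj) :
    (d * r - τ) * Real.log M * (1 - τ) ≤ q.P.entC (q.tc M r) (pair (q.Yc M r) q.C) := by
  have h1 : q.P.entC (q.tc M r) (pair (q.tc M 0) (pair q.C (q.Yc M (K * r)))) ≤ q.P.entC (q.tc M r) (pair (q.Yc M r) q.C) := by
    refine ent_entC_anti q.P _ _ _ fun ω ω' _ _ hY => ?_
    have hC : q.C ω = q.C ω' := congrArg (fun x => x.2.1) hY
    have hYY : q.Yc M (K * r) ω = q.Yc M (K * r) ω' := congrArg (fun x => x.2.2) hY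
    have hle : r ≤ K * r := Nat.le_mul_of_pos_left r hK
    have z1 : rnCell M (K * r) (q.Z ω).1 = rnCell M (K * r) (q.Z ω').1 := congrArg (fun x => x.1.1) hYY
    have z2 : rnCell M (K * r) (q.Z ω).2 = rnCell M (K * r) (q.Z ω').2 := congrArg (fun x => x.1.2) hYY
    have w1 : rnCell M (K * r) (q.W ω).1 = rnCell M (K * r) (q.W ω').1 := congrArg (fun x => x.2.1) hYY
    have w2 : rnCell M (K * r) (q.W ω).2.1 = rnCell M (K * r) (q.W ω').2.1 := congrArg (fun x => x.2.2.1) hYY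
    have w3 : rnCell M (K * r) (q.W ω).2.2 = rnCell M (K * r) (q.W ω').2.2 := congrArg (fun x => x.2.2.2) hYY
    show ((rnCell2 M r (q.Z ω), rnCell3 M r (q.W ω)), q.C ω) = ((rnCell2 M r (q.Z ω'), rnCell3 M r (q.W ω')), q.C ω')
    unfold rnCell2 rnCell3
    rw [rn_rv_cell_nest hM hle z1, rn_rv_cell_nest hM hle z2, rn_rv_cell_nest hM hle w1, rn_rv_cell_nest hM hle w2,
      rn_rv_cell_nest hM hle w3, hC]
  refine le_trans ?_ h1
  have ht := h.time 0 r (Nat.zero_le _) le_rfl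
  simp only [Nat.cast_zero, sub_zero] at ht
  by_cases hc : 0 ≤ (d * r - τ) * Real.log M
  · rw [ent_entC_eq_ev]
    have h2 := ent_ev_ge_of_bad q.P (f := q.P.surC (q.tc M r) (pair (q.tc M 0) (pair q.C (q.Yc M (K * r)))))
      (fun ω => q.P.surC (q.tc M r) (pair (q.tc M 0) (pair q.C (q.Yc M (K * r)))) ω < (d * r - τ) * Real.log M)
      (c := (d * r - τ) * Real.log M) (M := 0) (fun ω _ hω => not_lt.1 hω) (fun ω hω _ => ent_surC_nonneg q.P _ _ hω)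
    refine le_trans ?_ h2
    rw [zero_mul, add_zero]
    exact mul_le_mul_of_nonneg_left (by linarith) hc
  · rw [not_le] at hc
    have h3 := ent_entC_nonneg q.P (q.tc M r) (pair (q.tc M 0) (pair q.C (q.Yc M (K * r))))
    have h4 : (d * r - τ) * Real.log M * (1 - τ) ≤ 0 := mul_nonpos_of_nonpos_of_nonneg hc.le (by linarith)
    linarith

/-- **RV** (lem:rt-width-derivative) on one finite law -/
theorem rn_rv_main (A ε : ℝ) (hA : 1 ≤ A) (hε : 0 < ε) :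
    ∃ τ : ℝ, 0 < τ ∧ ∃ M0 : ℕ, ∀ (q : RnQ) (M r K : ℕ) (d es oT dv st : ℝ) (jj : ℕ → ℝ),
      0 < d → d ≤ 1 → 1 ≤ r → 1 ≤ K → M0 ≤ M → q.Ok M r K A d τ es oT dv st jj →
      dv ≤ jj r + oT + (1 - d + ε) * r := by
  refine ⟨min (ε / 10) 1, lt_min (by positivity) one_pos, ⌈Real.exp (2 * Real.log (rnRvN A) / ε)⌉₊ + 2, ?_⟩
  intro q M r K d es oT dv st jj hd0 hd1 hr hK hM h
  obtain ⟨τ, hτ⟩ : ∃ τ, τ = min (ε / 10) 1 := ⟨_, rfl⟩
  rw [← hτ] at h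
  have hτ0 : 0 < τ := by rw [hτ]; exact lt_min (by positivity) one_pos
  have hτ1 : τ ≤ 1 := by rw [hτ]; exact min_le_right _ _
  have hτε : τ ≤ ε / 10 := by rw [hτ]; exact min_le_left _ _
  have hM1 : 1 ≤ M := by omega
  have hM2 : (2 : ℝ) ≤ M := by
    have : 2 ≤ M := by omega
    exact_mod_cast this
  have hU : 0 < Real.log M := Real.log_pos (by linarith)
  have hexp : Real.exp (2 * Real.log (rnRvN A) / ε) ≤ M := by
    have h1 : ⌈Real.exp (2 * Real.log (rnRvN A) / ε)⌉₊ ≤ M := by omega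
    exact (Nat.le_ceil _).trans (by exact_mod_cast h1)
  have hlogN : Real.log (rnRvN A) ≤ ε / 2 * Real.log M := by
    have h1 : 2 * Real.log (rnRvN A) / ε ≤ Real.log M := by
      rw [Real.le_log_iff_exp_le (by linarith)]
      exact hexp
    rw [div_le_iff₀ hε] at h1
    linarith
  have hr1 : (1 : ℝ) ≤ r := by exact_mod_cast hr
  have c1 := ent_entC_chain q.P (q.Yc M r) (q.tc M r) q.C
  have c2 := rn_rv_joint q hA hM1 hK h
  have c3 := rn_rv_time q hM1 hK hτ0.le hτ1 h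
  have c4 := h.wid
  -- everything in units of `U`
  have key : (dv - τ) * Real.log M ≤ (jj r + oT + 2 * τ + ε / 2 - (d * r - τ) * (1 - τ) + r) * Real.log M := by
    have e : (jj r + oT + 2 * τ + ε / 2 - (d * r - τ) * (1 - τ) + r) * Real.log M
        = (jj r + τ) * Real.log M + (oT + τ) * Real.log M + ε / 2 * Real.log M - (d * r - τ) * Real.log M * (1 - τ) + r * Real.log M := by
      ring
    rw [e]
    linarith
  have key2 := le_of_mul_le_mul_right key hU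
  have k1 : d * r - τ * r - τ ≤ (d * r - τ) * (1 - τ) := by
    have : τ * (d * r) ≤ τ * r := by
      apply mul_le_mul_of_nonneg_left _ hτ0.le
      nlinarith
    nlinarith [sq_nonneg τ]
  have k2 : τ * r ≤ ε / 10 * r := mul_le_mul_of_nonneg_right hτε (by linarith)
  have k3 : τ ≤ τ * r := by nlinarith
  have k4 : ε / 2 ≤ ε / 2 * r := by nlinarith
  have e2 : (1 - d + ε) * r = r - d * r + ε / 10 * r * 5 + ε / 2 * r := by ring
  rw [e2]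
  linarith

end Claimed.Agent.R256
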