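import Claimed.Agent.R256.Rnd.Defs
import Claimed.Agent.R256.Rnd.Rv

/-!
# Row 256, unit RND (08B), file 2: THE CONTRACT CHAIN      (architect helper38)

  `rn_rv`  (lem:rt-width-derivative, one finite law)          `Rnd/Rv.lean`
  `rn_out_final` (prop:rt-outgoing, one finite law)     `Rnd/Out*.lean`
  `rn_end'` (lem:rt-interval-density + lem:rt-stationarity + lem:rt-descent + proof of thm:round, purely numeric)     `Rnd/Chain, Step, Count, End`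
  `rn_wave` (`Rnd/Wave.lean`) : for suitable parameters there is NO `RnProf`.      (= the wave half of thm:round, given the producer `Γ_wav > 100 η ⟹ RnProf for all parameters`)
Order of the constants:  `A d Γ` → `ξ = ε = Γ/20` → `r χ es τ₁ M₁` (`rn_out`), `τ₂ M₂` (`rn_rv`) → `k0 N e` (`rn_end`).
-/

set_option autoImplicit false

namespace Claimed.Agent.R256

open Claimed.Agent.R255

/-- (rv) on the grid, mesh units -/
def RnRV (r N k0 K : ℕ) (d ε : ℝ) (D : ℕ → ℕ → ℝ) (J : ℕ → ℕ → ℕ → ℝ) : Prop :=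
  ∀ k, k0 ≤ k → k < N → ∀ i j, RnDom (r ^ N) K i j (r ^ (N - k)) →
    D i (j + r ^ (N - k)) - D i j
      ≤ J i j (j + r ^ (N - k)) + (D (i + r ^ (N - k)) j - D i j) + (1 - d + ε) * (r : ℝ) ^ (N - k)

/-- (round-out) on the grid, mesh units: at a query which is `χ`-stationary and whose angular profile grows at rate `≥ m` on the sub-mesh -/
def RnOUT (r N k0 K : ℕ) (d ξ χ : ℝ) (D : ℕ → ℕ → ℝ) (J : ℕ → ℕ → ℕ → ℝ) : Prop :=
  ∀ k, k0 ≤ k → k < N → ∀ i j, RnDom (r ^ N) K i j (r ^ (N - k)) → ∀ m : ℝ, 0 ≤ m → m ≤ 2 →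
    J i j (j + K * r ^ (N - k)) - J (i + K * r ^ (N - k)) j (j + K * r ^ (N - k)) ≤ χ * (r : ℝ) ^ (N - k - 1) →
    (∀ l l', l ≤ l' → l' ≤ r → (m * ((l' : ℝ) - l) - χ) * (r : ℝ) ^ (N - k - 1)
      ≤ J i j (j + l' * r ^ (N - k - 1)) - J i j (j + l * r ^ (N - k - 1))) →
    (3 * d + min 1 (d + m / 2) - ξ) * (r : ℝ) ^ (N - k) ≤ D (i + r ^ (N - k)) j - D i j

/-- **RV** (lem:rt-width-derivative) on one finite law.
`H((Z,W)_r | C) = H((Z,W,θ)_r | C) - H(θ_r | (Z,W)_r, C)`;  `(Z,W,θ)_r` is determined by `(Z_r, O_r)` up to `c(A)` values (`inc`);  `H(θ_r | (Z,W)_r, C) ≥ H(θ_r | Y#, C) ≥ (d r - τ)(1 - τ) U` (`time`, `k = 0`, nested cells). -/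
theorem rn_rv (A ε : ℝ) (hA : 1 ≤ A) (hε : 0 < ε) :
    ∃ τ : ℝ, 0 < τ ∧ ∃ M0 : ℕ, ∀ (q : RnQ) (M r K : ℕ) (d es oT dv st : ℝ) (jj : ℕ → ℝ),
      0 < d → d ≤ 1 → 1 ≤ r → 1 ≤ K → M0 ≤ M → q.Ok M r K A d τ es oT dv st jj →
      dv ≤ jj r + oT + (1 - d + ε) * r := by
  exact rn_rv_main A ε hA hε

theorem rn_glue_pr_mono {Ω : Type} [Fintype Ω] (P : FLaw Ω) {E F : Ω → Prop} (h : ∀ ω, E ω → F ω) : P.pr E ≤ P.pr F := by
  classical
  unfold FLaw.pr
  refine Finset.sum_le_sum fun ω _ => ?_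
  by_cases hE : E ω
  · rw [if_pos hE, if_pos (h ω hE)]
  · rw [if_neg hE]
    split_ifs
    · exact P.nonneg ω
    · exact le_rfl

theorem rn_glue_pr_nonneg {Ω : Type} [Fintype Ω] (P : FLaw Ω) (E : Ω → Prop) : 0 ≤ P.pr E := by
  classical
  unfold FLaw.pr
  refine Finset.sum_nonneg fun ω _ => ?_
  split_ifs
  · exact P.nonneg ω
  · exact le_rfl

theorem rn_glue_pow {r N k : ℕ} (hk : k < N) : (r : ℝ) ^ (N - k) = r * (r : ℝ) ^ (N - k - 1) := by
  have e : N - k = (N - k - 1) + 1 := by omega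
  conv_lhs => rw [e]
  rw [pow_succ]
  ring

theorem rn_glue_powN {r N k : ℕ} (hk : k < N) : r ^ (N - k) = r * r ^ (N - k - 1) := by
  have e : N - k = (N - k - 1) + 1 := by omega
  conv_lhs => rw [e]
  rw [pow_succ]
  ring

/-- tolerance is monotone -/
theorem rn_ok_mono {q : RnQ} {M r K : ℕ} {A d τ τ' es oT dv st : ℝ} {jj : ℕ → ℝ} (hM : 1 ≤ M) (hτ : τ ≤ τ')
    (h : q.Ok M r K A d τ es oT dv st jj) : q.Ok M r K A d τ' es oT dv st jj := by
  have hL : 0 ≤ Real.log M := Real.log_nonneg (by exact_mod_cast hM)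
  exact
  { bdZ := h.bdZ
    bdW := h.bdW
    bdt := h.bdt
    inc := h.inc
    ofun := h.ofun
    time := fun k k' hk hk' => by
      refine le_trans (le_trans (rn_glue_pr_mono q.P fun ω hω => ?_) (h.time k k' hk hk')) hτ
      refine lt_of_lt_of_le hω (mul_le_mul_of_nonneg_right ?_ hL)
      linarith
    ang := fun k k' hk hk' => by
      refine le_trans (le_trans (rn_glue_pr_mono q.P fun ω hω => ?_) (h.ang k k' hk hk')) hτ
      refine lt_of_lt_of_le hω (mul_le_mul_of_nonneg_right ?_ hL)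
      linarith
    angU := h.angU.trans (mul_le_mul_of_nonneg_right (by linarith) hL)
    stat := h.stat.trans (mul_le_mul_of_nonneg_right (by linarith) hL)
    pt := h.pt.trans (mul_le_mul_of_nonneg_right (by linarith) hL)
    wid := le_trans (mul_le_mul_of_nonneg_right (by linarith) hL) h.wid
    slab := by
      refine le_trans (le_trans (rn_glue_pr_mono q.P fun ω hω => ?_) h.slab) hτ
      obtain ⟨n, c, h1, h2⟩ := hω
      refine ⟨n, c, h1, lt_of_le_of_lt (mul_le_mul_of_nonneg_right hτ ?_) h2⟩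
      exact rn_glue_pr_nonneg _ _ }

/-- from the laws to the grid: (rv) -/
theorem rn_prof_rv {r N k0 K M0 : ℕ} {A d ε τ es : ℝ} {D : ℕ → ℕ → ℝ} {J : ℕ → ℕ → ℕ → ℝ} (hr : 1 ≤ r)
    (hrv : ∀ (q : RnQ) (b : ℕ) (oT dv st : ℝ) (jj : ℕ → ℝ), M0 ≤ b → q.Ok (2 ^ b) r K A d τ es oT dv st jj →
      dv ≤ jj r + oT + (1 - d + ε) * r)
    (hq : ∀ k, k0 ≤ k → k < N → ∀ i j, RnDom (r ^ N) K i j (r ^ (N - k)) →
      ∃ (q : RnQ) (b : ℕ), M0 ≤ b ∧
        q.Ok (2 ^ b) r K A d τ es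
          ((D (i + r ^ (N - k)) j - D i j) / (r : ℝ) ^ (N - k - 1))
          ((D i (j + r ^ (N - k)) - D i j) / (r : ℝ) ^ (N - k - 1))
          ((J i j (j + K * r ^ (N - k)) - J (i + K * r ^ (N - k)) j (j + K * r ^ (N - k))) / (r : ℝ) ^ (N - k - 1))
          (fun l => J i j (j + l * r ^ (N - k - 1)) / (r : ℝ) ^ (N - k - 1))) :
    RnRV r N k0 K d ε D J := by
  intro k hk0 hkN i j hdom
  obtain ⟨q, b, hb, hok⟩ := hq k hk0 hkN i j hdom
  have h1 := hrv q b _ _ _ _ hb hok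
  have hS : 0 < (r : ℝ) ^ (N - k - 1) := pow_pos (by exact_mod_cast hr) _
  have e1 := rn_glue_pow (r := r) hkN
  have e2 := rn_glue_powN (r := r) hkN
  rw [← e2] at h1
  have h2 := mul_le_mul_of_nonneg_right h1 hS.le
  rw [div_mul_cancel₀ _ hS.ne', add_mul, add_mul, div_mul_cancel₀ _ hS.ne', div_mul_cancel₀ _ hS.ne', mul_assoc, ← e1] at h2
  exact h2

/-- from the laws to the grid: (round-out) -/
theorem rn_prof_out {r N k0 K M0 : ℕ} {A d ξ χ τ es : ℝ} {D : ℕ → ℕ → ℝ} {J : ℕ → ℕ → ℕ → ℝ} (hr : 1 ≤ r)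
    (hout : ∀ (q : RnQ) (b : ℕ) (oT dv st m : ℝ) (jj : ℕ → ℝ), M0 ≤ b → q.Ok (2 ^ b) r K A d τ es oT dv st jj →
      0 ≤ m → m ≤ 2 → st ≤ χ → (∀ l l', l ≤ l' → l' ≤ r → m * ((l' : ℝ) - l) - χ ≤ jj l' - jj l) →
      (3 * d + min 1 (d + m / 2) - ξ) * r ≤ oT)
    (hq : ∀ k, k0 ≤ k → k < N → ∀ i j, RnDom (r ^ N) K i j (r ^ (N - k)) →
      ∃ (q : RnQ) (b : ℕ), M0 ≤ b ∧
        q.Ok (2 ^ b) r K A d τ es
          ((D (i + r ^ (N - k)) j - D i j) / (r : ℝ) ^ (N - k - 1))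
          ((D i (j + r ^ (N - k)) - D i j) / (r : ℝ) ^ (N - k - 1))
          ((J i j (j + K * r ^ (N - k)) - J (i + K * r ^ (N - k)) j (j + K * r ^ (N - k))) / (r : ℝ) ^ (N - k - 1))
          (fun l => J i j (j + l * r ^ (N - k - 1)) / (r : ℝ) ^ (N - k - 1))) :
    RnOUT r N k0 K d ξ χ D J := by
  intro k hk0 hkN i j hdom m hm0 hm2 hst hlin
  obtain ⟨q, b, hb, hok⟩ := hq k hk0 hkN i j hdom
  have hS : 0 < (r : ℝ) ^ (N - k - 1) := pow_pos (by exact_mod_cast hr) _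
  have e1 := rn_glue_pow (r := r) hkN
  have h1 := hout q b _ _ _ m _ hb hok hm0 hm2 ((div_le_iff₀ hS).2 hst) (fun l l' hl hl' => by
    rw [← sub_div, le_div_iff₀ hS]
    exact hlin l l' hl hl')
  rw [le_div_iff₀ hS, mul_assoc, ← e1] at h1
  exact h1

end Claimed.Agent.R256
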