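import Claimed.Agent.R256.Rnd.OutMain
import Claimed.Agent.R256.Inc.Incp

/-!
# Row 256, unit RND (08B), CLASSICAL twin, file 2: the outgoing inequality `o_T ≥ 1 + 3 d`      (architect helper38)

Same pins, same geometry, same time step as for waves (`OutGeo, OutPin, OutTs, OutDir`).   Differences:
 * only the PREFIX scores of the slope are available: `rn_sel` with ONE window `[0, r]`  (`hwin` from `hpre : m l - χ ≤ jj l`, `hup : jj l ≤ 3 l + χ`);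
 * the planar unit is INC+ (`ic_incp`, helper157; `a = d`, `g = m/2 = 1 - d + Γ`, `a + g > 1`): the planar POINT `Q = (f1·O, f2·O)` has score `≥ 1 + d` given `D = q.dD`;
 * `r = N T`: the mesh step of INC+ is `T b` bits (`T` sub-steps), so that the loss `lo = 1` sub-step is small against the tolerance `χI N T`;
 * chain: `rn_out_chain` with `φ4 = f2, φ3 = f1` (`B4, B3` := the two entropies themselves, their sum is `H(Q_r | D⁺) ≥ H(Q_r | D) - I(Q_r; Z | D)`), `φ2 = m2`, `φ1 = m1`.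
LEAVES: L-256-RN-CL1 (`rn_cl_lin`), CL2 (`rn_cl_fro`, `rn_cl_win`), CL3 (`rn_cl_bq`), CL4 (`rn_cl_b12`), CL5 (`rn_cl_main`), CL6 (`rn_cl_core`), CL7 (`rn_out_cl`).
-/

set_option autoImplicit false

namespace Claimed.Agent.R256

open Claimed.Agent.R255 Claimed.Agent.R255.FLaw
open Classical

/-- the statement of `ic_incp` for fixed parameters -/
def RnINC (a g ξ A χ : ℝ) (N b : ℕ) : Prop :=
  ∀ (Ω δ : Type) [Fintype Ω] (P : FLaw Ω) (q : Ω → ℝ × ℝ) (t : Ω → ℝ) (D : Ω → δ), IcBd A q t →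
    IcLin P q t D a χ χ N b → IcFro P (icS t) D g χ χ N b →
    P.miC (icQ q (N * b)) (icS t (N * b)) D ≤ χ * ((N * b : ℕ) : ℝ) * Real.log 2 →
    P.pr (fun ω => P.surC (icQ q (N * b)) D ω < (1 + a - ξ) * ((N * b : ℕ) : ℝ) * Real.log 2) ≤ ξ

variable (q : RnQ) {n : ℕ}

/-- LEAF CL1.  **the point on its line.**   Level `i (T b) = (i T) b`.   `sur (Q | U, S, D) ≥ sur (f1·O | U, S, D)` (the planar cell determines its first coordinate; on the support)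
`≥ sur (f1·O | all Z, (U, S, D)) - t` (`ltk_lp`), `(all Z, U, S, D) ≅ (U, D⁺)`, then `rn_ts` with `x = k0`, `φ = f1`, `V = U = q.fc (2^b) (i T) ν` (`rn_ls`), depth `i T`.   If `i T < lo` the threshold is negative. -/
theorem rn_cl_lin {b K lo N T : ℕ} {A d τ es oT dv st ε χI : ℝ} {jj : ℕ → ℝ}
    (h : q.Ok (2 ^ b) (N * T) K A d τ es oT dv st jj)
    (hgrid : ∀ ω ω', q.Zc (2 ^ b) (K * (N * T)) ω = q.Zc (2 ^ b) (K * (N * T)) ω' → q.Z ω = q.Z ω')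
    (hb : 1 ≤ b) (hK : 1 ≤ K) (hA : 1 ≤ A) (hd0 : 0 ≤ d) (hes : 0 ≤ es)
    (hlo : 1 / (((2 ^ b : ℕ) : ℝ)) ^ lo ≤ rnKap A ((((2 ^ b : ℕ) : ℝ)) ^ (-(es * (N * T : ℕ)))))
    (hε : 0 < ε)
    (hlog : Real.log (11 * A * (8 * A ^ 2) + 2) + Real.log (11 * A * (8 * A ^ 2) + 3) ≤ ε * (b * Real.log 2))
    (hnum : d * lo + τ + 7 * ε ≤ χI * (N * T : ℕ))
    {i0 k0 j l : Fin n} (hik : i0 ≠ k0) (hjl : j ≠ l) (hji : j ≠ i0) (hjk : j ≠ k0) (hli : l ≠ i0) (hlk : l ≠ k0) :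
    IcLin (q.S n) (q.qq i0 k0 j) (q.sl i0 k0 j) (q.dD i0 k0 j) d χI
      (rnPts n st τ ε (b * Real.log 2) + Real.exp (-(ε * (b * Real.log 2)))) N (T * b) := by
  intro i hi
  have hL : 0 < Real.log 2 := Real.log_pos one_lt_two
  have hb0 : (0 : ℝ) < b := by exact_mod_cast hb
  have hU : 0 < (b : ℝ) * Real.log 2 := by positivity
  have hlogM : Real.log ((2 ^ b : ℕ) : ℝ) = b * Real.log 2 := by
    push_cast
    rw [Real.log_pow]
  have hM2 : 2 ≤ 2 ^ b := by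
    calc 2 = 2 ^ 1 := by norm_num
      _ ≤ 2 ^ b := Nat.pow_le_pow_right (by norm_num) hb
  have hM1 : 1 ≤ 2 ^ b := Nat.one_le_two_pow
  have hτ : 0 ≤ τ := le_trans (ent_pr_nonneg _ _) (h.time 0 0 le_rfl (Nat.zero_le _))
  have hst : 0 ≤ st + τ := by
    have h1 := le_trans (ent_miC_nonneg _ _ _ _) h.stat
    rw [hlogM] at h1
    by_contra hneg
    push Not at hneg
    have := mul_neg_of_neg_of_pos hneg hU
    linarith
  have hA0 : (0 : ℝ) < A := by linarith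
  obtain ⟨u, hu⟩ : ∃ u : ℕ, u = i * T := ⟨_, rfl⟩
  have e1 : i * (T * b) = u * b := by rw [hu]; ring
  have e2 : N * (T * b) = (N * T) * b := by ring
  have huNT : u ≤ N * T := by rw [hu]; exact Nat.mul_le_mul_right T hi
  rw [e1, e2]
  have ethr : (d * ((u * b : ℕ) : ℝ) - χI * (((N * T) * b : ℕ) : ℝ)) * Real.log 2
      = (d * u - χI * ((N * T : ℕ) : ℝ)) * (b * Real.log 2) := by
    push_cast
    ring
  rw [ethr]
  have hexp := (Real.exp_pos (-(ε * (b * Real.log 2)))).le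
  by_cases hul : u < lo
  · -- negative threshold
    have hpts : 0 ≤ rnPts n st τ ε (b * Real.log 2) := by
      unfold rnPts
      have h1 : 0 ≤ (n * ((st + τ) * (b * Real.log 2)) + 1) / (ε * (b * Real.log 2)) := by positivity
      have h2 : 0 ≤ 4 * (n : ℝ) ^ 2 * τ := by positivity
      linarith
    rw [ent_pr_eq_zero _ fun y hy hlt => ?_]
    · linarith
    · have h0 := ent_surC_nonneg (q.S n) (icQ (q.qq i0 k0 j) (u * b))
        (pair (icU (q.qq i0 k0 j) (q.sl i0 k0 j) (u * b)) (pair (icS (q.sl i0 k0 j) (u * b)) (q.dD i0 k0 j))) hy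
      have h1 : (u : ℝ) ≤ lo := by exact_mod_cast hul.le
      have h2 : d * u ≤ d * lo := mul_le_mul_of_nonneg_left h1 hd0
      have h3 : d * u - χI * ((N * T : ℕ) : ℝ) ≤ 0 := by linarith
      have h4 : (d * u - χI * ((N * T : ℕ) : ℝ)) * (b * Real.log 2) ≤ 0 :=
        mul_nonpos_of_nonpos_of_nonneg h3 hU.le
      linarith
  push Not at hul
  set M : ℕ := 2 ^ b with hMdef
  set ϖ : ℝ := ((M : ℕ) : ℝ) ^ (-(es * ((N * T : ℕ) : ℝ))) with hϖdef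
  have hMr : (1 : ℝ) ≤ (M : ℝ) := by exact_mod_cast hM1
  have hϖ : 0 < ϖ := Real.rpow_pos_of_pos (by linarith) _
  have hϖ1 : ϖ ≤ 1 := Real.rpow_le_one_of_one_le_of_nonpos hMr (by
    have : 0 ≤ es * ((N * T : ℕ) : ℝ) := mul_nonneg hes (Nat.cast_nonneg _)
    linarith)
  have hκ : 0 < rnKap A ϖ := by unfold rnKap; positivity
  have hzs : ∀ y y' : q.Om n, q.zs Finset.univ y = q.zs Finset.univ y' → ∀ i, q.Z (y.2 i) = q.Z (y'.2 i) := fun y y' hy i => by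
    have := congrFun hy i
    simpa [RnQ.zs] using this
  have hB := fun (y : q.Om n) i => rn_geo_bd hA (a := q.Z (y.2 i0)) (b := q.Z (y.2 j)) (h.bdZ _) (h.bdZ _) (q.Z (y.2 k0)) i
  have hB0 : (0 : ℝ) ≤ 8 * A ^ 2 := by positivity
  have hV0 := rn_ls q h hM1 hA hB0 k0 (q.nu i0 k0 j) (fun y y' hy => by simp only [RnQ.nu, hzs y y' hy])
    (fun y i => (hB y i).2.2.2.2.2.2) (fun y => rn_geo_nu_c _ _ _) (j := u) (huNT.trans (Nat.le_mul_of_pos_left _ hK))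
  have hV : (q.S n).NVal (q.Tr ϖ (ϖ ^ 4 / (72 * A ^ 3)) i0 k0) (q.fc M u (q.nu i0 k0 j))
      (pair (q.pY M (K * (N * T)) k0) q.dp) (11 * A * (8 * A ^ 2) + 2) :=
    ltk_nval_mono _ hV0 (fun _ _ => trivial) (fun _ _ h' => h') ⟨id, fun _ => rfl⟩ le_rfl
  have hts := rn_ts q h hgrid hM2 hK hA hB0 k0 (q.f1 i0 k0 j) (fun y y' hy => by simp only [RnQ.f1, hzs y y' hy])
    (fun y i => (hB y i).2.2.2.2.1) (q.Tr ϖ (ϖ ^ 4 / (72 * A ^ 3)) i0 k0) hκ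
    (fun y hy => (rn_tr_speed q hA hϖ hϖ1 hik hjl hji hjk hli hlk hy).2.1) hlo hul huNT
    (q.fc M u (q.nu i0 k0 j)) (by nlinarith [sq_nonneg A]) hV hε (by rw [hlogM]; exact hlog)
  have htr := rn_tr_prob q h hM1 hA i0 k0 hik
  rw [hlogM] at hts
  have hlp := ltk_lp (q.S n) (icX (q.qq i0 k0 j) (u * b))
    (pair (icU (q.qq i0 k0 j) (q.sl i0 k0 j) (u * b)) (pair (icS (q.sl i0 k0 j) (u * b)) (q.dD i0 k0 j)))
    (q.zs Finset.univ) (ε * (b * Real.log 2))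
  refine le_trans (le_trans (ent_pr_mono _ fun y hy0 hy => ?_) (ent_pr_or_le _ _ _)) (add_le_add (hts.trans ?_) hlp)
  · by_contra hcon
    push Not at hcon
    obtain ⟨c1, c2⟩ := hcon
    -- the planar cell determines its first coordinate
    have s1 : (q.S n).surC (icX (q.qq i0 k0 j) (u * b))
          (pair (icU (q.qq i0 k0 j) (q.sl i0 k0 j) (u * b)) (pair (icS (q.sl i0 k0 j) (u * b)) (q.dD i0 k0 j))) y
        ≤ (q.S n).surC (icQ (q.qq i0 k0 j) (u * b))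
          (pair (icU (q.qq i0 k0 j) (q.sl i0 k0 j) (u * b)) (pair (icS (q.sl i0 k0 j) (u * b)) (q.dD i0 k0 j))) y := by
      have k1 := ent_surC_chain (q.S n) (icX (q.qq i0 k0 j) (u * b)) (fun y => icCell (u * b) (q.qq i0 k0 j y).2)
        (pair (icU (q.qq i0 k0 j) (q.sl i0 k0 j) (u * b)) (pair (icS (q.sl i0 k0 j) (u * b)) (q.dD i0 k0 j))) hy0
      have k2 := ent_surC_nonneg (q.S n) (fun y => icCell (u * b) (q.qq i0 k0 j y).2)
        (pair (icX (q.qq i0 k0 j) (u * b))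
          (pair (icU (q.qq i0 k0 j) (q.sl i0 k0 j) (u * b)) (pair (icS (q.sl i0 k0 j) (u * b)) (q.dD i0 k0 j)))) hy0
      have k3 : icQ (q.qq i0 k0 j) (u * b) = pair (icX (q.qq i0 k0 j) (u * b)) (fun y => icCell (u * b) (q.qq i0 k0 j y).2) := rfl
      rw [k3, k1]
      linarith
    have hc : (q.S n).surC (icX (q.qq i0 k0 j) (u * b)) (pair (q.zs Finset.univ)
          (pair (icU (q.qq i0 k0 j) (q.sl i0 k0 j) (u * b)) (pair (icS (q.sl i0 k0 j) (u * b)) (q.dD i0 k0 j)))) y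
        = (q.S n).surC (q.fc M u (q.f1 i0 k0 j)) (pair (q.fc M u (q.nu i0 k0 j)) q.dp) y := by
      rw [rn_br_u, rn_br_x, rn_br_s]
      refine ent_surC_congr _ _ _ _ _ _ (fun y' _ => ?_) (fun _ _ _ => Iff.rfl)
      simp only [FLaw.pair, RnQ.dD, RnQ.dp, Prod.mk.injEq]
      constructor
      · rintro ⟨h2, h1, _, ⟨h3, _⟩, _⟩
        exact ⟨h1, h3, h2⟩
      · rintro ⟨h1, h2, h3⟩
        refine ⟨h3, h1, ?_, ⟨h2, ?_⟩, ?_⟩
        · simp only [RnQ.sc, RnQ.sl, hzs y' y h3]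
        · funext i
          have := congrFun h3 i
          simp only [RnQ.zs, Finset.mem_univ, if_true] at this
          simp only [RnQ.zs]
          split_ifs
          · exact this
          · rfl
        · simp only [RnQ.bit, hzs y' y h3]
    rw [hc] at c2
    have k5 : (d * u - χI * ((N * T : ℕ) : ℝ)) * (b * Real.log 2) + ε * (b * Real.log 2)
        ≤ (d * ((u : ℝ) - lo) - τ - 6 * ε) * (b * Real.log 2) := by
      rw [← add_mul]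
      refine mul_le_mul_of_nonneg_right ?_ hU.le
      linarith
    linarith
  · unfold rnPts
    linarith

/-- LEAF CL2.  **prefix scores of the slope.**   `sur (S_u | D) + t ≥ sur (S_u | (S_0, (C', D)), D) = q.dsc .. u 0` (`ltk_lp`), `u = i T`. -/
theorem rn_cl_fro {b N T : ℕ} {ε g χ₁ χI p₁ : ℝ} (i0 k0 j : Fin n)
    (hsel : (q.S n).pr (fun y => ∃ w < 1, ∃ u ≤ N * T,
      q.dsc (2 ^ b) i0 k0 j (w * (N * T) + u) (w * (N * T)) y < (g * u - χ₁ * (N * T : ℕ)) * Real.log ((2 ^ b : ℕ) : ℝ)) ≤ p₁)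
    (hnum : χ₁ * (N * T : ℕ) + ε ≤ χI * (N * T : ℕ)) :
    IcFro (q.S n) (icS (q.sl i0 k0 j)) (q.dD i0 k0 j) g χI (p₁ + Real.exp (-(ε * (b * Real.log 2)))) N (T * b) := by
  intro i hi
  have hl2 : 0 < Real.log 2 := Real.log_pos one_lt_two
  have hlog : Real.log ((2 ^ b : ℕ) : ℝ) = b * Real.log 2 := by
    push_cast
    rw [Real.log_pow]
  have hiT : i * T ≤ N * T := Nat.mul_le_mul_right T hi
  have e0 : icS (q.sl i0 k0 j) (i * (T * b)) = q.sc (2 ^ b) (i * T) i0 k0 j := by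
    rw [← mul_assoc]; exact rn_br_s q b (i * T) i0 k0 j
  rw [e0]
  have h2 := ltk_lp (q.S n) (q.sc (2 ^ b) (i * T) i0 k0 j) (q.dD i0 k0 j)
    (pair (q.sc (2 ^ b) 0 i0 k0 j) (pair q.nC' (q.dD i0 k0 j))) (ε * (b * Real.log 2))
  refine le_trans (le_trans (ent_pr_mono (q.S n) fun y _ hbad => ?_) (ent_pr_or_le (q.S n) _ _)) (add_le_add hsel h2)
  by_contra hcon
  push Not at hcon
  obtain ⟨c1, c2⟩ := hcon
  have c3 := c1 0 one_pos (i * T) hiT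
  rw [hlog] at c3
  have c4 : q.dsc (2 ^ b) i0 k0 j (0 * (N * T) + i * T) (0 * (N * T)) y
      = (q.S n).surC (q.sc (2 ^ b) (i * T) i0 k0 j) (pair (pair (q.sc (2 ^ b) 0 i0 k0 j) (pair q.nC' (q.dD i0 k0 j))) (q.dD i0 k0 j)) y := by
    rw [zero_mul, zero_add]; rfl
  rw [c4] at c3
  have hb0 : (0 : ℝ) ≤ b * Real.log 2 := by positivity
  have h5 : (χ₁ * (N * T : ℕ) + ε) * (b * Real.log 2) ≤ (χI * (N * T : ℕ)) * (b * Real.log 2) := mul_le_mul_of_nonneg_right hnum hb0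
  have e1 : (g * ((i * (T * b) : ℕ) : ℝ) - χI * ((N * (T * b) : ℕ) : ℝ)) * Real.log 2
      = g * ((i * T : ℕ) : ℝ) * (b * Real.log 2) - (χI * (N * T : ℕ)) * (b * Real.log 2) := by
    push_cast; ring
  rw [e1] at hbad
  have e2 : (g * ((i * T : ℕ) : ℝ) - χ₁ * ((N * T : ℕ) : ℝ)) * (b * Real.log 2)
      = g * ((i * T : ℕ) : ℝ) * (b * Real.log 2) - (χ₁ * (N * T : ℕ) + ε) * (b * Real.log 2) + ε * (b * Real.log 2) := by ring
  rw [e2] at c3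
  linarith

/-- LEAF CL2.  the window hypotheses of `rn_sel` (`N := 1`, `R := r`) from the prefix bounds -/
theorem rn_cl_win {lo r : ℕ} {τ ε m g χ χ₁ : ℝ} {jj : ℕ → ℝ} (hτ : 0 ≤ τ) (hε : 0 < ε) (hχ : 0 ≤ χ)
    (hm0 : 0 ≤ m) (hm2 : m ≤ 2) (hgm : g = m / 2)
    (hpre : ∀ l, l ≤ r → m * l - χ ≤ jj l) (hup : ∀ l, l ≤ r → jj l ≤ 3 * l + χ)
    (hnum : 5 * lo + 2 * χ + τ + 9 * ε ≤ 2 * (χ₁ * r)) :
    (∀ w < 1, ∀ u ≤ r, 2 * lo ≤ u → 2 * (g * u - χ₁ * r) ≤ jj (w * r + u - lo) - jj (w * r + lo) - τ - 9 * ε) ∧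
      (∀ u : ℕ, u < 2 * lo → g * u - χ₁ * r ≤ 0) := by
  have hlo0 : (0 : ℝ) ≤ lo := Nat.cast_nonneg lo
  constructor
  · intro w hw u hu hlu
    have hw0 : w = 0 := by omega
    subst hw0
    rw [zero_mul, zero_add, zero_add]
    have h1 := hpre (u - lo) (by omega)
    have h2 := hup lo (by omega)
    have h3 : ((u - lo : ℕ) : ℝ) = (u : ℝ) - lo := by
      rw [Nat.cast_sub (by omega)]
    rw [h3] at h1
    have h4 : m * lo ≤ 2 * lo := mul_le_mul_of_nonneg_right hm2 hlo0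
    rw [hgm]
    have e : m * ((u : ℝ) - lo) = m * u - m * lo := by ring
    rw [e] at h1
    have e2 : 2 * (m / 2 * (u : ℝ) - χ₁ * r) = m * u - 2 * (χ₁ * r) := by ring
    rw [e2]
    linarith
  · intro u hu
    have h1 : (u : ℝ) ≤ 2 * lo := by exact_mod_cast hu.le
    have h2 : m / 2 * (u : ℝ) ≤ m / 2 * (2 * lo) := mul_le_mul_of_nonneg_left h1 (by linarith)
    have h4 : m * lo ≤ 2 * lo := mul_le_mul_of_nonneg_right hm2 hlo0
    rw [hgm]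
    have e : m / 2 * (2 * (lo : ℝ)) = m * lo := by ring
    rw [e] at h2
    linarith

theorem rn_br_q (b u : ℕ) (i0 k0 j : Fin n) :
    icQ (q.qq i0 k0 j) (u * b) = pair (q.fc (2 ^ b) u (q.f1 i0 k0 j)) (q.fc (2 ^ b) u (q.f2 i0 k0 j)) := by
  funext y
  simp only [icQ, icCell, RnQ.fc, rn_cell_two, RnQ.qq, mul_comm b u, FLaw.pair]

/-- LEAF CL3.  **INC+ applied.**   `rn_out_bd`;  `I(Q_r; S_r | D) ≤ I((C',D); all Z | D) ≤ (st + τ) log M` (`ent_miC_mono` twice, `rn_out_pt`, `rn_out_tag`, `rn_pin_info_fp`, `rn_grid_stat`);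
`ltk_ent_ge`;  `icQ (q.qq ..) ((N T) b) = pair (fc f1) (fc f2)` (`rn_br_x` and its twin);  `H(Q | D⁺) = H(Q | all Z, D) = H(Q | D) - I(Q; all Z | D)` (`ent_miC_eq`). -/
theorem rn_cl_bq {b K N T : ℕ} {A d τ es oT dv st χI g ξ' pl pf : ℝ} {jj : ℕ → ℝ}
    (h : q.Ok (2 ^ b) (N * T) K A d τ es oT dv st jj)
    (hgrid : ∀ ω ω', q.Zc (2 ^ b) (K * (N * T)) ω = q.Zc (2 ^ b) (K * (N * T)) ω' → q.Z ω = q.Z ω')
    (hA : 1 ≤ A) (hd0 : 0 ≤ d) (hξ1 : ξ' ≤ 1) {i0 k0 j : Fin n} (hik : i0 ≠ k0) (hjk : j ≠ k0)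
    (HI : RnINC d g ξ' (128 * A ^ 5) χI N (T * b))
    (hlin : IcLin (q.S n) (q.qq i0 k0 j) (q.sl i0 k0 j) (q.dD i0 k0 j) d χI pl N (T * b)) (hpl : pl ≤ χI)
    (hfro : IcFro (q.S n) (icS (q.sl i0 k0 j)) (q.dD i0 k0 j) g χI pf N (T * b)) (hpf : pf ≤ χI)
    (hst : st + τ ≤ χI * (N * T : ℕ)) :
    (1 + d - ξ') * ((N * T : ℕ) : ℝ) * (b * Real.log 2) * (1 - ξ') - (st + τ) * (b * Real.log 2)
      ≤ (q.S n).entC (pair (q.fc (2 ^ b) (N * T) (q.f1 i0 k0 j)) (q.fc (2 ^ b) (N * T) (q.f2 i0 k0 j))) q.dp := by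
  have hL : 0 < Real.log 2 := Real.log_pos one_lt_two
  have hb0 : (0 : ℝ) ≤ b := Nat.cast_nonneg b
  have hU : 0 ≤ (b : ℝ) * Real.log 2 := by positivity
  have hlogM : Real.log ((2 ^ b : ℕ) : ℝ) = b * Real.log 2 := by
    push_cast
    rw [Real.log_pow]
  have hM1 : 1 ≤ 2 ^ b := Nat.one_le_two_pow
  have e2 : N * (T * b) = (N * T) * b := by ring
  obtain ⟨Q, hQ⟩ : ∃ Q, Q = icQ (q.qq i0 k0 j) (N * (T * b)) := ⟨_, rfl⟩
  have hzs : ∀ y y' : q.Om n, q.zs Finset.univ y = q.zs Finset.univ y' → ∀ i, q.Z (y.2 i) = q.Z (y'.2 i) := fun y y' hy i => by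
    have := congrFun hy i
    simpa [RnQ.zs] using this
  -- information
  have i1 : (q.S n).miC Q (q.zs Finset.univ) (q.dD i0 k0 j) ≤ (st + τ) * (b * Real.log 2) := by
    have a1 : (q.S n).miC (q.zs Finset.univ) Q (q.dD i0 k0 j)
        ≤ (q.S n).miC (q.zs Finset.univ) (pair q.nC' (q.dD i0 k0 j)) (q.dD i0 k0 j) :=
      ent_miC_mono (q.S n) _ _ _ _ fun y y' _ _ he _ => by
        rw [hQ]
        simp only [icQ, rn_out_pt q hik hjk y y' he]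
    have a2 := rn_pin_info_fp q k0 (q.bit i0 k0 j) (fun y y' he => by simp only [RnQ.bit, hzs y y' he])
    have a3 := rn_grid_stat q h hgrid
    rw [hlogM] at a3
    rw [ent_miC_comm]
    rw [ent_miC_comm] at a2
    exact a1.trans (a2.trans a3)
  have i2 : (q.S n).miC Q (icS (q.sl i0 k0 j) (N * (T * b))) (q.dD i0 k0 j) ≤ χI * ((N * (T * b) : ℕ) : ℝ) * Real.log 2 := by
    have a1 : (q.S n).miC Q (icS (q.sl i0 k0 j) (N * (T * b))) (q.dD i0 k0 j) ≤ (q.S n).miC Q (q.zs Finset.univ) (q.dD i0 k0 j) :=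
      ent_miC_mono (q.S n) _ _ _ _ fun y y' _ _ he _ => by
        simp only [icS, rn_out_tag q i0 k0 j y y' he]
    refine a1.trans (i1.trans ?_)
    have a2 : χI * ((N * (T * b) : ℕ) : ℝ) * Real.log 2 = (χI * ((N * T : ℕ) : ℝ)) * (b * Real.log 2) := by
      push_cast
      ring
    rw [a2]
    exact mul_le_mul_of_nonneg_right hst hU
  rw [hQ] at i2
  have c1 := HI (q.Om n) _ (q.S n) (q.qq i0 k0 j) (q.sl i0 k0 j) (q.dD i0 k0 j) (rn_out_bd q h hM1 hA i0 k0 j)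
    (ic_lin_mono le_rfl hpl hlin) (ic_fro_mono le_rfl hpf hfro) i2
  rw [← hQ] at c1
  have hc0 : 0 ≤ (1 + d - ξ') * ((N * (T * b) : ℕ) : ℝ) * Real.log 2 := by
    have : 0 ≤ 1 + d - ξ' := by linarith
    positivity
  have c2 := ltk_ent_ge (q.S n) Q (q.dD i0 k0 j) hc0 c1
  have c3 := ent_miC_eq (q.S n) Q (q.zs Finset.univ) (q.dD i0 k0 j)
  have c4 : (q.S n).entC Q (pair (q.zs Finset.univ) (q.dD i0 k0 j)) = (q.S n).entC Q q.dp := by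
    refine ent_entC_congr (q.S n) _ _ _ _ (fun y y' _ _ => ?_) (fun _ _ _ _ _ => Iff.rfl)
    simp only [FLaw.pair, RnQ.dD, RnQ.dp, Prod.mk.injEq]
    constructor
    · rintro ⟨h2, ⟨h3, _⟩, _⟩
      exact ⟨h3, h2⟩
    · rintro ⟨h2, h3⟩
      refine ⟨h3, ⟨h2, ?_⟩, ?_⟩
      · funext i
        have := congrFun h3 i
        simp only [RnQ.zs, Finset.mem_univ, if_true] at this
        simp only [RnQ.zs]
        split_ifs
        · exact this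
        · rfl
      · simp only [RnQ.bit, hzs y y' h3]
  have c5 : Q = pair (q.fc (2 ^ b) (N * T) (q.f1 i0 k0 j)) (q.fc (2 ^ b) (N * T) (q.f2 i0 k0 j)) := by
    rw [hQ, e2, rn_br_q]
  rw [← c5, ← c4]
  have c6 : (1 + d - ξ') * ((N * (T * b) : ℕ) : ℝ) * Real.log 2 = (1 + d - ξ') * ((N * T : ℕ) : ℝ) * (b * Real.log 2) := by
    push_cast
    ring
  rw [c6] at c2
  linarith

/-- LEAF CL4.  two time steps (`rn_ts_ent`, pins `j`, `i0`; `f1, f2` kill `E_i0, E_j`; `m2` kills `E_i0`; lists by `rn_ls`, `ltk_nval_comp`) -/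
theorem rn_cl_b12 {M r K lo : ℕ} {A d τ es oT dv st ε : ℝ} {jj : ℕ → ℝ} (h : q.Ok M r K A d τ es oT dv st jj)
    (hgrid : ∀ ω ω', q.Zc M (K * r) ω = q.Zc M (K * r) ω' → q.Z ω = q.Z ω')
    (hM : 2 ≤ M) (hK : 1 ≤ K) (hA : 1 ≤ A) (hes : 0 ≤ es)
    (hlo : 1 / (M : ℝ) ^ lo ≤ rnKap A ((M : ℝ) ^ (-(es * r)))) (hlor : lo ≤ r) (hε : 0 < ε)
    (hlog : 3 * Real.log (11 * A * (8 * A ^ 2) + 2) + Real.log (11 * A * (8 * A ^ 2) + 3) ≤ ε * Real.log M)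
    (hpos : 0 ≤ d * ((r : ℝ) - lo) - τ - 6 * ε)
    {i0 k0 j l : Fin n} (hik : i0 ≠ k0) (hjl : j ≠ l) (hji : j ≠ i0) (hjk : j ≠ k0) (hli : l ≠ i0) (hlk : l ≠ k0) :
    (d * ((r : ℝ) - lo) - τ - 6 * ε) * Real.log M * (1 - rnPts n st τ ε (Real.log M))
        ≤ (q.S n).entC (q.fc M r (q.m2 i0 j)) (pair (pair (q.fc M r (q.f1 i0 k0 j)) (q.fc M r (q.f2 i0 k0 j))) q.dp) ∧
    (d * ((r : ℝ) - lo) - τ - 6 * ε) * Real.log M * (1 - rnPts n st τ ε (Real.log M))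
        ≤ (q.S n).entC (q.fc M r q.m1)
            (pair (pair (q.fc M r (q.m2 i0 j)) (pair (q.fc M r (q.f1 i0 k0 j)) (q.fc M r (q.f2 i0 k0 j)))) q.dp) := by
  have hM1 : 1 ≤ M := by omega
  have hMr : (1 : ℝ) ≤ (M : ℝ) := by exact_mod_cast hM1
  have hA0 : (0 : ℝ) < A := by linarith
  have hϖ : 0 < (M : ℝ) ^ (-(es * r)) := Real.rpow_pos_of_pos (by linarith) _
  have hϖ1 : (M : ℝ) ^ (-(es * r)) ≤ 1 := Real.rpow_le_one_of_one_le_of_nonpos hMr (by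
    have : 0 ≤ es * (r : ℝ) := mul_nonneg hes (Nat.cast_nonneg _)
    linarith)
  have hzs : ∀ y y' : q.Om n, q.zs Finset.univ y = q.zs Finset.univ y' → ∀ i, q.Z (y.2 i) = q.Z (y'.2 i) := fun y y' hy i => by
    have := congrFun hy i
    simpa [RnQ.zs] using this
  have hB := fun (y : q.Om n) i => rn_geo_bd hA (a := q.Z (y.2 i0)) (b := q.Z (y.2 j)) (h.bdZ _) (h.bdZ _) (q.Z (y.2 k0)) i
  have hB0 : (0 : ℝ) ≤ 8 * A ^ 2 := by positivity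
  have hrK : r ≤ K * r := Nat.le_mul_of_pos_left _ hK
  set NV0 : ℝ := 11 * A * (8 * A ^ 2) + 2 with hNV0
  have hNV1 : 1 ≤ NV0 := by rw [hNV0]; nlinarith [sq_nonneg A]
  have hNVp : 0 < NV0 := by linarith
  have hl0 : 0 ≤ Real.log NV0 := Real.log_nonneg hNV1
  have ff2 : ∀ y y', q.zs Finset.univ y = q.zs Finset.univ y' → q.f2 i0 k0 j y = q.f2 i0 k0 j y' :=
    fun y y' hy => by simp only [RnQ.f2, hzs y y' hy]
  have ff1 : ∀ y y', q.zs Finset.univ y = q.zs Finset.univ y' → q.f1 i0 k0 j y = q.f1 i0 k0 j y' :=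
    fun y y' hy => by simp only [RnQ.f1, hzs y y' hy]
  have fm2 : ∀ y y', q.zs Finset.univ y = q.zs Finset.univ y' → q.m2 i0 j y = q.m2 i0 j y' :=
    fun y y' hy => by simp only [RnQ.m2, hzs y y' hy]
  have bf2 : ∀ y i, |q.f2 i0 k0 j y i| ≤ 8 * A ^ 2 := fun y i => (hB y i).2.2.2.2.2.1
  have bf1 : ∀ y i, |q.f1 i0 k0 j y i| ≤ 8 * A ^ 2 := fun y i => (hB y i).2.2.2.2.1
  have bm2 : ∀ y i, |q.m2 i0 j y i| ≤ 8 * A ^ 2 := fun y i => (hB y i).2.2.1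
  have bm1 : ∀ (y : q.Om n) i, |q.m1 y i| ≤ 8 * A ^ 2 := fun y i => (hB y i).2.2.2.1
  have sp := fun y hy => rn_tr_speed q hA hϖ hϖ1 hik hjl hji hjk hli hlk (y := y) hy
  refine ⟨?_, ?_⟩
  · have l1 := rn_ls q h hM1 hA hB0 j (q.f2 i0 k0 j) ff2 bf2 (fun y => rn_geo_f2_b _ _ _) hrK
    have l2 := rn_ls q h hM1 hA hB0 j (q.f1 i0 k0 j) ff1 bf1 (fun y => rn_geo_f1_b _ _ _) hrK
    have l3 := ltk_nval_comp _ _ _ _ _ hNVp.le l1
      (ltk_nval_mono _ l2 (fun _ h' => h') (fun _ _ h' => (Prod.mk.inj h').2) ⟨id, fun _ => rfl⟩ le_rfl)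
    exact rn_out_step q h hgrid hM hK hA hes hlo hlor hε hpos hik j (q.m2 i0 j) fm2 bm2 (fun y hy => (sp y hy).2.2.1)
      _ (by nlinarith) l3 (by rw [Real.log_mul hNVp.ne' hNVp.ne']; linarith)
  · have l1 := rn_ls q h hM1 hA hB0 i0 (q.f2 i0 k0 j) ff2 bf2 (fun y => rn_geo_f2_a _ _ _) hrK
    have l2 := rn_ls q h hM1 hA hB0 i0 (q.f1 i0 k0 j) ff1 bf1 (fun y => rn_geo_f1_a _ _ _) hrK
    have l2' := rn_ls q h hM1 hA hB0 i0 (q.m2 i0 j) fm2 bm2 (fun y => by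
      simp only [RnQ.m2, rn_geo_dotM2]; ring) hrK
    have l3 := ltk_nval_comp _ _ _ _ _ hNVp.le l1
      (ltk_nval_mono _ l2 (fun _ h' => h') (fun _ _ h' => (Prod.mk.inj h').2) ⟨id, fun _ => rfl⟩ le_rfl)
    have l4 := ltk_nval_comp _ _ _ _ _ hNVp.le l3
      (ltk_nval_mono _ l2' (fun _ h' => h') (fun _ _ h' => (Prod.mk.inj h').2) ⟨id, fun _ => rfl⟩ le_rfl)
    have hNN : 0 < NV0 * NV0 := by positivity
    exact rn_out_step q h hgrid hM hK hA hes hlo hlor hε hpos hik i0 q.m1 (fun _ _ _ => rfl) bm1 (fun y hy => (sp y hy).2.2.2)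
      _ (by nlinarith) l4 (by rw [Real.log_mul hNN.ne' hNVp.ne', Real.log_mul hNVp.ne' hNVp.ne']; linarith)

/-- LEAF CL5.  assembly: `rn_sel` (`N := 1`, `R := N T`, `rn_cl_win`), `rn_cl_fro`, `rn_cl_lin`, `rn_cl_bq`, `rn_cl_b12`, `rn_out_chain` (header). -/
theorem rn_cl_main {b K lo N T : ℕ} {A d τ es oT dv st ε χ χ₁ χI m ξ' : ℝ} {jj : ℕ → ℝ}
    (h : q.Ok (2 ^ b) (N * T) K A d τ es oT dv st jj)
    (hgrid : ∀ ω ω', q.Zc (2 ^ b) (K * (N * T)) ω = q.Zc (2 ^ b) (K * (N * T)) ω' → q.Z ω = q.Z ω')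
    (hb : 1 ≤ b) (hK : 1 ≤ K) (hA : 1 ≤ A) (hd0 : 0 ≤ d) (hes : 0 ≤ es) (hξ1 : ξ' ≤ 1) (hχ : 0 ≤ χ)
    (hlo : 1 / (((2 ^ b : ℕ) : ℝ)) ^ lo ≤ rnKap A ((((2 ^ b : ℕ) : ℝ)) ^ (-(es * (N * T : ℕ))))) (hlor : lo ≤ N * T)
    (hε : 0 < ε)
    (hlog : 3 * Real.log (11 * A * (8 * A ^ 2) + 2) + Real.log (11 * A * (8 * A ^ 2) + 3) ≤ ε * (b * Real.log 2))
    (hlog36 : Real.log 36 ≤ ε * (b * Real.log 2))
    (hpos : 0 ≤ d * (((N * T : ℕ) : ℝ) - lo) - τ - 6 * ε) (hn : 4 ≤ n)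
    (hm0 : 0 ≤ m) (hm2 : m ≤ 2)
    (hpre : ∀ l, l ≤ N * T → m * l - χ ≤ jj l) (hup : ∀ l, l ≤ N * T → jj l ≤ 3 * l + χ)
    (hnum1 : d * lo + τ + 7 * ε ≤ χI * (N * T : ℕ)) (hnum2 : 5 * lo + 2 * χ + τ + 9 * ε ≤ 2 * (χ₁ * (N * T : ℕ)))
    (hnum3 : χ₁ * (N * T : ℕ) + ε ≤ χI * (N * T : ℕ)) (hst : st + τ ≤ χI * (N * T : ℕ))
    (HI : RnINC d (m / 2) ξ' (128 * A ^ 5) χI N (T * b))
    (hp1 : rnPts n st τ ε (b * Real.log 2) + Real.exp (-(ε * (b * Real.log 2))) ≤ χI)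
    (hp2 : rnPsel n 1 (N * T) st τ ε (b * Real.log 2) + Real.exp (-(ε * (b * Real.log 2))) ≤ χI) :
    (1 + d - ξ') * ((N * T : ℕ) : ℝ) * (b * Real.log 2) * (1 - ξ') - (st + τ) * (b * Real.log 2)
      + 2 * ((d * (((N * T : ℕ) : ℝ) - lo) - τ - 6 * ε) * (b * Real.log 2) * (1 - rnPts n st τ ε (b * Real.log 2)))
      - 4 * Real.log (4 * (8 * A ^ 2) + 2) ≤ (oT + τ) * (b * Real.log 2) := by
  have hlogM : Real.log ((2 ^ b : ℕ) : ℝ) = b * Real.log 2 := by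
    push_cast
    rw [Real.log_pow]
  have hM2 : 2 ≤ 2 ^ b := by
    calc 2 = 2 ^ 1 := by norm_num
      _ ≤ 2 ^ b := Nat.pow_le_pow_right (by norm_num) hb
  have hl0 : 0 ≤ Real.log (11 * A * (8 * A ^ 2) + 2) := Real.log_nonneg (by nlinarith [sq_nonneg A])
  obtain ⟨i0, k0, hik⟩ : ∃ i0 k0 : Fin n, i0 ≠ k0 :=
    ⟨⟨0, by omega⟩, ⟨1, by omega⟩, fun hh => by simpa using Fin.mk.inj_iff.1 hh⟩
  have hτ : 0 ≤ τ := le_trans (ent_pr_nonneg _ _) (h.time 0 0 le_rfl (Nat.zero_le _))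
  obtain ⟨hwin, hsm⟩ := rn_cl_win (lo := lo) (r := N * T) (χ₁ := χ₁) (g := m / 2) hτ hε hχ hm0 hm2 rfl hpre hup hnum2
  obtain ⟨j, hji, hjk, hsel0⟩ := rn_sel q (N := 1) (R := N * T) (lo := lo) (g := m / 2) (χF := χ₁) (ε := ε) (by rw [one_mul]; exact h) hM2 hK hA hes
    (by rw [one_mul]; exact hlo) hε (by rw [hlogM]; exact hlog36) hwin hsm i0 k0 hik (by omega)
  have hsel : (q.S n).pr (fun y => ∃ w < 1, ∃ u ≤ N * T,
      q.dsc (2 ^ b) i0 k0 j (w * (N * T) + u) (w * (N * T)) y < (m / 2 * u - χ₁ * (N * T : ℕ)) * Real.log ((2 ^ b : ℕ) : ℝ))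
        ≤ rnPsel n 1 (N * T) st τ ε (b * Real.log 2) := by
    refine hsel0.trans (le_of_eq ?_)
    rw [hlogM]
    rfl
  obtain ⟨l, hl⟩ : ∃ l : Fin n, l ∉ ({i0, k0, j} : Finset (Fin n)) := by
    by_contra hcon
    push Not at hcon
    have h1 : (Finset.univ : Finset (Fin n)) ⊆ {i0, k0, j} := fun x _ => hcon x
    have h2 := Finset.card_le_card h1
    have h3 := Finset.card_le_three (a := i0) (b := k0) (c := j)
    simp only [Finset.card_univ, Fintype.card_fin] at h2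
    omega
  simp only [Finset.mem_insert, Finset.mem_singleton, not_or] at hl
  obtain ⟨hli, hlk, hlj⟩ := hl
  have hjl : j ≠ l := fun hh => hlj hh.symm
  have hzs : ∀ y y' : q.Om n, q.zs Finset.univ y = q.zs Finset.univ y' → ∀ i, q.Z (y.2 i) = q.Z (y'.2 i) := fun y y' hy i => by
    have := congrFun hy i
    simpa [RnQ.zs] using this
  have hB := fun (y : q.Om n) i => rn_geo_bd hA (a := q.Z (y.2 i0)) (b := q.Z (y.2 j)) (h.bdZ _) (h.bdZ _) (q.Z (y.2 k0)) i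
  have hfro := rn_cl_fro q i0 k0 j hsel hnum3
  have hlin := rn_cl_lin q h hgrid hb hK hA hd0 hes hlo hε (by linarith) hnum1 hik hjl hji hjk hli hlk
  have hbq := rn_cl_bq q h hgrid hA hd0 hξ1 hik hjk HI hlin hp1 hfro hp2 hst
  obtain ⟨h2, h1⟩ := rn_cl_b12 q h hgrid hM2 hK hA hes hlo hlor hε (by rw [hlogM]; exact hlog) hpos hik hjl hji hjk hli hlk
  have hc := rn_out_chain q h (by omega) (B := 8 * A ^ 2) (by positivity) i0 q.m1 (q.m2 i0 j) (q.f1 i0 k0 j) (q.f2 i0 k0 j)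
    (fun y y' hy => ⟨rfl, by simp only [RnQ.m2, hzs y y' hy], by simp only [RnQ.f1, hzs y y' hy],
      by simp only [RnQ.f2, hzs y y' hy]⟩)
    (fun y i => ⟨(hB y i).2.2.2.1, (hB y i).2.2.1, (hB y i).2.2.2.2.1, (hB y i).2.2.2.2.2.1⟩) le_rfl le_rfl h2 h1
  have k3 := ent_entC_chain (q.S n) (q.fc (2 ^ b) (N * T) (q.f2 i0 k0 j)) (q.fc (2 ^ b) (N * T) (q.f1 i0 k0 j)) q.dp
  have w3 := rn_aux_entC_swap (q.S n) (q.fc (2 ^ b) (N * T) (q.f1 i0 k0 j)) (q.fc (2 ^ b) (N * T) (q.f2 i0 k0 j)) q.dp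
  rw [hlogM] at hc
  linarith

/-- CL6, numeric: the loss of one sub-step -/
theorem rn_cl6_lo (A es : ℝ) (b r : ℕ) (hA : 1 ≤ A) (hes : es * (r : ℝ) = 1 / 12) (hb : (10 ^ 5 * A ^ 8) ^ 2 ≤ (2 : ℝ) ^ b) :
    1 / (((2 ^ b : ℕ) : ℝ)) ^ 1 ≤ rnKap A ((((2 ^ b : ℕ) : ℝ)) ^ (-(es * (r : ℝ)))) := by
  obtain ⟨M, hM⟩ : ∃ M : ℝ, M = ((2 ^ b : ℕ) : ℝ) := ⟨_, rfl⟩
  have hM2 : M = (2 : ℝ) ^ b := by
    rw [hM]
    push_cast
    rfl
  rw [← hM, hes]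
  have hc : 0 < 10 ^ 5 * A ^ 8 := by positivity
  have hM0 : 0 < M := by
    rw [hM2]
    positivity
  unfold rnKap
  have e1 : (M ^ (-(1 / 12 : ℝ))) ^ 6 = M ^ (-(1 / 2 : ℝ)) := by
    rw [← Real.rpow_natCast, ← Real.rpow_mul hM0.le]
    norm_num
  rw [e1, pow_one]
  obtain ⟨s, hs⟩ : ∃ s : ℝ, s = M ^ (1 / 2 : ℝ) := ⟨_, rfl⟩
  have hs0 : 0 < s := by
    rw [hs]
    positivity
  have hss : s * s = M := by
    rw [hs, ← Real.rpow_add hM0]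
    norm_num
  have hcs : 10 ^ 5 * A ^ 8 ≤ s := by
    apply le_of_sq_le_sq _ hs0.le
    rw [sq s, hss, hM2]
    exact hb
  rw [Real.rpow_neg hM0.le, ← hs, ← hss, inv_eq_one_div, div_div]
  apply one_div_le_one_div_of_le (by positivity)
  exact mul_le_mul_of_nonneg_left hcs hs0.le

/-- CL6, numeric: the exceptional probabilities -/
theorem rn_cl6_prob (n r : ℕ) (p' τ st U : ℝ) (hn : 1 ≤ n) (hτ0 : 0 < τ) (hτ : (n : ℝ) ^ 2 * ((r : ℝ) + 1) * τ ≤ p' / 64) (hst : st ≤ τ) (hU : 0 < U)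
    (hF : (n : ℝ) ^ 2 * ((r : ℝ) + 1) * (10 / U) ≤ p' / 64) (hn2 : ((r : ℝ) + 1) / ((n : ℝ) - 2) ≤ p' / 8) :
    rnPts n st τ (1 / 10) U + Real.exp (-(1 / 10 * U)) ≤ p' ∧ rnPsel n 1 r st τ (1 / 10) U + Real.exp (-(1 / 10 * U)) ≤ p' := by
  obtain ⟨W, hW⟩ : ∃ W : ℝ, W = (n : ℝ) ^ 2 * ((r : ℝ) + 1) := ⟨_, rfl⟩
  obtain ⟨F, hFd⟩ : ∃ F : ℝ, F = 10 / U := ⟨_, rfl⟩
  obtain ⟨E, hE⟩ : ∃ E : ℝ, E = Real.exp (-(1 / 10 * U)) := ⟨_, rfl⟩
  rw [← hW] at hτ hF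
  rw [← hFd] at hF
  have hnR : (1 : ℝ) ≤ (n : ℝ) := by exact_mod_cast hn
  have hr0 : (0 : ℝ) ≤ (r : ℝ) := Nat.cast_nonneg _
  have hn2W : (n : ℝ) ^ 2 ≤ W := by
    rw [hW]
    exact le_mul_of_one_le_right (by positivity) (by linarith)
  have hnW : (n : ℝ) ≤ W := le_trans (by nlinarith) hn2W
  have hW1 : 1 ≤ W := hnR.trans hnW
  have hF0 : 0 < F := by
    rw [hFd]
    positivity
  have hEF : E ≤ F := by
    have := ic_aux_exp_neg_le (1 / 10 * U) (by positivity)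
    rw [hE, hFd]
    refine this.trans (le_of_eq ?_)
    field_simp
  have hE0 : 0 ≤ E := by
    rw [hE]
    positivity
  have q1 : ((n : ℝ) * ((st + τ) * U) + 1) / (1 / 10 * U) = 10 * n * (st + τ) + F := by
    rw [hFd]
    field_simp
  have q2 : ((st + τ) * U + 1) / (1 / 10 * U) = 10 * (st + τ) + F := by
    rw [hFd]
    field_simp
  have a1 : (n : ℝ) * τ ≤ W * τ := mul_le_mul_of_nonneg_right hnW hτ0.le
  have a2 : (n : ℝ) ^ 2 * τ ≤ W * τ := mul_le_mul_of_nonneg_right hn2W hτ0.le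
  have a3 : τ ≤ W * τ := le_mul_of_one_le_left hτ0.le hW1
  have a4 : F ≤ W * F := le_mul_of_one_le_left hF0.le hW1
  have a5 : (n : ℝ) * (st + τ) ≤ n * (2 * τ) := mul_le_mul_of_nonneg_left (by linarith) (by linarith)
  constructor
  · unfold rnPts
    rw [q1, ← hE]
    linarith
  · unfold rnPsel
    rw [q2, ← hE, Nat.cast_one, one_mul, ← hW]
    have a6 : W * (5 * E + τ + (10 * (st + τ) + F)) ≤ W * (6 * F + 21 * τ) := mul_le_mul_of_nonneg_left (by linarith) (by linarith)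
    linarith

/-- CL6, numeric: the error budget -/
theorem rn_cl6_fin (d ξ ξ' p' τ st U oT Pts Lg R : ℝ) (hd0 : 0 < d) (hd1 : d ≤ 1) (hξ'0 : 0 < ξ') (hξ' : ξ' ≤ ξ / 16) (hp0 : 0 < p') (hp : p' ≤ ξ / 64)
    (hτ0 : 0 < τ) (hτ1 : τ ≤ 1 / 10) (hst : st ≤ τ) (hU : 0 < U) (hLg : 4 * Lg ≤ 1 / 10 * U) (hPts : Pts ≤ p') (hR : 64 ≤ ξ * R) (hR0 : 0 < R)
    (hpos : 0 ≤ d * (R - 1) - τ - 6 * (1 / 10))
    (hmain : (1 + d - ξ') * R * U * (1 - ξ') - (st + τ) * U + 2 * ((d * (R - 1) - τ - 6 * (1 / 10)) * U * (1 - Pts)) - 4 * Lg ≤ (oT + τ) * U) :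
    (1 + 3 * d - ξ) * R ≤ oT := by
  obtain ⟨a2, ha2⟩ : ∃ a2 : ℝ, a2 = d * (R - 1) - τ - 6 * (1 / 10) := ⟨_, rfl⟩
  rw [← ha2] at hpos hmain
  have h1 : a2 * U * (1 - p') ≤ a2 * U * (1 - Pts) := mul_le_mul_of_nonneg_left (by linarith) (by positivity)
  have h2 : U * ((1 + d - ξ') * R * (1 - ξ') - (st + τ) + 2 * (a2 * (1 - p')) - 1 / 10 - τ) ≤ U * oT := by nlinarith
  have h3 := le_of_mul_le_mul_left h2 hU
  have h4 : (1 + d - 3 * ξ') * R ≤ (1 + d - ξ') * R * (1 - ξ') := by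
    have : (1 + d - ξ') * R * (1 - ξ') - (1 + d - 3 * ξ') * R = R * ξ' * ((1 - d) + ξ') := by ring
    have h0 : 0 ≤ R * ξ' * ((1 - d) + ξ') := by
      apply mul_nonneg (by positivity)
      linarith
    linarith
  have h5 : ξ' * R ≤ ξ / 16 * R := mul_le_mul_of_nonneg_right hξ' hR0.le
  have h6 : a2 * p' ≤ R * (ξ / 64) := by
    have : a2 ≤ R := by
      rw [ha2]
      nlinarith
    exact mul_le_mul this hp hp0.le hR0.le
  nlinarith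

set_option maxHeartbeats 2000000 in
/-- LEAF CL6.  **classical OUT for grid valued `Z`: the constants.**
`m = 2 - 2d + 2Γ`, `g = m/2 = 1 - d + Γ ∈ (0,1]`, `d + g = 1 + Γ > 1`;  `ξ' = min (ξ/16) 1`;  `(N, χI, b₀)` from `ic_incp d g ξ' (128 A⁵)`;  `χ₁ = χI/2`;
`T ≥ max (32/(χI N)) (64/ξ) (2/d + 1)`, `r = N T`;  `lo = 1`, `es = 1/(12 r)`, `ε = 1/10`;  `n = ⌈8 (r+1)/p'⌉ + 2`, `p' = min χI (ξ/64)`;  `χ = τ` small, `b` large (`T b ≥ b₀`), as in `rn_out_core`.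
Errors: `(1+d) r (2 ξ') + 2 (d + τ + 6 ε) + 2 d r p' + (χ + τ) + ε + τ ≤ ξ r`. -/
theorem rn_cl_core (A d Γ ξ : ℝ) (hA : 1 ≤ A) (hd0 : 0 < d) (hd1 : d ≤ 1) (hΓ : 0 < Γ) (hΓd : Γ ≤ d) (hξ : 0 < ξ) :
    ∃ r : ℕ, 2 ≤ r ∧ ∃ χ : ℝ, 0 < χ ∧ ∃ es : ℝ, 0 < es ∧ es ≤ 1 ∧ ∃ τ : ℝ, 0 < τ ∧ ∃ M0 : ℕ,
      ∀ (q : RnQ) (b : ℕ) (oT dv st : ℝ) (jj : ℕ → ℝ), M0 ≤ b → q.Ok (2 ^ b) r 3 A d τ es oT dv st jj →
        (∀ ω ω', q.Zc (2 ^ b) (3 * r) ω = q.Zc (2 ^ b) (3 * r) ω' → q.Z ω = q.Z ω') →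
        st ≤ χ → (∀ l, l ≤ r → (2 - 2 * d + 2 * Γ) * l - χ ≤ jj l) → (∀ l, l ≤ r → jj l ≤ 3 * l + χ) →
        (1 + 3 * d - ξ) * r ≤ oT := by
  have hl2 : 0 < Real.log 2 := Real.log_pos one_lt_two
  obtain ⟨ξ', hξ'⟩ : ∃ ξ' : ℝ, ξ' = min (ξ / 16) 1 := ⟨_, rfl⟩
  have hξ'0 : 0 < ξ' := by
    rw [hξ']
    positivity
  have hξ'1 : ξ' ≤ 1 := by
    rw [hξ']
    exact min_le_right _ _
  have hξ'16 : ξ' ≤ ξ / 16 := by
    rw [hξ']
    exact min_le_left _ _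
  have hA5 : 1 ≤ 128 * A ^ 5 := by
    have := one_le_pow₀ hA (n := 5)
    linarith
  obtain ⟨N, hN, χI, hχI, b₀, HI⟩ := ic_incp d ((2 - 2 * d + 2 * Γ) / 2) ξ' (128 * A ^ 5) hd0 hd1 (by linarith) (by linarith) (by linarith) hξ'0 hA5
  have hNR : (1 : ℝ) ≤ (N : ℝ) := by exact_mod_cast hN
  obtain ⟨T, hT⟩ : ∃ T : ℕ, 32 / (χI * N) + 64 / ξ + (2 / d + 1) ≤ (T : ℝ) := exists_nat_ge _
  have t1 : 0 < 32 / (χI * N) := by positivity
  have t2 : 0 < 64 / ξ := by positivity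
  have t3 : 0 < 2 / d := by positivity
  obtain ⟨R, hR⟩ : ∃ R : ℝ, R = ((N * T : ℕ) : ℝ) := ⟨_, rfl⟩
  have hRNT : R = N * T := by
    rw [hR]
    push_cast
    rfl
  have hT0 : (0 : ℝ) < (T : ℝ) := by linarith
  have hTR : (T : ℝ) ≤ R := by
    rw [hRNT]
    exact le_mul_of_one_le_left hT0.le hNR
  have h32 : 32 ≤ χI * R := by
    have h1 : 32 / (χI * N) ≤ T := by linarith
    rw [div_le_iff₀ (by positivity)] at h1
    rw [hRNT]
    linarith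
  have h64 : 64 ≤ ξ * R := by
    have h1 : 64 / ξ ≤ R := by linarith
    rw [div_le_iff₀ hξ] at h1
    linarith
  have hd2 : 2 ≤ d * (R - 1) := by
    have h1 : 2 / d ≤ R - 1 := by linarith
    rw [div_le_iff₀ hd0] at h1
    linarith
  have hR3 : 3 ≤ R := by
    have : 2 ≤ 2 / d := by
      rw [le_div_iff₀ hd0]
      linarith
    linarith
  have hr2 : 2 ≤ N * T := by
    have : (2 : ℝ) ≤ ((N * T : ℕ) : ℝ) := by
      rw [← hR]
      linarith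
    exact_mod_cast this
  obtain ⟨p', hp'⟩ : ∃ p' : ℝ, p' = min χI (ξ / 64) := ⟨_, rfl⟩
  have hp0 : 0 < p' := by
    rw [hp']
    positivity
  have hpχ : p' ≤ χI := by
    rw [hp']
    exact min_le_left _ _
  have hpξ : p' ≤ ξ / 64 := by
    rw [hp']
    exact min_le_right _ _
  obtain ⟨n, hn⟩ : ∃ n : ℕ, n = ⌈8 * (R + 1) / p'⌉₊ + 4 := ⟨_, rfl⟩
  have hn4 : 4 ≤ n := by omega
  have hnR : 8 * (R + 1) / p' ≤ (n : ℝ) - 2 := by
    rw [hn]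
    push_cast
    have := Nat.le_ceil (8 * (R + 1) / p')
    linarith
  have hn2 : (R + 1) / ((n : ℝ) - 2) ≤ p' / 8 := by
    have h0 : 0 < 8 * (R + 1) / p' := by positivity
    rw [div_le_iff₀ (by linarith)]
    rw [div_le_iff₀ hp0] at hnR
    linarith
  obtain ⟨W, hW⟩ : ∃ W : ℝ, W = (n : ℝ) ^ 2 * (R + 1) := ⟨_, rfl⟩
  have hn0 : (0 : ℝ) < (n : ℝ) := by
    have : 0 < n := by omega
    exact_mod_cast this
  have hW0 : 0 < W := by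
    rw [hW]
    positivity
  obtain ⟨τ, hτ⟩ : ∃ τ : ℝ, τ = min (p' / (64 * W)) (1 / 10) := ⟨_, rfl⟩
  have hτ0 : 0 < τ := by
    rw [hτ]
    positivity
  have hτ1 : τ ≤ 1 / 10 := by
    rw [hτ]
    exact min_le_right _ _
  have hτW : W * τ ≤ p' / 64 := by
    have h1 : τ ≤ p' / (64 * W) := by
      rw [hτ]
      exact min_le_left _ _
    calc W * τ ≤ W * (p' / (64 * W)) := mul_le_mul_of_nonneg_left h1 hW0.le
      _ = p' / 64 := by field_simp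
  obtain ⟨L1, hL1⟩ : ∃ L1 : ℝ, L1 = 3 * Real.log (11 * A * (8 * A ^ 2) + 2) + Real.log (11 * A * (8 * A ^ 2) + 3) := ⟨_, rfl⟩
  obtain ⟨L2, hL2⟩ : ∃ L2 : ℝ, L2 = Real.log (4 * (8 * A ^ 2) + 2) := ⟨_, rfl⟩
  obtain ⟨L3, hL3⟩ : ∃ L3 : ℝ, L3 = Real.log ((10 ^ 5 * A ^ 8) ^ 2) := ⟨_, rfl⟩
  have hA0 : 0 < A := by linarith
  have hL10 : 0 ≤ L1 := by
    rw [hL1]
    have h1 : 0 ≤ Real.log (11 * A * (8 * A ^ 2) + 2) := Real.log_nonneg (by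
      have : 0 ≤ 11 * A * (8 * A ^ 2) := by positivity
      linarith)
    have h2 : 0 ≤ Real.log (11 * A * (8 * A ^ 2) + 3) := Real.log_nonneg (by
      have : 0 ≤ 11 * A * (8 * A ^ 2) := by positivity
      linarith)
    linarith
  have hL20 : 0 ≤ L2 := by
    rw [hL2]
    exact Real.log_nonneg (by
      have : 0 ≤ 4 * (8 * A ^ 2) := by positivity
      linarith)
  have hL30 : 0 ≤ L3 := by
    rw [hL3]
    apply Real.log_nonneg
    have h8 := one_le_pow₀ hA (n := 8)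
    have : (1 : ℝ) ≤ 10 ^ 5 * A ^ 8 := by linarith
    exact one_le_pow₀ this
  have hL36 : 0 ≤ Real.log 36 := Real.log_nonneg (by norm_num)
  refine ⟨N * T, hr2, τ, hτ0, 1 / (12 * R), by positivity, by
    rw [div_le_one (by positivity)]
    linarith, τ, hτ0,
    ⌈1 + (b₀ : ℝ) + L3 / Real.log 2 + 10 * L1 / Real.log 2 + 10 * Real.log 36 / Real.log 2 + 40 * L2 / Real.log 2 + 640 * W / (p' * Real.log 2)⌉₊, ?_⟩
  intro q b oT dv st jj hb hOk hgrid hst hpre hup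
  have hbR : 1 + (b₀ : ℝ) + L3 / Real.log 2 + 10 * L1 / Real.log 2 + 10 * Real.log 36 / Real.log 2 + 40 * L2 / Real.log 2 + 640 * W / (p' * Real.log 2) ≤ (b : ℝ) :=
    (Nat.le_ceil _).trans (by exact_mod_cast hb)
  have c0 : (0 : ℝ) ≤ (b₀ : ℝ) := Nat.cast_nonneg _
  have c3 : 0 ≤ L3 / Real.log 2 := by positivity
  have c4 : 0 ≤ 10 * L1 / Real.log 2 := by positivity
  have c5 : 0 ≤ 10 * Real.log 36 / Real.log 2 := by positivity
  have c6 : 0 ≤ 40 * L2 / Real.log 2 := by positivity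
  have c7 : 0 ≤ 640 * W / (p' * Real.log 2) := by positivity
  obtain ⟨U, hU⟩ : ∃ U : ℝ, U = (b : ℝ) * Real.log 2 := ⟨_, rfl⟩
  have hb1R : (1 : ℝ) ≤ (b : ℝ) := by linarith
  have hb1 : 1 ≤ b := by exact_mod_cast hb1R
  have hbb : b₀ ≤ b := by
    have : (b₀ : ℝ) ≤ (b : ℝ) := by linarith
    exact_mod_cast this
  have hU0 : 0 < U := by
    rw [hU]
    positivity
  have u3 : L3 ≤ U := by
    have h1 : L3 / Real.log 2 ≤ b := by linarith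
    rw [div_le_iff₀ hl2] at h1
    rw [hU]
    exact h1
  have u4 : L1 ≤ 1 / 10 * U := by
    have h1 : 10 * L1 / Real.log 2 ≤ b := by linarith
    rw [div_le_iff₀ hl2] at h1
    rw [hU]
    linarith
  have u5 : Real.log 36 ≤ 1 / 10 * U := by
    have h1 : 10 * Real.log 36 / Real.log 2 ≤ b := by linarith
    rw [div_le_iff₀ hl2] at h1
    rw [hU]
    linarith
  have u6 : 4 * L2 ≤ 1 / 10 * U := by
    have h1 : 40 * L2 / Real.log 2 ≤ b := by linarith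
    rw [div_le_iff₀ hl2] at h1
    rw [hU]
    linarith
  have u7 : W * (10 / U) ≤ p' / 64 := by
    have h1 : 640 * W / (p' * Real.log 2) ≤ b := by linarith
    rw [div_le_iff₀ (by positivity)] at h1
    rw [mul_div_assoc', div_le_iff₀ hU0, hU]
    nlinarith
  have hpow : (10 ^ 5 * A ^ 8) ^ 2 ≤ (2 : ℝ) ^ b := by
    rw [← Real.log_le_log_iff (by positivity) (by positivity), ← hL3, Real.log_pow, ← hU]
    exact u3
  have hes : 1 / (12 * R) * ((N * T : ℕ) : ℝ) = 1 / 12 := by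
    rw [← hR]
    field_simp
  obtain ⟨P1, P2⟩ := rn_cl6_prob n (N * T) p' τ st U (by omega) hτ0 (by rw [← hR, ← hW]; exact hτW) hst hU0 (by rw [← hR, ← hW]; exact u7) (by rw [← hR]; exact hn2)
  have hE0 : 0 ≤ Real.exp (-(1 / 10 * U)) := by positivity
  have main := rn_cl_main q (n := n) (b := b) (K := 3) (lo := 1) (N := N) (T := T) (A := A) (d := d) (τ := τ) (es := 1 / (12 * R)) (oT := oT) (dv := dv) (st := st)
    (ε := 1 / 10) (χ := τ) (χ₁ := χI / 2) (χI := χI) (m := 2 - 2 * d + 2 * Γ) (ξ' := ξ') (jj := jj) hOk hgrid hb1 (by norm_num) hA hd0.le (by positivity) hξ'1 hτ0.le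
    (rn_cl6_lo A _ b (N * T) hA hes hpow) (by omega) (by norm_num)
    (by rw [← hL1, ← hU]; exact u4) (by rw [← hU]; exact u5)
    (by rw [← hR, Nat.cast_one]; linarith) hn4 (by linarith) (by linarith) hpre hup
    (by rw [← hR, Nat.cast_one]; linarith) (by rw [← hR, Nat.cast_one]; linarith) (by rw [← hR]; linarith) (by rw [← hR]; linarith)
    (HI (T * b) (hbb.trans (Nat.le_mul_of_pos_left b (by exact_mod_cast hT0))))
    (by rw [← hU]; exact P1.trans hpχ) (by rw [← hU]; exact P2.trans hpχ)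
  rw [← hR, ← hU, ← hL2, Nat.cast_one] at main
  rw [← hR]
  exact rn_cl6_fin d ξ ξ' p' τ st U oT _ L2 R hd0 hd1 hξ'0 hξ'16 hp0 hpξ hτ0 hτ1 hst hU0 u6 (by linarith) h64 (by linarith) (by linarith) main

/-- LEAF CL7.  **prop:rt-outgoing, classical case, on one finite law** (`rn_cl_core` with `7 A²`, `rn_ok_grid`; copy of `rn_out_final`). -/
theorem rn_out_cl (A d Γ ξ : ℝ) (hA : 1 ≤ A) (hd0 : 0 < d) (hd1 : d ≤ 1) (hΓ : 0 < Γ) (hΓd : Γ ≤ d) (hξ : 0 < ξ) :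
    ∃ r : ℕ, 2 ≤ r ∧ ∃ χ : ℝ, 0 < χ ∧ ∃ es : ℝ, 0 < es ∧ ∃ τ : ℝ, 0 < τ ∧ ∃ M0 : ℕ,
      ∀ (q : RnQ) (b : ℕ) (oT dv st : ℝ) (jj : ℕ → ℝ), M0 ≤ b → q.Ok (2 ^ b) r 3 A d τ es oT dv st jj →
        st ≤ χ → (∀ l, l ≤ r → (2 - 2 * d + 2 * Γ) * l - χ ≤ jj l) → (∀ l, l ≤ r → jj l ≤ 3 * l + χ) →
        (1 + 3 * d - ξ) * r ≤ oT := by
  have hA7 : 1 ≤ 7 * A ^ 2 := by nlinarith
  obtain ⟨r, hr, χ, hχ, esc, hes0, hes1, τ, hτ, M0, H⟩ := rn_cl_core (7 * A ^ 2) d Γ ξ hA7 hd0 hd1 hΓ hΓd hξ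
  have hr0 : (0 : ℝ) < r := by exact_mod_cast (by omega : 0 < r)
  have hx : 0 < esc / 2 * r := by positivity
  refine ⟨r, hr, χ, hχ, esc / 2, by positivity, τ, hτ,
    max M0 (max ⌈8 * A + 8⌉₊ (max ⌈1 / (esc / 2 * r)⌉₊ 1)), ?_⟩
  intro q b oT dv st jj hb h hst hpre hup
  have hb0 : M0 ≤ b := (le_max_left _ _).trans hb
  have hb1 : ⌈8 * A + 8⌉₊ ≤ b := ((le_max_left _ _).trans (le_max_right _ _)).trans hb
  have hb2 : ⌈1 / (esc / 2 * r)⌉₊ ≤ b := ((le_max_left _ _).trans ((le_max_right _ _).trans (le_max_right _ _))).trans hb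
  have hb3 : 1 ≤ b := ((le_max_right _ _).trans ((le_max_right _ _).trans (le_max_right _ _))).trans hb
  have hM2 : 2 ≤ 2 ^ b := by
    calc 2 = 2 ^ 1 := by norm_num
      _ ≤ 2 ^ b := Nat.pow_le_pow_right (by norm_num) hb3
  have hMr : (1 : ℝ) ≤ ((2 ^ b : ℕ) : ℝ) := by exact_mod_cast Nat.one_le_two_pow
  have hbig1 : 2 ≤ (((2 ^ b : ℕ) : ℝ)) ^ (esc / 2 * r) := by
    have e1 : (((2 ^ b : ℕ) : ℝ)) ^ (esc / 2 * r) = (2 : ℝ) ^ ((b : ℝ) * (esc / 2 * r)) := by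
      push_cast
      rw [← Real.rpow_natCast, ← Real.rpow_mul (by norm_num)]
    rw [e1]
    have h1 : 1 / (esc / 2 * r) ≤ (b : ℝ) := (Nat.le_ceil _).trans (by exact_mod_cast hb2)
    rw [div_le_iff₀ hx] at h1
    calc (2 : ℝ) = 2 ^ (1 : ℝ) := by norm_num
      _ ≤ 2 ^ ((b : ℝ) * (esc / 2 * r)) := Real.rpow_le_rpow_of_exponent_le (by norm_num) h1
  have hbig2 : (8 * A + 8) * (((2 ^ b : ℕ) : ℝ)) ^ (esc / 2 * r) ≤ (((2 ^ b : ℕ) : ℝ)) ^ (3 * r) := by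
    have h1 : (((2 ^ b : ℕ) : ℝ)) ^ (esc / 2 * r) ≤ (((2 ^ b : ℕ) : ℝ)) ^ r := by
      rw [← Real.rpow_natCast]
      refine Real.rpow_le_rpow_of_exponent_le hMr ?_
      nlinarith
    have h2 : 8 * A + 8 ≤ ((2 ^ b : ℕ) : ℝ) := by
      have h3 : 8 * A + 8 ≤ (b : ℝ) := (Nat.le_ceil _).trans (by exact_mod_cast hb1)
      have h4 : (b : ℝ) ≤ ((2 ^ b : ℕ) : ℝ) := by exact_mod_cast Nat.lt_two_pow_self.le
      linarith
    have h3 : ((2 ^ b : ℕ) : ℝ) ≤ (((2 ^ b : ℕ) : ℝ)) ^ (2 * r) := le_self_pow₀ hMr (by omega)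
    have h4 : (((2 ^ b : ℕ) : ℝ)) ^ (3 * r) = (((2 ^ b : ℕ) : ℝ)) ^ (2 * r) * (((2 ^ b : ℕ) : ℝ)) ^ r := by
      rw [← pow_add]
      congr 1
      ring
    rw [h4]
    exact mul_le_mul (h2.trans h3) h1 (Real.rpow_nonneg (by linarith) _) (by positivity)
  obtain ⟨q', hq', hgrid⟩ := rn_ok_grid q h hM2 (by norm_num) hA hbig1 hbig2
  have e2 : 2 * (esc / 2) = esc := by ring
  rw [e2] at hq'
  exact H q' b oT dv st jj hb0 hq' hgrid hst hpre hup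

end Claimed.Agent.R256
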