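import Claimed.Agent.R256.Rnd.ClDefs
import Claimed.Agent.R256.Rnd.ClOut
import Claimed.Agent.R256.Rnd.Contract

/-!
# Row 256, unit RND (08B), CLASSICAL twin, file 3: direct integration      (architect helper38)

08 l.1433-1449:  `∂_a D(a,0) ≥ 1 + 3 d` a.e., `D(0,0) ≥ 0`, `D(1,0) ≤ p + d = 1 + 3 d - 2 Γ`: contradiction.
FINITE FORM.  One level `k`: `S = r^(N-k)`, `S' = S/r`, `B = r^k`, points `i_t = t S`, `1 ≤ t ≤ B - K - 1` (queries need `i + K S < n`, STRICT).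
 good `t` (stationary: `J i_t (K S) - J (i_t + K S) (K S) ≤ χ S'`):  `D (i_t + S) - D i_t ≥ (1 + 3 d - ξ) S` (`RnOUTcl`);   bad `t`: `≥ - e` (`daLo`).
 `f t = J (t S) (K S)` is nonincreasing up to `e` (`jMono`), `- e ≤ f ≤ (2 + e) K S + e` (`mem`, `jDiag`, `jHi`):   `#bad · χ S' ≤ K ((2+e) K S + 2 e) + B e`   (telescoping; `rn_tele_count` of `Rnd/Count.lean` if convenient).
 `pd n + e ≥ D n ≥ D ((B-K+1) S) - e ≥ D S + (B - K - #bad)(1 + 3 d - ξ) S - #bad e - e`, `D S ≥ - e`, `ξ = Γ`:   false as soon as `Γ B > 4 (K + #bad) + 1`.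
 Take `N = k0 + 1`, `k = k0` (`S = r`, `S' = 1`), `r^k0` large, `e ≤ 1/r^N`.
LEAVES: L-256-RN-CE1 (`rn_prof_out_cl`), CE2 (`rn_end_cl`).   `rn_cl` is PROVED from them.
-/

set_option autoImplicit false

namespace Claimed.Agent.R256

open Claimed.Agent.R255

/-- (round-out), classical, on the grid (mesh units) -/
def RnOUTcl (r N k0 K : ℕ) (d ξ χ : ℝ) (D : ℕ → ℝ) (J : ℕ → ℕ → ℝ) : Prop :=
  ∀ k, k0 ≤ k → k < N → ∀ i, 0 < i → i + K * r ^ (N - k) < r ^ N →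
    J i (K * r ^ (N - k)) - J (i + K * r ^ (N - k)) (K * r ^ (N - k)) ≤ χ * (r : ℝ) ^ (N - k - 1) →
    (1 + 3 * d - ξ) * (r : ℝ) ^ (N - k) ≤ D (i + r ^ (N - k)) - D i

/-- telescoping with lag `K` -/
theorem rn_ce2_tele (f : ℕ → ℝ) (K m : ℕ) :
    ∑ t ∈ Finset.range m, (f (t + 1) - f (t + 1 + K)) = ∑ t ∈ Finset.range K, f (t + 1) - ∑ t ∈ Finset.range K, f (m + t + 1) := by
  induction m with
  | zero => simp
  | succ m ih =>
    rw [Finset.sum_range_succ, ih]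
    have h1 : ∑ t ∈ Finset.range (K + 1), f (m + t + 1) = ∑ t ∈ Finset.range K, f (m + t + 1) + f (m + K + 1) := Finset.sum_range_succ _ _
    have h2 : ∑ t ∈ Finset.range (K + 1), f (m + t + 1) = ∑ t ∈ Finset.range K, f (m + (t + 1) + 1) + f (m + 0 + 1) := Finset.sum_range_succ' _ _
    have h3 : ∑ t ∈ Finset.range K, f (m + 1 + t + 1) = ∑ t ∈ Finset.range K, f (m + (t + 1) + 1) :=
      Finset.sum_congr rfl fun t _ => by
        congr 1
        ring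
    have h4 : f (m + 1 + K) = f (m + K + 1) := by
      congr 1
      ring
    rw [h3, h4]
    simp only [add_zero] at h2
    linarith

/-- the upper bound of `J` from `jDiag`, `jHi` -/
theorem rn_ce2_Jup {n : ℕ} {pd m e : ℝ} {D : ℕ → ℝ} {J : ℕ → ℕ → ℝ} (hA : RnArrCl n pd m e D J) (i : ℕ) (hi0 : 0 < i) (hi : i ≤ n) (q : ℕ) (hq : q ≤ n) :
    J i q ≤ e + (2 + e) * q := by
  induction q with
  | zero =>
    have := (abs_le.1 (hA.jDiag i hi0 hi)).2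
    simpa using this
  | succ q ih =>
    have h1 := ih (by omega)
    have h2 := hA.jHi i q hi0 hi (by omega)
    push_cast
    linarith

/-- the numeric core: one level, mesh `r`, `B` blocks -/
theorem rn_ce2_core (d Γ χ e : ℝ) (r K B : ℕ) (hd0 : 0 < d) (hd1 : d ≤ 1) (hΓ : 0 < Γ) (hΓd : Γ ≤ d) (hχ : 0 < χ) (hr : 2 ≤ r) (hK : 1 ≤ K) (hKB : K < B)
    (he0 : 0 < e) (he1 : e ≤ 1) (heB : (B : ℝ) * e ≤ 1) (D : ℕ → ℝ) (J : ℕ → ℕ → ℝ)
    (hA : RnArrCl (B * r) (1 + 3 * d - 2 * Γ) (2 - 2 * d + 2 * Γ) e D J)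
    (hO : ∀ i, 0 < i → i + K * r < B * r → J i (K * r) - J (i + K * r) (K * r) ≤ χ → (1 + 3 * d - Γ) * (r : ℝ) ≤ D (i + r) - D i) :
    Γ * B * r ≤ 4 * (K + 1) * r + (4 * r + 1) / χ * (K * (3 * K * r + 2) + 1) + 3 := by
  have hr0 : 0 < r := by omega
  have hrR : (2 : ℝ) ≤ (r : ℝ) := by exact_mod_cast hr
  have hKR : (1 : ℝ) ≤ (K : ℝ) := by exact_mod_cast hK
  have hidx : ∀ t, 1 ≤ t → t ≤ B → 0 < t * r ∧ t * r ≤ B * r := fun t h1 h2 => ⟨Nat.mul_pos (by omega) hr0, Nat.mul_le_mul_right r h2⟩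
  have hKr : K * r < B * r := Nat.mul_lt_mul_of_pos_right hKB hr0
  obtain ⟨f, hf⟩ : ∃ f : ℕ → ℝ, ∀ t, f t = J (t * r) (K * r) := ⟨_, fun _ => rfl⟩
  have hfup : ∀ t, 1 ≤ t → t ≤ B → f t ≤ e + (2 + e) * (K * r) := by
    intro t h1 h2
    rw [hf]
    have := rn_ce2_Jup hA (t * r) (hidx t h1 h2).1 (hidx t h1 h2).2 (K * r) hKr.le
    push_cast at this
    exact this
  have hflo : ∀ t, 1 ≤ t → t ≤ B → -e ≤ f t := by
    intro t h1 h2
    rw [hf]
    have := hA.mem (t * r) (K * r) (hidx t h1 h2).1 (hidx t h1 h2).2 hKr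
    have h0 : 0 ≤ (2 - 2 * d + 2 * Γ) * ((K * r : ℕ) : ℝ) := mul_nonneg (by linarith) (Nat.cast_nonneg _)
    linarith
  have hfm : ∀ t t', 1 ≤ t → t ≤ t' → t' ≤ B → f t' ≤ f t + e := by
    intro t t' h1 h2 h3
    rw [hf, hf]
    exact hA.jMono (t * r) (t' * r) (K * r) (hidx t h1 (h2.trans h3)).1 (Nat.mul_le_mul_right r h2) (hidx t' (h1.trans h2) h3).2 hKr.le
  obtain ⟨L, hL⟩ : ∃ L : ℝ, L = 1 + 3 * d - Γ := ⟨_, rfl⟩
  have hL0 : 0 < L := by rw [hL]; linarith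
  have hL4 : L ≤ 4 := by rw [hL]; linarith
  obtain ⟨M, hM⟩ : ∃ M : ℝ, M = (L * r + e) / χ := ⟨_, rfl⟩
  have hM0 : 0 ≤ M := by rw [hM]; positivity
  have hMχ : M * χ = L * r + e := by rw [hM]; field_simp
  have hMle : M ≤ (4 * r + 1) / χ := by
    rw [hM]
    apply div_le_div_of_nonneg_right _ hχ.le
    nlinarith
  -- one step
  have hstep : ∀ t ∈ Finset.range (B - K - 1), L * r - M * ((f (t + 1) - f (t + 1 + K)) + e) ≤ D ((t + 1 + 1) * r) - D ((t + 1) * r) := by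
    intro t ht
    have ht'' : t + 1 + K < B := by
      have := Finset.mem_range.1 ht
      omega
    have ht' : t + 1 + K ≤ B := ht''.le
    have hδ : 0 ≤ (f (t + 1) - f (t + 1 + K)) + e := by
      have := hfm (t + 1) (t + 1 + K) (by omega) (by omega) ht'
      linarith
    by_cases hg : f (t + 1) - f (t + 1 + K) ≤ χ
    · have e1 : (t + 1) * r + K * r = (t + 1 + K) * r := by ring
      have e2 : (t + 1) * r + r = (t + 1 + 1) * r := by ring
      have := hO ((t + 1) * r) (hidx (t + 1) (by omega) (by omega)).1 (by rw [e1]; exact Nat.mul_lt_mul_of_pos_right ht'' hr0) (by rw [e1, ← hf, ← hf]; exact hg)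
      rw [e2, ← hL] at this
      have h0 : 0 ≤ M * ((f (t + 1) - f (t + 1 + K)) + e) := mul_nonneg hM0 hδ
      linarith
    · push Not at hg
      have h1 := hA.daLo ((t + 1) * r) ((t + 1 + 1) * r) (hidx (t + 1) (by omega) (by omega)).1 (Nat.mul_le_mul_right r (by omega)) (hidx (t + 1 + 1) (by omega) (by omega)).2
      have h2 : M * χ ≤ M * ((f (t + 1) - f (t + 1 + K)) + e) := mul_le_mul_of_nonneg_left (by linarith) hM0
      linarith
  have hsum := Finset.sum_le_sum hstep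
  have hD : ∑ t ∈ Finset.range (B - K - 1), (D ((t + 1 + 1) * r) - D ((t + 1) * r)) = D ((B - K - 1 + 1) * r) - D ((0 + 1) * r) :=
    Finset.sum_range_sub (fun t => D ((t + 1) * r)) (B - K - 1)
  have hlhs : ∑ t ∈ Finset.range (B - K - 1), (L * r - M * ((f (t + 1) - f (t + 1 + K)) + e))
      = ((B - K - 1 : ℕ) : ℝ) * (L * r) - M * (∑ t ∈ Finset.range (B - K - 1), (f (t + 1) - f (t + 1 + K)) + ((B - K - 1 : ℕ) : ℝ) * e) := by
    rw [Finset.sum_sub_distrib, Finset.sum_const, Finset.card_range, nsmul_eq_mul, ← Finset.mul_sum, Finset.sum_add_distrib, Finset.sum_const,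
      Finset.card_range, nsmul_eq_mul]
  rw [hD, hlhs, rn_ce2_tele] at hsum
  have hBK : ((B - K - 1 : ℕ) : ℝ) = (B : ℝ) - K - 1 := by
    have h1 : B - K - 1 = B - (K + 1) := by omega
    rw [h1, Nat.cast_sub hKB]
    push_cast
    ring
  have hF0 : ∑ t ∈ Finset.range K, f (t + 1) ≤ K * (e + (2 + e) * (K * r)) := by
    calc ∑ t ∈ Finset.range K, f (t + 1) ≤ ∑ _t ∈ Finset.range K, (e + (2 + e) * (K * r)) :=
          Finset.sum_le_sum fun t ht => hfup (t + 1) (by omega) (by have := Finset.mem_range.1 ht; omega)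
      _ = K * (e + (2 + e) * (K * r)) := by rw [Finset.sum_const, Finset.card_range, nsmul_eq_mul]
  have hFm : -(K * e) ≤ ∑ t ∈ Finset.range K, f (B - K - 1 + t + 1) := by
    calc -(K * e) = ∑ _t ∈ Finset.range K, (-e) := by rw [Finset.sum_const, Finset.card_range, nsmul_eq_mul, mul_neg]
      _ ≤ ∑ t ∈ Finset.range K, f (B - K - 1 + t + 1) :=
          Finset.sum_le_sum fun t ht => hflo (B - K - 1 + t + 1) (by omega) (by have := Finset.mem_range.1 ht; omega)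
  -- the error term
  have hX : (∑ t ∈ Finset.range K, f (t + 1) - ∑ t ∈ Finset.range K, f (B - K - 1 + t + 1)) + ((B - K - 1 : ℕ) : ℝ) * e ≤ K * (3 * K * r + 2) + 1 := by
    rw [hBK]
    have h1 : (K : ℝ) * (e + (2 + e) * (K * r)) ≤ K * (1 + 3 * (K * r)) := by
      apply mul_le_mul_of_nonneg_left _ (by positivity)
      have : (2 + e) * ((K : ℝ) * r) ≤ 3 * (K * r) := mul_le_mul_of_nonneg_right (by linarith) (by positivity)
      linarith
    have h2 : (K : ℝ) * e ≤ K * 1 := mul_le_mul_of_nonneg_left he1 (by positivity)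
    have h3 : ((B : ℝ) - K - 1) * e ≤ 1 := by nlinarith
    nlinarith
  have hMX : M * ((∑ t ∈ Finset.range K, f (t + 1) - ∑ t ∈ Finset.range K, f (B - K - 1 + t + 1)) + ((B - K - 1 : ℕ) : ℝ) * e) ≤ (4 * r + 1) / χ * (K * (3 * K * r + 2) + 1) :=
    (mul_le_mul_of_nonneg_left hX hM0).trans (mul_le_mul_of_nonneg_right hMle (by positivity))
  -- ends
  have hlow := hA.low ((0 + 1) * r) (hidx (0 + 1) (by omega) (by omega)).1 (hidx (0 + 1) (by omega) (by omega)).2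
  have htop := hA.top
  have hlast := hA.daLo ((B - K - 1 + 1) * r) (B * r) (hidx (B - K - 1 + 1) (by omega) (by omega)).1 (Nat.mul_le_mul_right r (by omega)) le_rfl
  push_cast at htop
  rw [hBK] at hsum hMX
  have hKL : ((K : ℝ) + 1) * (L * r) ≤ (K + 1) * (4 * r) := mul_le_mul_of_nonneg_left (mul_le_mul_of_nonneg_right hL4 (by positivity)) (by positivity)
  have e5 : (1 + 3 * d - 2 * Γ) * ((B : ℝ) * r) = B * (L * r) - Γ * B * r := by rw [hL]; ring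
  rw [e5] at htop
  linarith

/-- LEAF CE1.  from the laws to the grid.   `S' = r^(N-k-1) ≥ 1`, `S = r S'`;  `jj l = J i (l S')/S'`:  `hpre` from `mem` (`l S' ≤ S < n`, `e ≤ χ ≤ χ S'`), `hup` from `jDiag`, `jHi` telescoped (`J i q ≤ (2+e) q + e`, `e ≤ min χ 1`). -/
theorem rn_prof_out_cl {r N k0 K M0 : ℕ} {A d pd m e ξ χ τ es : ℝ} {D : ℕ → ℝ} {J : ℕ → ℕ → ℝ} (hr : 1 ≤ r) (hK : 1 ≤ K)
    (he0 : 0 ≤ e) (he : e ≤ χ) (he1 : e ≤ 1) (hA : RnArrCl (r ^ N) pd m e D J)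
    (hout : ∀ (q : RnQ) (b : ℕ) (oT dv st : ℝ) (jj : ℕ → ℝ), M0 ≤ b → q.Ok (2 ^ b) r K A d τ es oT dv st jj →
      st ≤ χ → (∀ l, l ≤ r → m * l - χ ≤ jj l) → (∀ l, l ≤ r → jj l ≤ 3 * l + χ) → (1 + 3 * d - ξ) * r ≤ oT)
    (hq : ∀ k, k0 ≤ k → k < N → ∀ i, 0 < i → i + K * r ^ (N - k) < r ^ N →
      ∃ (q : RnQ) (b : ℕ), M0 ≤ b ∧
        q.Ok (2 ^ b) r K A d τ es
          ((D (i + r ^ (N - k)) - D i) / (r : ℝ) ^ (N - k - 1))
          0
          ((J i (K * r ^ (N - k)) - J (i + K * r ^ (N - k)) (K * r ^ (N - k))) / (r : ℝ) ^ (N - k - 1))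
          (fun l => J i (l * r ^ (N - k - 1)) / (r : ℝ) ^ (N - k - 1))) :
    RnOUTcl r N k0 K d ξ χ D J := by
  intro k hk0 hkN i hi0 hi hst
  obtain ⟨q, b, hb, hOk⟩ := hq k hk0 hkN i hi0 hi
  have hr0 : 0 < r := hr
  obtain ⟨S', hS'⟩ : ∃ S' : ℕ, S' = r ^ (N - k - 1) := ⟨_, rfl⟩
  have hS : r ^ (N - k) = r * S' := by
    rw [hS', ← pow_succ']
    congr 1
    omega
  have hS1 : 1 ≤ S' := by
    rw [hS']
    exact Nat.one_le_pow _ _ hr0
  have hS1R : (1 : ℝ) ≤ (S' : ℝ) := by exact_mod_cast hS1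
  have hS0R : (0 : ℝ) < (S' : ℝ) := by linarith
  have hSR : (r : ℝ) ^ (N - k - 1) = (S' : ℝ) := by
    rw [hS']
    push_cast
    rfl
  have hSR2 : (r : ℝ) ^ (N - k) = (r : ℝ) * S' := by
    have := congrArg (Nat.cast : ℕ → ℝ) hS
    push_cast at this
    exact this
  have hin : i ≤ r ^ N := le_trans (Nat.le_add_right _ _) hi.le
  have hlS : ∀ l, l ≤ r → l * S' < r ^ N := by
    intro l hl
    have h1 : l * S' ≤ r * S' := Nat.mul_le_mul_right _ hl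
    have h2 : r * S' ≤ K * (r * S') := Nat.le_mul_of_pos_left _ hK
    rw [hS] at hi
    omega
  have heS : e / S' ≤ χ := (div_le_self he0 hS1R).trans he
  have key := hout q b _ 0 _ _ hb hOk
    (by
      rw [hSR, div_le_iff₀ hS0R]
      rw [hSR] at hst
      exact hst)
    (by
      intro l hl
      rw [hSR, ← hS', le_div_iff₀ hS0R]
      have h1 := hA.mem i (l * S') hi0 hin (hlS l hl)
      push_cast at h1
      have h2 : e ≤ χ * S' := by nlinarith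
      nlinarith)
    (by
      intro l hl
      rw [hSR, ← hS', div_le_iff₀ hS0R]
      have h1 := rn_ce2_Jup hA i hi0 hin (l * S') (hlS l hl).le
      push_cast at h1
      have h2 : e ≤ χ * S' := by nlinarith
      have h3 : (2 + e) * ((l : ℝ) * S') ≤ 3 * ((l : ℝ) * S') := mul_le_mul_of_nonneg_right (by linarith) (by positivity)
      nlinarith)
  rw [hSR, le_div_iff₀ hS0R] at key
  rw [hSR2]
  linarith

/-- LEAF CE2.  **direct integration** (header).  Purely numeric. -/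
theorem rn_end_cl (d Γ χ : ℝ) (r K : ℕ) (hd0 : 0 < d) (hd1 : d ≤ 1) (hΓ : 0 < Γ) (hΓd : Γ ≤ d) (hχ : 0 < χ)
    (hr : 2 ≤ r) (hK : 1 ≤ K) :
    ∃ k0 N : ℕ, k0 < N ∧ ∃ e : ℝ, 0 < e ∧ e ≤ χ ∧ e ≤ 1 ∧ ∀ (D : ℕ → ℝ) (J : ℕ → ℕ → ℝ),
      RnArrCl (r ^ N) (1 + 3 * d - 2 * Γ) (2 - 2 * d + 2 * Γ) e D J → RnOUTcl r N k0 K d Γ χ D J → False := by
  have hrR : (2 : ℝ) ≤ (r : ℝ) := by exact_mod_cast hr
  have hKR : (1 : ℝ) ≤ (K : ℝ) := by exact_mod_cast hK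
  obtain ⟨Cst, hCst⟩ : ∃ Cst : ℝ, Cst = 4 * (K + 1) * r + (4 * r + 1) / χ * (K * (3 * K * r + 2) + 1) + 3 := ⟨_, rfl⟩
  have hCK : (K : ℝ) ≤ Cst := by
    rw [hCst]
    have h1 : 0 ≤ (4 * (r : ℝ) + 1) / χ * (K * (3 * K * r + 2) + 1) := by positivity
    nlinarith
  obtain ⟨k0, hk0⟩ := pow_unbounded_of_one_lt (Cst / Γ) (show (1 : ℝ) < (r : ℝ) by linarith)
  have hB0 : (0 : ℝ) < (r : ℝ) ^ k0 := by positivity
  have hCB : Cst < Γ * (r : ℝ) ^ k0 := by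
    rw [div_lt_iff₀ hΓ] at hk0
    linarith
  have hΓ1 : Γ ≤ 1 := hΓd.trans hd1
  have hKB : K < r ^ k0 := by
    have : (K : ℝ) < ((r ^ k0 : ℕ) : ℝ) := by
      push_cast
      nlinarith
    exact_mod_cast this
  refine ⟨k0, k0 + 1, Nat.lt_succ_self _, min (min χ 1) (1 / (r : ℝ) ^ k0), by positivity, (min_le_left _ _).trans (min_le_left _ _), (min_le_left _ _).trans (min_le_right _ _), ?_⟩
  intro D J hA hO
  rw [pow_succ] at hA
  have e1 : k0 + 1 - k0 = 1 := by omega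
  have hO' : ∀ i, 0 < i → i + K * r < r ^ k0 * r → J i (K * r) - J (i + K * r) (K * r) ≤ χ → (1 + 3 * d - Γ) * (r : ℝ) ≤ D (i + r) - D i := by
    intro i hi0 hi hJ
    have := hO k0 le_rfl (Nat.lt_succ_self _) i hi0
    simp only [e1, pow_one, Nat.sub_self, pow_zero, mul_one] at this
    rw [pow_succ] at this
    exact this hi hJ
  have key := rn_ce2_core d Γ χ (min (min χ 1) (1 / (r : ℝ) ^ k0)) r K (r ^ k0) hd0 hd1 hΓ hΓd hχ hr hK hKB (by positivity)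
    ((min_le_left _ _).trans (min_le_right _ _)) (by
      push_cast
      calc (r : ℝ) ^ k0 * min (min χ 1) (1 / (r : ℝ) ^ k0) ≤ (r : ℝ) ^ k0 * (1 / (r : ℝ) ^ k0) := mul_le_mul_of_nonneg_left (min_le_right _ _) hB0.le
        _ = 1 := by field_simp) D J hA hO'
  rw [← hCst] at key
  push_cast at key
  have : Γ * (r : ℝ) ^ k0 ≤ Γ * (r : ℝ) ^ k0 * r := le_mul_of_one_le_right (by positivity) (by linarith)
  linarith

/-- **EXIT of 08B (classical rays).** -/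
theorem rn_cl (A d Γ : ℝ) (hA : 1 ≤ A) (hd0 : 0 < d) (hd1 : d ≤ 1) (hΓ : 0 < Γ) (hΓd : Γ ≤ d) :
    ∃ (r N k0 M0 : ℕ) (e τ es : ℝ), 0 < e ∧ 0 < τ ∧ 0 < es ∧
      ¬ RnProfCl r N k0 3 M0 A d (1 + 3 * d - 2 * Γ) (2 - 2 * d + 2 * Γ) e τ es := by
  obtain ⟨r, hr, χ, hχ, es, hes, τ, hτ, M0, hout⟩ := rn_out_cl A d Γ Γ hA hd0 hd1 hΓ hΓd hΓ
  obtain ⟨k0, N, _, e, he, heχ, he1, hend⟩ := rn_end_cl d Γ χ r 3 hd0 hd1 hΓ hΓd hχ hr (by norm_num)
  refine ⟨r, N, k0, M0, e, τ, es, he, hτ, hes, ?_⟩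
  rintro ⟨D, J, hArr, hq⟩
  exact hend D J hArr (rn_prof_out_cl (by omega) (by norm_num) he.le heχ he1 hArr hout hq)

end Claimed.Agent.R256
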