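import Claimed.Agent.R256.Rnd.OutDir
import Claimed.Agent.R256.Fp.Ev

/-!
# Row 256, unit RND (08B), OUT file 5: FP, the four coordinates, the constants      (architect helper38)

Base `M = 2^b`;  `r = N R` (`N` windows of `R` sub-steps of `b` bits);  pins `i0, k0`, second pin `j` (from `rn_sel`), fourth pin `l`.
Coordinates of the common point `O`:  `c4 = ν·O` (intercept; kills `E_i0, E_j, E_k0`), `c3 = f1·O` (kills `E_i0, E_j`), `c2 = m2·O` (kills `E_i0`), `c1 = m1·O`.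
   `H(c3 | c4, D⁺), H(c2 | c3, c4, D⁺), H(c1 | ..) ≥ d (r - lo) - ..`   (`rn_out_b123`: `rn_ts_ent` with the pins `k0, j, i0`, `rn_ls` for the lists)
   `H(c4 | D⁺) ≥ d (r - lo) - ..`  (`rn_out_b4s`: `rn_ts_ent` with the pin `l`; four pins, used if `m/2 < g0`)
   `H(c4 | D⁺) ≥ (min 1 (d + g) - ξ') r`  (`rn_out_b4f`: FP with point `q.qq = (f1·O, f2·O)`, slope `q.sl`, tag `= all Z`, point name `(C', D)`, side data `D = q.dD`)
   `rn_out_chain` adds them up.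
`RnFP` = the statement of FP on a mesh (tolerance `χ`, probability `p` separate); `rn_fp` = adapter to `fp_main_ent` (+ net in `g`, + two-parameter version of `fp_mesh`).
`rn_ok_grid` : replace `Z` by the corner of its fine cell.
LEAVES: L-256-RN-FPA (`rn_fp`), BR (`rn_br_x`, `rn_br_u`, `rn_br_s`, `rn_out_bd`, `rn_out_tag`, `rn_out_pt`), VF1 (`rn_out_f1`), B4F (`rn_out_b4f`), B123 (`rn_out_b123`, `rn_out_b4s`), MAIN (`rn_out_main_fp`, `rn_out_main_4`), CORE (`rn_out_core`), GRID (`rn_ok_grid`), OUT (`rn_out_final`).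
-/

set_option autoImplicit false

namespace Claimed.Agent.R256

open Claimed.Agent.R255 Claimed.Agent.R255.FLaw
open Classical

/-- **FP on a mesh**: `N` windows, `R` mesh steps per window, `b` bits per mesh step -/
def RnFP (d g ξ A χ p : ℝ) (N R b : ℕ) : Prop :=
  ∀ (Ω δ β' κ : Type) [Fintype Ω] (P : FLaw Ω) (q : Ω → ℝ × ℝ) (t : Ω → ℝ) (D : Ω → δ) (Tg : Ω → β') (Qn : Ω → κ),
    IcBd A q t → (∀ ω ω', Tg ω = Tg ω' → t ω = t ω') → (∀ ω ω', Qn ω = Qn ω' → q ω = q ω') →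
    (∀ u ≤ R, P.pr (fun ω => P.surC (icX q (u * b)) (pair (pair (icU q t (N * (R * b))) Tg) D) ω
        < (d * u - χ * R) * b * Real.log 2) ≤ p) →
    (∀ w < N, ∀ u ≤ R, P.pr (fun ω => P.surC (icS t (w * (R * b) + u * b)) (pair (pair (icS t (w * (R * b))) Qn) D) ω
        < (g * u - χ * R) * b * Real.log 2) ≤ p) →
    P.miC Qn Tg D ≤ χ * (R * b) * Real.log 2 →
    (min 1 (d + g) - ξ) * (N * (R * b)) * Real.log 2 ≤ P.entC (icU q t (N * (R * b))) (pair Tg D)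

/-- LEAF FPA.  **adapter to `fp_main_ent`.**
Net `g_i = g0 + i ξ/2`, `i ≤ ⌈2/ξ⌉`;  `N = max N₀(g_i, ξ/2)` (and `≥ 1`), `χ_F = min χ(g_i)`, `χ = χ_F/2`, `R₀ ≥ 2/χ_F` (and `≥ 1`), `p = χ_F/(R+1)`, `b₀ = max n₁(g_i)`, window `n = R b`.
For `g ∈ [g_i, g_i + ξ/2]`: mesh scores with exponent `g` imply those with `g_i`;  mesh ⟹ `IcGood` at all levels with tolerance `χ + e/R ≤ χ_F` off mass `(R+1) p`  (proof of `fp_mesh` with separate tolerance and probability; nested cells);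
`min 1 (d+g) - ξ ≤ min 1 (d+g_i) - ξ/2`. -/
theorem rn_fp (d g0 ξ A : ℝ) (hd0 : 0 < d) (hd1 : d ≤ 1) (hg0 : 0 < g0) (hξ : 0 < ξ) (hA : 1 ≤ A) :
    ∃ N : ℕ, 0 < N ∧ ∃ χ : ℝ, 0 < χ ∧ ∃ R₀ : ℕ, ∀ R : ℕ, R₀ ≤ R → ∃ p : ℝ, 0 < p ∧ ∃ b₀ : ℕ, ∀ b : ℕ, b₀ ≤ b →
      ∀ g : ℝ, g0 ≤ g → g ≤ 1 → RnFP d g ξ A χ p N R b := by
  obtain ⟨N, hN, χ, hχ, R₀, H⟩ := fp_mesh_u d g0 ξ A hd0 hg0 hξ hA
  refine ⟨N, hN, χ, hχ, R₀, fun R hR => ?_⟩
  obtain ⟨p, hp, b₀, H2⟩ := H R hR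
  refine ⟨p, hp, b₀, fun b hb g hg hg1 => ?_⟩
  intro Ω δ β' κ _ P q t D Tg Qn h1 h2 h3 h4 h5 h6
  exact H2 b hb d g le_rfl hd1 hg hg1 Ω δ β' κ P q t D Tg Qn h1 h2 h3 h4 h5 h6

namespace RnQ

variable (q : RnQ) {n : ℕ}

noncomputable def f1 (i0 k0 j : Fin n) : q.Om n → Fin 4 → ℝ := fun y => rnF1 (q.Z (y.2 i0)) (q.Z (y.2 j)) (q.Z (y.2 k0))

noncomputable def f2 (i0 k0 j : Fin n) : q.Om n → Fin 4 → ℝ := fun y => rnF2 (q.Z (y.2 i0)) (q.Z (y.2 j)) (q.Z (y.2 k0))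

noncomputable def nu (i0 k0 j : Fin n) : q.Om n → Fin 4 → ℝ := fun y => rnNu (q.Z (y.2 i0)) (q.Z (y.2 j)) (q.Z (y.2 k0))

def m2 (i0 j : Fin n) : q.Om n → Fin 4 → ℝ := fun y => rnM2 (q.Z (y.2 i0)) (q.Z (y.2 j))

def m1 : q.Om n → Fin 4 → ℝ := fun _ => rnM1

/-- the planar point of FP -/
noncomputable def qq (i0 k0 j : Fin n) : q.Om n → ℝ × ℝ :=
  fun y => (rnDot (q.f1 i0 k0 j y) (q.pO y), rnDot (q.f2 i0 k0 j y) (q.pO y))

end RnQ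

/-- exceptional probability of a time step -/
noncomputable def rnPts (n : ℕ) (st τ ε U : ℝ) : ℝ :=
  4 * Real.exp (-(ε * U)) + (n * ((st + τ) * U) + 1) / (ε * U) + τ + 4 * (n : ℝ) ^ 2 * τ

/-- exceptional probability of the choice of the second pin -/
noncomputable def rnPsel (n N R : ℕ) (st τ ε U : ℝ) : ℝ :=
  (N * (R + 1) : ℝ) / ((n : ℝ) - 2)
    + (n : ℝ) ^ 2 * (N * (R + 1)) * (5 * Real.exp (-(ε * U)) + τ + ((st + τ) * U + 1) / (ε * U)) + 4 * (n : ℝ) ^ 2 * τ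

variable (q : RnQ) {n : ℕ}

/-! ## BR: the bridge between `rnCell (2^b)` and `icCell` -/

theorem rn_br_x (b u : ℕ) (i0 k0 j : Fin n) : icX (q.qq i0 k0 j) (u * b) = q.fc (2 ^ b) u (q.f1 i0 k0 j) := by
  funext y
  simp only [icX, icCell, RnQ.fc, rn_cell_two, RnQ.qq, mul_comm b u]

/-- (`rn_geo_nu_dot`) -/
theorem rn_br_u (b u : ℕ) (i0 k0 j : Fin n) :
    icU (q.qq i0 k0 j) (q.sl i0 k0 j) (u * b) = q.fc (2 ^ b) u (q.nu i0 k0 j) := by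
  funext y
  simp only [icU, icW, icCell, RnQ.fc, rn_cell_two, RnQ.qq, RnQ.nu, RnQ.sl, RnQ.f1, RnQ.f2, rn_geo_nu_dot, mul_comm b u]

theorem rn_br_s (b u : ℕ) (i0 k0 j : Fin n) : icS (q.sl i0 k0 j) (u * b) = q.sc (2 ^ b) u i0 k0 j := by
  funext y
  simp only [icS, icCell, RnQ.sc, rn_cell_two, mul_comm b u]

/-- `|O_i| ≤ 4 A³` (`inc`, sizes), functionals `≤ 8 A²` (`rn_geo_bd`), `|slope| ≤ 1` -/
theorem rn_out_bd {M r K : ℕ} {A d τ es oT dv st : ℝ} {jj : ℕ → ℝ} (h : q.Ok M r K A d τ es oT dv st jj)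
    (hM : 1 ≤ M) (hA : 1 ≤ A) (i0 k0 j : Fin n) : IcBd (128 * A ^ 5) (q.qq i0 k0 j) (q.sl i0 k0 j) := by
  intro y
  have hA0 : (0 : ℝ) ≤ A := by linarith
  have hA2 : A ≤ A ^ 2 := by nlinarith
  have hA3 : A ^ 2 ≤ A ^ 3 := by nlinarith [sq_nonneg A]
  have hO : ∀ i, |q.pO y i| ≤ 4 * A ^ 3 := by
    intro i
    set ω := q.ptRep y.1 with hω
    have h1 := h.inc ω i
    have hZ := h.bdZ ω
    have hW := h.bdW ω
    have ht := h.bdt ω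
    have hMp : (1 : ℝ) ≤ (M : ℝ) ^ (K * r) := one_le_pow₀ (by exact_mod_cast hM)
    have h2 : A / (M : ℝ) ^ (K * r) ≤ A := div_le_self hA0 hMp
    have hE : |rnE (q.Z ω) i| ≤ 2 * A ^ 2 := by
      have hz1 : (q.Z ω).1 ^ 2 ≤ A ^ 2 := sq_le_sq' (by linarith [(abs_le.1 hZ.1).1]) (abs_le.1 hZ.1).2
      have hz2 : (q.Z ω).2 ^ 2 ≤ A ^ 2 := sq_le_sq' (by linarith [(abs_le.1 hZ.2).1]) (abs_le.1 hZ.2).2
      fin_cases i
      · simp only [rnE, Fin.zero_eta, Fin.isValue, Matrix.cons_val_zero, abs_one]; nlinarith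
      · simp only [rnE, Fin.mk_one, Fin.isValue, Matrix.cons_val_one, Matrix.cons_val_zero]; linarith [hZ.1]
      · simp only [rnE, Fin.reduceFinMk, Matrix.cons_val]; linarith [hZ.2]
      · simp only [rnE, Fin.reduceFinMk, Matrix.cons_val]
        rw [abs_of_nonneg (by positivity)]; linarith
    have hWi : |rnW (q.W ω) i| ≤ A := by
      fin_cases i
      · simp only [rnW, Fin.zero_eta, Fin.isValue, Matrix.cons_val_zero, abs_zero]; exact hA0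
      · simp only [rnW, Fin.mk_one, Fin.isValue, Matrix.cons_val_one, Matrix.cons_val_zero]; exact hW.1
      · simp only [rnW, Fin.reduceFinMk, Matrix.cons_val]; exact hW.2.1
      · simp only [rnW, Fin.reduceFinMk, Matrix.cons_val]; exact hW.2.2
    have h3 : |q.th ω * rnE (q.Z ω) i| ≤ A * (2 * A ^ 2) := by
      rw [abs_mul]
      exact mul_le_mul ht hE (abs_nonneg _) hA0
    have h4 : |q.O ω i| ≤ |q.O ω i - (rnW (q.W ω) i + q.th ω * rnE (q.Z ω) i)| + (|rnW (q.W ω) i| + |q.th ω * rnE (q.Z ω) i|) := by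
      have e : q.O ω i = (q.O ω i - (rnW (q.W ω) i + q.th ω * rnE (q.Z ω) i)) + (rnW (q.W ω) i + q.th ω * rnE (q.Z ω) i) := by ring
      calc |q.O ω i| = |(q.O ω i - (rnW (q.W ω) i + q.th ω * rnE (q.Z ω) i)) + (rnW (q.W ω) i + q.th ω * rnE (q.Z ω) i)| := by rw [← e]
        _ ≤ _ := (abs_add_le _ _).trans (add_le_add le_rfl (abs_add_le _ _))
    have h5 : q.pO y i = q.O ω i := rfl
    rw [h5]
    nlinarith
  have hB := fun i => rn_geo_bd hA (a := q.Z (y.2 i0)) (b := q.Z (y.2 j)) (h.bdZ _) (h.bdZ _) (q.Z (y.2 k0)) i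
  have e5 : 4 * (8 * A ^ 2) * (4 * A ^ 3) = 128 * A ^ 5 := by ring
  refine ⟨?_, ?_, ?_⟩
  · have := rn_geo_dot_le (φ := q.f1 i0 k0 j y) (x := q.pO y) (fun i => (hB i).2.2.2.2.1) hO
    rw [e5] at this
    exact this
  · have := rn_geo_dot_le (φ := q.f2 i0 k0 j y) (x := q.pO y) (fun i => (hB i).2.2.2.2.2.1) hO
    rw [e5] at this
    exact this
  · have h1 : |q.sl i0 k0 j y| ≤ 1 := rn_geo_sl_le _ _ _
    have h2 : (1 : ℝ) ≤ A ^ 5 := one_le_pow₀ hA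
    linarith

theorem rn_out_tag (i0 k0 j : Fin n) (y y' : q.Om n) (hy : q.zs Finset.univ y = q.zs Finset.univ y') :
    q.sl i0 k0 j y = q.sl i0 k0 j y' := by
  have hz : ∀ i, q.Z (y.2 i) = q.Z (y'.2 i) := fun i => by
    have := congrFun hy i
    simpa [RnQ.zs] using this
  simp only [RnQ.sl, hz]

/-- names equal ⟹ `y.1 = y'.1` ⟹ same `pO`;  `Z_i0, Z_j` and the chart equal ⟹ same `f1, f2` -/
theorem rn_out_pt {i0 k0 j : Fin n} (hik : i0 ≠ k0) (hjk : j ≠ k0) (y y' : q.Om n)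
    (hy : pair q.nC' (q.dD i0 k0 j) y = pair q.nC' (q.dD i0 k0 j) y') : q.qq i0 k0 j y = q.qq i0 k0 j y' := by
  simp only [FLaw.pair, RnQ.dD, Prod.mk.injEq] at hy
  obtain ⟨h1, ⟨h2, h3⟩, h4⟩ := hy
  have hy1 : y.1 = y'.1 := Subtype.ext (Prod.ext h2 h1)
  have hz : ∀ i, i ≠ k0 → q.Z (y.2 i) = q.Z (y'.2 i) := fun i hi => by
    have := congrFun h3 i
    simpa [RnQ.zs, hi] using this
  have hO : q.pO y = q.pO y' := by simp only [RnQ.pO, hy1]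
  have hbit : rnBit (q.Z (y.2 i0)) (q.Z (y.2 j)) (q.Z (y.2 k0)) ↔ rnBit (q.Z (y'.2 i0)) (q.Z (y'.2 j)) (q.Z (y'.2 k0)) := by
    have : q.bit i0 k0 j y = q.bit i0 k0 j y' := h4
    exact iff_of_eq this
  have hf1 : q.f1 i0 k0 j y = q.f1 i0 k0 j y' := by
    simp only [RnQ.f1, rnF1, hz i0 hik, hz j hjk]
    by_cases hb : rnBit (q.Z (y.2 i0)) (q.Z (y.2 j)) (q.Z (y.2 k0))
    · have hb' := hbit.1 hb
      rw [hz i0 hik, hz j hjk] at hb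
      rw [if_pos hb, if_pos hb']
    · have hb' := fun hh => hb (hbit.2 hh)
      rw [hz i0 hik, hz j hjk] at hb
      rw [if_neg hb, if_neg hb']
  have hf2 : q.f2 i0 k0 j y = q.f2 i0 k0 j y' := by
    simp only [RnQ.f2, rnF2, hz i0 hik, hz j hjk]
    by_cases hb : rnBit (q.Z (y.2 i0)) (q.Z (y.2 j)) (q.Z (y.2 k0))
    · have hb' := hbit.1 hb
      rw [hz i0 hik, hz j hjk] at hb
      rw [if_pos hb, if_pos hb']
    · have hb' := fun hh => hb (hbit.2 hh)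
      rw [hz i0 hik, hz j hjk] at hb
      rw [if_neg hb, if_neg hb']
  simp only [RnQ.qq, hf1, hf2, hO]

/-! ## the hypotheses of FP -/

/-- LEAF VF1.  **(F1)**:  `rn_ts` with `x = k0`, `φ = f1`, `V = c4` at depth `N R` (`rn_ls`: `ν` kills `E_k0`), `G = q.Tr` (`rn_tr_speed`, `rn_tr_prob`), depth `u ≥ lo`;  for `u < lo` the threshold is negative.
The conditioning `((c4, all Z), D)` generates the same partition as `(c4, D⁺)` (`ent_surC_congr`; the chart is a function of all `Z`).   `Real.log (2^b : ℕ) = b log 2`. -/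
theorem rn_out_f1 {b K lo N R u : ℕ} {A d τ es oT dv st ε χF : ℝ} {jj : ℕ → ℝ}
    (h : q.Ok (2 ^ b) (N * R) K A d τ es oT dv st jj)
    (hgrid : ∀ ω ω', q.Zc (2 ^ b) (K * (N * R)) ω = q.Zc (2 ^ b) (K * (N * R)) ω' → q.Z ω = q.Z ω')
    (hb : 1 ≤ b) (hK : 1 ≤ K) (hN : 1 ≤ N) (hA : 1 ≤ A) (hd0 : 0 ≤ d) (hes : 0 ≤ es)
    (hlo : 1 / (((2 ^ b : ℕ) : ℝ)) ^ lo ≤ rnKap A ((((2 ^ b : ℕ) : ℝ)) ^ (-(es * (N * R : ℕ)))))
    (hε : 0 < ε)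
    (hlog : Real.log (11 * A * (8 * A ^ 2) + 2) + Real.log (11 * A * (8 * A ^ 2) + 3) ≤ ε * (b * Real.log 2))
    (hnum : d * lo + τ + 6 * ε ≤ χF * R)
    {i0 k0 j l : Fin n} (hik : i0 ≠ k0) (hjl : j ≠ l) (hji : j ≠ i0) (hjk : j ≠ k0) (hli : l ≠ i0) (hlk : l ≠ k0)
    (hu : u ≤ R) :
    (q.S n).pr (fun y => (q.S n).surC (icX (q.qq i0 k0 j) (u * b))
        (pair (pair (icU (q.qq i0 k0 j) (q.sl i0 k0 j) (N * (R * b))) (q.zs Finset.univ)) (q.dD i0 k0 j)) y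
          < (d * u - χF * R) * b * Real.log 2)
      ≤ rnPts n st τ ε (b * Real.log 2) := by
  have hL : 0 < Real.log 2 := Real.log_pos one_lt_two
  have hb0 : (0 : ℝ) < b := by exact_mod_cast hb
  have hU : 0 < (b : ℝ) * Real.log 2 := by positivity
  have hlogM : Real.log ((2 ^ b : ℕ) : ℝ) = b * Real.log 2 := by
    push_cast
    rw [Real.log_pow]
  have hM2 : 2 ≤ 2 ^ b := by
    calc 2 = 2 ^ 1 := by norm_num
      _ ≤ 2 ^ b := Nat.pow_le_pow_right (by norm_num) hb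
  have hM1 : 1 ≤ 2 ^ b := Nat.one_le_two_pow
  have hτ : 0 ≤ τ := le_trans (ent_pr_nonneg _ _) (h.time 0 0 le_rfl (Nat.zero_le _))
  have hst : 0 ≤ st + τ := by
    have h1 := le_trans (ent_miC_nonneg _ _ _ _) h.stat
    rw [hlogM] at h1
    by_contra hneg
    push Not at hneg
    have := mul_neg_of_neg_of_pos hneg hU
    linarith
  have hA0 : (0 : ℝ) < A := by linarith
  by_cases hul : u < lo
  · -- negative threshold
    have hpts : 0 ≤ rnPts n st τ ε (b * Real.log 2) := by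
      unfold rnPts
      have h1 : 0 ≤ (n * ((st + τ) * (b * Real.log 2)) + 1) / (ε * (b * Real.log 2)) := by positivity
      have h2 : 0 ≤ 4 * (n : ℝ) ^ 2 * τ := by positivity
      have h3 := (Real.exp_pos (-(ε * (b * Real.log 2)))).le
      linarith
    rw [ent_pr_eq_zero _ fun y hy hlt => ?_]
    · exact hpts
    · have h0 := ent_surC_nonneg (q.S n) (icX (q.qq i0 k0 j) (u * b))
        (pair (pair (icU (q.qq i0 k0 j) (q.sl i0 k0 j) (N * (R * b))) (q.zs Finset.univ)) (q.dD i0 k0 j)) hy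
      have h1 : (u : ℝ) ≤ lo := by exact_mod_cast hul.le
      have h2 : d * u ≤ d * lo := mul_le_mul_of_nonneg_left h1 hd0
      have h3 : d * u - χF * R ≤ 0 := by linarith
      have h4 : (d * u - χF * R) * b * Real.log 2 ≤ 0 := by
        rw [mul_assoc]
        exact mul_nonpos_of_nonpos_of_nonneg h3 hU.le
      linarith
  push Not at hul
  set M : ℕ := 2 ^ b with hMdef
  set ϖ : ℝ := ((M : ℕ) : ℝ) ^ (-(es * ((N * R : ℕ) : ℝ))) with hϖdef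
  have hMr : (1 : ℝ) ≤ (M : ℝ) := by exact_mod_cast hM1
  have hϖ : 0 < ϖ := Real.rpow_pos_of_pos (by linarith) _
  have hϖ1 : ϖ ≤ 1 := Real.rpow_le_one_of_one_le_of_nonpos hMr (by
    have : 0 ≤ es * ((N * R : ℕ) : ℝ) := mul_nonneg hes (Nat.cast_nonneg _)
    linarith)
  have hκ : 0 < rnKap A ϖ := by unfold rnKap; positivity
  have hzs : ∀ y y' : q.Om n, q.zs Finset.univ y = q.zs Finset.univ y' → ∀ i, q.Z (y.2 i) = q.Z (y'.2 i) := fun y y' hy i => by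
    have := congrFun hy i
    simpa [RnQ.zs] using this
  have hB := fun (y : q.Om n) i => rn_geo_bd hA (a := q.Z (y.2 i0)) (b := q.Z (y.2 j)) (h.bdZ _) (h.bdZ _) (q.Z (y.2 k0)) i
  have hB0 : (0 : ℝ) ≤ 8 * A ^ 2 := by positivity
  have huNR : u ≤ N * R := hu.trans (Nat.le_mul_of_pos_left R hN)
  have hV0 := rn_ls q h hM1 hA hB0 k0 (q.nu i0 k0 j) (fun y y' hy => by simp only [RnQ.nu, hzs y y' hy])
    (fun y i => (hB y i).2.2.2.2.2.2) (fun y => rn_geo_nu_c _ _ _) (j := N * R) (Nat.le_mul_of_pos_left _ hK)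
  have hV : (q.S n).NVal (q.Tr ϖ (ϖ ^ 4 / (72 * A ^ 3)) i0 k0) (q.fc M (N * R) (q.nu i0 k0 j))
      (pair (q.pY M (K * (N * R)) k0) q.dp) (11 * A * (8 * A ^ 2) + 2) :=
    ltk_nval_mono _ hV0 (fun _ _ => trivial) (fun _ _ h' => h') ⟨id, fun _ => rfl⟩ le_rfl
  have hts := rn_ts q h hgrid hM2 hK hA hB0 k0 (q.f1 i0 k0 j) (fun y y' hy => by simp only [RnQ.f1, hzs y y' hy])
    (fun y i => (hB y i).2.2.2.2.1) (q.Tr ϖ (ϖ ^ 4 / (72 * A ^ 3)) i0 k0) hκ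
    (fun y hy => (rn_tr_speed q hA hϖ hϖ1 hik hjl hji hjk hli hlk hy).2.1) hlo hul huNR
    (q.fc M (N * R) (q.nu i0 k0 j)) (by nlinarith [sq_nonneg A]) hV hε (by rw [hlogM]; exact hlog)
  have htr := rn_tr_prob q h hM1 hA i0 k0 hik
  rw [hlogM] at hts
  refine le_trans (ent_pr_mono _ fun y _ hy => ?_) (hts.trans ?_)
  · have e4 : N * (R * b) = (N * R) * b := by ring
    rw [e4, rn_br_u, rn_br_x] at hy
    have hc : (q.S n).surC (q.fc (2 ^ b) u (q.f1 i0 k0 j))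
        (pair (pair (q.fc (2 ^ b) (N * R) (q.nu i0 k0 j)) (q.zs Finset.univ)) (q.dD i0 k0 j)) y
        = (q.S n).surC (q.fc M u (q.f1 i0 k0 j)) (pair (q.fc M (N * R) (q.nu i0 k0 j)) q.dp) y := by
      refine ent_surC_congr _ _ _ _ _ _ (fun y' _ => ?_) (fun _ _ _ => Iff.rfl)
      simp only [FLaw.pair, RnQ.dD, RnQ.dp, Prod.mk.injEq]
      constructor
      · rintro ⟨⟨h1, h2⟩, ⟨h3, _⟩, _⟩
        exact ⟨h1, h3, h2⟩
      · rintro ⟨h1, h2, h3⟩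
        refine ⟨⟨h1, h3⟩, ⟨h2, ?_⟩, ?_⟩
        · funext i
          have := congrFun h3 i
          simp only [RnQ.zs, Finset.mem_univ, if_true] at this
          simp only [RnQ.zs]
          split_ifs
          · exact this
          · rfl
        · simp only [RnQ.bit, hzs y' y h3]
    rw [hc] at hy
    refine lt_of_lt_of_le hy ?_
    have e5 : (d * u - χF * R) * b * Real.log 2 = (d * u - χF * R) * (b * Real.log 2) := by ring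
    rw [e5]
    refine mul_le_mul_of_nonneg_right ?_ hU.le
    linarith
  · unfold rnPts
    linarith

/-- LEAF B4F.  **FP applied.**   (F1) `rn_out_f1`; (F2) `hsel` (= conclusion of `rn_sel`; `rn_br_s`, `w (R b) + u b = (w R + u) b`, `q.dsc` is the score of `RnFP` literally); (F3) `rn_pin_info_fp` + `rn_grid_stat`;
`rn_out_bd`, `rn_out_tag`, `rn_out_pt`;  conclusion: `rn_br_u` and `(all Z, D) ≅ D⁺` (`ent_entC_congr`). -/
theorem rn_out_b4f {b K lo N R : ℕ} {A d τ es oT dv st ε χF p g ξ' : ℝ} {jj : ℕ → ℝ}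
    (h : q.Ok (2 ^ b) (N * R) K A d τ es oT dv st jj)
    (hgrid : ∀ ω ω', q.Zc (2 ^ b) (K * (N * R)) ω = q.Zc (2 ^ b) (K * (N * R)) ω' → q.Z ω = q.Z ω')
    (hb : 1 ≤ b) (hK : 1 ≤ K) (hN : 1 ≤ N) (hA : 1 ≤ A) (hd0 : 0 ≤ d) (hes : 0 ≤ es)
    (hlo : 1 / (((2 ^ b : ℕ) : ℝ)) ^ lo ≤ rnKap A ((((2 ^ b : ℕ) : ℝ)) ^ (-(es * (N * R : ℕ)))))
    (hε : 0 < ε)
    (hlog : Real.log (11 * A * (8 * A ^ 2) + 2) + Real.log (11 * A * (8 * A ^ 2) + 3) ≤ ε * (b * Real.log 2))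
    (hnum : d * lo + τ + 6 * ε ≤ χF * R)
    {i0 k0 j l : Fin n} (hik : i0 ≠ k0) (hjl : j ≠ l) (hji : j ≠ i0) (hjk : j ≠ k0) (hli : l ≠ i0) (hlk : l ≠ k0)
    (HF : RnFP d g ξ' (128 * A ^ 5) χF p N R b)
    (hp1 : rnPts n st τ ε (b * Real.log 2) ≤ p)
    (hsel : (q.S n).pr (fun y => ∃ w < N, ∃ u ≤ R,
      q.dsc (2 ^ b) i0 k0 j (w * R + u) (w * R) y < (g * u - χF * R) * Real.log ((2 ^ b : ℕ) : ℝ)) ≤ p)
    (hst : st + τ ≤ χF * R) :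
    (min 1 (d + g) - ξ') * ((N * R : ℕ) : ℝ) * (b * Real.log 2) ≤ (q.S n).entC (q.fc (2 ^ b) (N * R) (q.nu i0 k0 j)) q.dp := by
  have hL : 0 < Real.log 2 := Real.log_pos one_lt_two
  have hlogM : Real.log ((2 ^ b : ℕ) : ℝ) = b * Real.log 2 := by
    push_cast
    rw [Real.log_pow]
  have hM1 : 1 ≤ 2 ^ b := Nat.one_le_two_pow
  have hbit : ∀ y y', q.zs Finset.univ y = q.zs Finset.univ y' → q.bit i0 k0 j y = q.bit i0 k0 j y' := by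
    intro y y' hy
    have hz : ∀ i, q.Z (y.2 i) = q.Z (y'.2 i) := fun i => by
      have := congrFun hy i
      simpa [RnQ.zs] using this
    simp only [RnQ.bit, hz]
  have hF3 : (q.S n).miC (pair q.nC' (q.dD i0 k0 j)) (q.zs Finset.univ) (q.dD i0 k0 j) ≤ χF * (R * b) * Real.log 2 := by
    have h1 := rn_pin_info_fp q k0 (q.bit i0 k0 j) hbit
    have h2 := rn_grid_stat q h hgrid
    rw [hlogM] at h2
    have h3 : (st + τ) * (b * Real.log 2) ≤ χF * R * (b * Real.log 2) :=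
      mul_le_mul_of_nonneg_right hst (by positivity)
    have h4 : χF * (R * b) * Real.log 2 = χF * R * (b * Real.log 2) := by ring
    rw [h4]
    exact h1.trans (h2.trans h3)
  have hF2 : ∀ w < N, ∀ u ≤ R, (q.S n).pr (fun y => (q.S n).surC (icS (q.sl i0 k0 j) (w * (R * b) + u * b))
      (pair (pair (icS (q.sl i0 k0 j) (w * (R * b))) (pair q.nC' (q.dD i0 k0 j))) (q.dD i0 k0 j)) y
        < (g * u - χF * R) * b * Real.log 2) ≤ p := by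
    intro w hw u hu
    refine le_trans (ent_pr_mono _ fun y _ hy => ?_) hsel
    refine ⟨w, hw, u, hu, ?_⟩
    have e1 : w * (R * b) + u * b = (w * R + u) * b := by ring
    have e2 : w * (R * b) = (w * R) * b := by ring
    rw [e1, e2, rn_br_s, rn_br_s] at hy
    rw [hlogM]
    have e3 : (g * u - χF * R) * (b * Real.log 2) = (g * u - χF * R) * b * Real.log 2 := by ring
    rw [e3]
    exact hy
  have hF1 : ∀ u ≤ R, (q.S n).pr (fun y => (q.S n).surC (icX (q.qq i0 k0 j) (u * b))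
      (pair (pair (icU (q.qq i0 k0 j) (q.sl i0 k0 j) (N * (R * b))) (q.zs Finset.univ)) (q.dD i0 k0 j)) y
        < (d * u - χF * R) * b * Real.log 2) ≤ p := fun u hu =>
    (rn_out_f1 q h hgrid hb hK hN hA hd0 hes hlo hε hlog hnum hik hjl hji hjk hli hlk hu).trans hp1
  have hmain := HF (q.Om n) _ _ _ (q.S n) (q.qq i0 k0 j) (q.sl i0 k0 j) (q.dD i0 k0 j) (q.zs Finset.univ)
    (pair q.nC' (q.dD i0 k0 j)) (rn_out_bd q h hM1 hA i0 k0 j) (rn_out_tag q i0 k0 j) (rn_out_pt q hik hjk) hF1 hF2 hF3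
  have e4 : N * (R * b) = (N * R) * b := by ring
  rw [e4, rn_br_u] at hmain
  have hcongr : (q.S n).entC (q.fc (2 ^ b) (N * R) (q.nu i0 k0 j)) (pair (q.zs Finset.univ) (q.dD i0 k0 j))
      = (q.S n).entC (q.fc (2 ^ b) (N * R) (q.nu i0 k0 j)) q.dp := by
    refine ent_entC_congr _ _ _ _ _ (fun y y' _ _ => ?_) (fun _ _ _ _ _ => Iff.rfl)
    simp only [FLaw.pair, RnQ.dD, RnQ.dp, Prod.mk.injEq]
    constructor
    · rintro ⟨h1, ⟨h2, _⟩, _⟩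
      exact ⟨h2, h1⟩
    · rintro ⟨h1, h2⟩
      refine ⟨h2, ⟨h1, ?_⟩, hbit y y' h2⟩
      funext i
      have := congrFun h2 i
      simp only [RnQ.zs, Finset.mem_univ, if_true] at this
      simp only [RnQ.zs]
      split_ifs
      · exact this
      · rfl
  rw [hcongr] at hmain
  refine le_trans (le_of_eq ?_) hmain
  push_cast
  ring

/-! ## the time steps -/

/-- one time step at the full depth `r`, with the transverse event and the probability `rnPts` -/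
theorem rn_out_step {M r K lo : ℕ} {A d τ es oT dv st ε NV : ℝ} {jj : ℕ → ℝ} (h : q.Ok M r K A d τ es oT dv st jj)
    (hgrid : ∀ ω ω', q.Zc M (K * r) ω = q.Zc M (K * r) ω' → q.Z ω = q.Z ω')
    (hM : 2 ≤ M) (hK : 1 ≤ K) (hA : 1 ≤ A) (hes : 0 ≤ es)
    (hlo : 1 / (M : ℝ) ^ lo ≤ rnKap A ((M : ℝ) ^ (-(es * r)))) (hlor : lo ≤ r) (hε : 0 < ε)
    (hpos : 0 ≤ d * ((r : ℝ) - lo) - τ - 6 * ε) {i0 k0 : Fin n} (hik : i0 ≠ k0) (x : Fin n) (φ : q.Om n → Fin 4 → ℝ)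
    (hφ : ∀ y y', q.zs Finset.univ y = q.zs Finset.univ y' → φ y = φ y') (hφb : ∀ y i, |φ y i| ≤ 8 * A ^ 2)
    (hsp : ∀ y, q.Tr ((M : ℝ) ^ (-(es * r))) (((M : ℝ) ^ (-(es * r))) ^ 4 / (72 * A ^ 3)) i0 k0 y →
      rnKap A ((M : ℝ) ^ (-(es * r))) ≤ |rnDot (φ y) (rnE (q.Z (y.2 x)))|)
    {γ : Type} (V : q.Om n → γ) (hNV : 1 ≤ NV) (hV : (q.S n).NVal (fun _ => True) V (pair (q.pY M (K * r) x) q.dp) NV)
    (hlog : Real.log NV + Real.log (11 * A * (8 * A ^ 2) + 3) ≤ ε * Real.log M) :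
    (d * ((r : ℝ) - lo) - τ - 6 * ε) * Real.log M * (1 - rnPts n st τ ε (Real.log M))
      ≤ (q.S n).entC (q.fc M r φ) (pair V q.dp) := by
  have hM1 : 1 ≤ M := by omega
  have hMr : (1 : ℝ) ≤ (M : ℝ) := by exact_mod_cast hM1
  have hA0 : (0 : ℝ) < A := by linarith
  have hϖ : 0 < (M : ℝ) ^ (-(es * r)) := Real.rpow_pos_of_pos (by linarith) _
  have hκ : 0 < rnKap A ((M : ℝ) ^ (-(es * r))) := by unfold rnKap; positivity
  have hlM : 0 ≤ Real.log M := Real.log_nonneg hMr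
  have h1 := rn_ts_ent q h hgrid hM hK hA (by positivity) x φ hφ hφb
    (q.Tr ((M : ℝ) ^ (-(es * r))) (((M : ℝ) ^ (-(es * r))) ^ 4 / (72 * A ^ 3)) i0 k0) hκ hsp hlo hlor le_rfl V hNV
    (ltk_nval_mono _ hV (fun _ _ => trivial) (fun _ _ h' => h') ⟨id, fun _ => rfl⟩ le_rfl) hε hlog hpos
  refine le_trans ?_ h1
  refine mul_le_mul_of_nonneg_left ?_ (mul_nonneg hpos hlM)
  have htr := rn_tr_prob q h hM1 hA i0 k0 hik
  unfold rnPts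
  linarith

/-- LEAF B123.  three time steps (header).  Lists: `rn_ls` (`ν, f1` kill `E_j`;  `ν, f1, m2` kill `E_i0`: `rn_geo_*`), products by `ltk_nval_comp`. -/
theorem rn_out_b123 {M r K lo : ℕ} {A d τ es oT dv st ε : ℝ} {jj : ℕ → ℝ} (h : q.Ok M r K A d τ es oT dv st jj)
    (hgrid : ∀ ω ω', q.Zc M (K * r) ω = q.Zc M (K * r) ω' → q.Z ω = q.Z ω')
    (hM : 2 ≤ M) (hK : 1 ≤ K) (hA : 1 ≤ A) (hes : 0 ≤ es)
    (hlo : 1 / (M : ℝ) ^ lo ≤ rnKap A ((M : ℝ) ^ (-(es * r)))) (hlor : lo ≤ r) (hε : 0 < ε)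
    (hlog : 3 * Real.log (11 * A * (8 * A ^ 2) + 2) + Real.log (11 * A * (8 * A ^ 2) + 3) ≤ ε * Real.log M)
    (hpos : 0 ≤ d * ((r : ℝ) - lo) - τ - 6 * ε)
    {i0 k0 j l : Fin n} (hik : i0 ≠ k0) (hjl : j ≠ l) (hji : j ≠ i0) (hjk : j ≠ k0) (hli : l ≠ i0) (hlk : l ≠ k0) :
    (d * ((r : ℝ) - lo) - τ - 6 * ε) * Real.log M * (1 - rnPts n st τ ε (Real.log M))
        ≤ (q.S n).entC (q.fc M r (q.f1 i0 k0 j)) (pair (q.fc M r (q.nu i0 k0 j)) q.dp) ∧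
    (d * ((r : ℝ) - lo) - τ - 6 * ε) * Real.log M * (1 - rnPts n st τ ε (Real.log M))
        ≤ (q.S n).entC (q.fc M r (q.m2 i0 j)) (pair (pair (q.fc M r (q.f1 i0 k0 j)) (q.fc M r (q.nu i0 k0 j))) q.dp) ∧
    (d * ((r : ℝ) - lo) - τ - 6 * ε) * Real.log M * (1 - rnPts n st τ ε (Real.log M))
        ≤ (q.S n).entC (q.fc M r q.m1)
            (pair (pair (q.fc M r (q.m2 i0 j)) (pair (q.fc M r (q.f1 i0 k0 j)) (q.fc M r (q.nu i0 k0 j)))) q.dp) := by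
  have hM1 : 1 ≤ M := by omega
  have hMr : (1 : ℝ) ≤ (M : ℝ) := by exact_mod_cast hM1
  have hA0 : (0 : ℝ) < A := by linarith
  have hϖ : 0 < (M : ℝ) ^ (-(es * r)) := Real.rpow_pos_of_pos (by linarith) _
  have hϖ1 : (M : ℝ) ^ (-(es * r)) ≤ 1 := Real.rpow_le_one_of_one_le_of_nonpos hMr (by
    have : 0 ≤ es * (r : ℝ) := mul_nonneg hes (Nat.cast_nonneg _)
    linarith)
  have hzs : ∀ y y' : q.Om n, q.zs Finset.univ y = q.zs Finset.univ y' → ∀ i, q.Z (y.2 i) = q.Z (y'.2 i) := fun y y' hy i => by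
    have := congrFun hy i
    simpa [RnQ.zs] using this
  have hB := fun (y : q.Om n) i => rn_geo_bd hA (a := q.Z (y.2 i0)) (b := q.Z (y.2 j)) (h.bdZ _) (h.bdZ _) (q.Z (y.2 k0)) i
  have hB0 : (0 : ℝ) ≤ 8 * A ^ 2 := by positivity
  have hrK : r ≤ K * r := Nat.le_mul_of_pos_left _ hK
  set NV0 : ℝ := 11 * A * (8 * A ^ 2) + 2 with hNV0
  have hNV1 : 1 ≤ NV0 := by rw [hNV0]; nlinarith [sq_nonneg A]
  have hNVp : 0 < NV0 := by linarith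
  have hl0 : 0 ≤ Real.log NV0 := Real.log_nonneg hNV1
  have fnu : ∀ y y', q.zs Finset.univ y = q.zs Finset.univ y' → q.nu i0 k0 j y = q.nu i0 k0 j y' :=
    fun y y' hy => by simp only [RnQ.nu, hzs y y' hy]
  have ff1 : ∀ y y', q.zs Finset.univ y = q.zs Finset.univ y' → q.f1 i0 k0 j y = q.f1 i0 k0 j y' :=
    fun y y' hy => by simp only [RnQ.f1, hzs y y' hy]
  have fm2 : ∀ y y', q.zs Finset.univ y = q.zs Finset.univ y' → q.m2 i0 j y = q.m2 i0 j y' :=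
    fun y y' hy => by simp only [RnQ.m2, hzs y y' hy]
  have bnu : ∀ y i, |q.nu i0 k0 j y i| ≤ 8 * A ^ 2 := fun y i => (hB y i).2.2.2.2.2.2
  have bf1 : ∀ y i, |q.f1 i0 k0 j y i| ≤ 8 * A ^ 2 := fun y i => (hB y i).2.2.2.2.1
  have bm2 : ∀ y i, |q.m2 i0 j y i| ≤ 8 * A ^ 2 := fun y i => (hB y i).2.2.1
  have bm1 : ∀ (y : q.Om n) i, |q.m1 y i| ≤ 8 * A ^ 2 := fun y i => (hB y i).2.2.2.1
  have sp := fun y hy => rn_tr_speed q hA hϖ hϖ1 hik hjl hji hjk hli hlk (y := y) hy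
  refine ⟨?_, ?_, ?_⟩
  · exact rn_out_step q h hgrid hM hK hA hes hlo hlor hε hpos hik k0 (q.f1 i0 k0 j) ff1 bf1 (fun y hy => (sp y hy).2.1)
      (q.fc M r (q.nu i0 k0 j)) hNV1 (rn_ls q h hM1 hA hB0 k0 (q.nu i0 k0 j) fnu bnu (fun y => rn_geo_nu_c _ _ _) hrK)
      (by linarith)
  · have l1 := rn_ls q h hM1 hA hB0 j (q.nu i0 k0 j) fnu bnu (fun y => rn_geo_nu_b _ _ _) hrK
    have l2 := rn_ls q h hM1 hA hB0 j (q.f1 i0 k0 j) ff1 bf1 (fun y => rn_geo_f1_b _ _ _) hrK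
    have l3 := ltk_nval_comp _ _ _ _ _ hNVp.le l1
      (ltk_nval_mono _ l2 (fun _ h' => h') (fun _ _ h' => (Prod.mk.inj h').2) ⟨id, fun _ => rfl⟩ le_rfl)
    exact rn_out_step q h hgrid hM hK hA hes hlo hlor hε hpos hik j (q.m2 i0 j) fm2 bm2 (fun y hy => (sp y hy).2.2.1)
      _ (by nlinarith) l3 (by rw [Real.log_mul hNVp.ne' hNVp.ne']; linarith)
  · have l1 := rn_ls q h hM1 hA hB0 i0 (q.nu i0 k0 j) fnu bnu (fun y => rn_geo_nu_a _ _ _) hrK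
    have l2 := rn_ls q h hM1 hA hB0 i0 (q.f1 i0 k0 j) ff1 bf1 (fun y => rn_geo_f1_a _ _ _) hrK
    have l2' := rn_ls q h hM1 hA hB0 i0 (q.m2 i0 j) fm2 bm2 (fun y => by
      simp only [RnQ.m2, rn_geo_dotM2]; ring) hrK
    have l3 := ltk_nval_comp _ _ _ _ _ hNVp.le l1
      (ltk_nval_mono _ l2 (fun _ h' => h') (fun _ _ h' => (Prod.mk.inj h').2) ⟨id, fun _ => rfl⟩ le_rfl)
    have l4 := ltk_nval_comp _ _ _ _ _ hNVp.le l3
      (ltk_nval_mono _ l2' (fun _ h' => h') (fun _ _ h' => (Prod.mk.inj h').2) ⟨id, fun _ => rfl⟩ le_rfl)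
    have hNN : 0 < NV0 * NV0 := by positivity
    exact rn_out_step q h hgrid hM hK hA hes hlo hlor hε hpos hik i0 q.m1 (fun _ _ _ => rfl) bm1 (fun y hy => (sp y hy).2.2.2)
      _ (by nlinarith) l4 (by rw [Real.log_mul hNN.ne' hNVp.ne', Real.log_mul hNVp.ne' hNVp.ne']; linarith)

/-- LEAF B123.  the fourth pin: `rn_ts_ent` with `x = l`, `φ = ν`, `V = fun _ => ()`. -/
theorem rn_out_b4s {M r K lo : ℕ} {A d τ es oT dv st ε : ℝ} {jj : ℕ → ℝ} (h : q.Ok M r K A d τ es oT dv st jj)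
    (hgrid : ∀ ω ω', q.Zc M (K * r) ω = q.Zc M (K * r) ω' → q.Z ω = q.Z ω')
    (hM : 2 ≤ M) (hK : 1 ≤ K) (hA : 1 ≤ A) (hes : 0 ≤ es)
    (hlo : 1 / (M : ℝ) ^ lo ≤ rnKap A ((M : ℝ) ^ (-(es * r)))) (hlor : lo ≤ r) (hε : 0 < ε)
    (hlog : 3 * Real.log (11 * A * (8 * A ^ 2) + 2) + Real.log (11 * A * (8 * A ^ 2) + 3) ≤ ε * Real.log M)
    (hpos : 0 ≤ d * ((r : ℝ) - lo) - τ - 6 * ε)
    {i0 k0 j l : Fin n} (hik : i0 ≠ k0) (hjl : j ≠ l) (hji : j ≠ i0) (hjk : j ≠ k0) (hli : l ≠ i0) (hlk : l ≠ k0) :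
    (d * ((r : ℝ) - lo) - τ - 6 * ε) * Real.log M * (1 - rnPts n st τ ε (Real.log M))
        ≤ (q.S n).entC (q.fc M r (q.nu i0 k0 j)) q.dp := by
  have hM1 : 1 ≤ M := by omega
  have hMr : (1 : ℝ) ≤ (M : ℝ) := by exact_mod_cast hM1
  have hϖ : 0 < (M : ℝ) ^ (-(es * r)) := Real.rpow_pos_of_pos (by linarith) _
  have hϖ1 : (M : ℝ) ^ (-(es * r)) ≤ 1 := Real.rpow_le_one_of_one_le_of_nonpos hMr (by
    have : 0 ≤ es * (r : ℝ) := mul_nonneg hes (Nat.cast_nonneg _)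
    linarith)
  have hzs : ∀ y y' : q.Om n, q.zs Finset.univ y = q.zs Finset.univ y' → ∀ i, q.Z (y.2 i) = q.Z (y'.2 i) := fun y y' hy i => by
    have := congrFun hy i
    simpa [RnQ.zs] using this
  have hB := fun (y : q.Om n) i => rn_geo_bd hA (a := q.Z (y.2 i0)) (b := q.Z (y.2 j)) (h.bdZ _) (h.bdZ _) (q.Z (y.2 k0)) i
  have hl0 : 0 ≤ Real.log (11 * A * (8 * A ^ 2) + 2) := Real.log_nonneg (by nlinarith [sq_nonneg A])
  have hV : (q.S n).NVal (fun _ => True) (fun _ : q.Om n => ()) (pair (q.pY M (K * r) l) q.dp) 1 :=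
    fun _ => ⟨{()}, by simp, fun _ _ _ _ => by simp⟩
  have h1 := rn_out_step q h hgrid hM hK hA hes hlo hlor hε hpos hik l (q.nu i0 k0 j)
    (fun y y' hy => by simp only [RnQ.nu, hzs y y' hy]) (fun y i => (hB y i).2.2.2.2.2.2)
    (fun y hy => (rn_tr_speed q hA hϖ hϖ1 hik hjl hji hjk hli hlk hy).1) (fun _ => ()) le_rfl hV
    (by rw [Real.log_one]; linarith)
  refine h1.trans (le_of_eq ?_)
  refine ent_entC_congr _ _ _ _ _ (fun y y' _ _ => ?_) (fun _ _ _ _ _ => Iff.rfl)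
  simp only [FLaw.pair, Prod.mk.injEq, true_and]

/-! ## assembly -/

/-- LEAF MAIN.  four pins: `rn_out_b4s`, `rn_out_b123`, `rn_out_chain` (`B = 8 A²`).   Pins: any four distinct elements of `Fin n`. -/
theorem rn_out_main_4 {M r K lo : ℕ} {A d τ es oT dv st ε : ℝ} {jj : ℕ → ℝ} (h : q.Ok M r K A d τ es oT dv st jj)
    (hgrid : ∀ ω ω', q.Zc M (K * r) ω = q.Zc M (K * r) ω' → q.Z ω = q.Z ω')
    (hM : 2 ≤ M) (hK : 1 ≤ K) (hA : 1 ≤ A) (hes : 0 ≤ es)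
    (hlo : 1 / (M : ℝ) ^ lo ≤ rnKap A ((M : ℝ) ^ (-(es * r)))) (hlor : lo ≤ r) (hε : 0 < ε)
    (hlog : 3 * Real.log (11 * A * (8 * A ^ 2) + 2) + Real.log (11 * A * (8 * A ^ 2) + 3) ≤ ε * Real.log M)
    (hpos : 0 ≤ d * ((r : ℝ) - lo) - τ - 6 * ε) (hn : 4 ≤ n) :
    4 * ((d * ((r : ℝ) - lo) - τ - 6 * ε) * Real.log M * (1 - rnPts n st τ ε (Real.log M)))
      - 4 * Real.log (4 * (8 * A ^ 2) + 2) ≤ (oT + τ) * Real.log M := by
  have hne : ∀ a c : ℕ, ∀ (ha : a < n) (hc : c < n), a ≠ c → (⟨a, ha⟩ : Fin n) ≠ ⟨c, hc⟩ :=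
    fun a c _ _ hac hh => hac (Fin.mk.inj_iff.1 hh)
  obtain ⟨i0, k0, j, l, hik, hjl, hji, hjk, hli, hlk⟩ : ∃ i0 k0 j l : Fin n,
      i0 ≠ k0 ∧ j ≠ l ∧ j ≠ i0 ∧ j ≠ k0 ∧ l ≠ i0 ∧ l ≠ k0 :=
    ⟨⟨0, by omega⟩, ⟨1, by omega⟩, ⟨2, by omega⟩, ⟨3, by omega⟩, hne _ _ _ _ (by norm_num), hne _ _ _ _ (by norm_num),
      hne _ _ _ _ (by norm_num), hne _ _ _ _ (by norm_num), hne _ _ _ _ (by norm_num), hne _ _ _ _ (by norm_num)⟩
  have hzs : ∀ y y' : q.Om n, q.zs Finset.univ y = q.zs Finset.univ y' → ∀ i, q.Z (y.2 i) = q.Z (y'.2 i) := fun y y' hy i => by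
    have := congrFun hy i
    simpa [RnQ.zs] using this
  have hB := fun (y : q.Om n) i => rn_geo_bd hA (a := q.Z (y.2 i0)) (b := q.Z (y.2 j)) (h.bdZ _) (h.bdZ _) (q.Z (y.2 k0)) i
  have h4 := rn_out_b4s q h hgrid hM hK hA hes hlo hlor hε hlog hpos hik hjl hji hjk hli hlk
  obtain ⟨h3, h2, h1⟩ := rn_out_b123 q h hgrid hM hK hA hes hlo hlor hε hlog hpos hik hjl hji hjk hli hlk
  have hc := rn_out_chain q h (by omega) (B := 8 * A ^ 2) (by positivity) i0 q.m1 (q.m2 i0 j) (q.f1 i0 k0 j) (q.nu i0 k0 j)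
    (fun y y' hy => ⟨rfl, by simp only [RnQ.m2, hzs y y' hy], by simp only [RnQ.f1, hzs y y' hy],
      by simp only [RnQ.nu, hzs y y' hy]⟩)
    (fun y i => ⟨(hB y i).2.2.2.1, (hB y i).2.2.1, (hB y i).2.2.2.2.1, (hB y i).2.2.2.2.2.2⟩) h4 h3 h2 h1
  linarith

/-- LEAF MAIN.  FP + three pins: `rn_sel` with `rn_sel_win` (`g = m/2`; gives `j`; take any `l ≠ i0, k0, j`), `rn_out_b4f`, `rn_out_b123`, `rn_out_chain`. -/
theorem rn_out_main_fp {b K lo N R : ℕ} {A d τ es oT dv st ε χ χF p m ξ' : ℝ} {jj : ℕ → ℝ}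
    (h : q.Ok (2 ^ b) (N * R) K A d τ es oT dv st jj)
    (hgrid : ∀ ω ω', q.Zc (2 ^ b) (K * (N * R)) ω = q.Zc (2 ^ b) (K * (N * R)) ω' → q.Z ω = q.Z ω')
    (hb : 1 ≤ b) (hK : 1 ≤ K) (hN : 1 ≤ N) (hA : 1 ≤ A) (hd0 : 0 ≤ d) (hes : 0 ≤ es)
    (hlo : 1 / (((2 ^ b : ℕ) : ℝ)) ^ lo ≤ rnKap A ((((2 ^ b : ℕ) : ℝ)) ^ (-(es * (N * R : ℕ))))) (hlor : lo ≤ N * R)
    (hε : 0 < ε)
    (hlog : 3 * Real.log (11 * A * (8 * A ^ 2) + 2) + Real.log (11 * A * (8 * A ^ 2) + 3) ≤ ε * (b * Real.log 2))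
    (hlog36 : Real.log 36 ≤ ε * (b * Real.log 2))
    (hpos : 0 ≤ d * (((N * R : ℕ) : ℝ) - lo) - τ - 6 * ε) (hn : 4 ≤ n)
    (hm0 : 0 ≤ m) (hm2 : m ≤ 2)
    (hjj : ∀ l l', l ≤ l' → l' ≤ N * R → m * ((l' : ℝ) - l) - χ ≤ jj l' - jj l)
    (hnum1 : d * lo + τ + 6 * ε ≤ χF * R) (hnum2 : 2 * lo + (χ + τ + 9 * ε) / 2 ≤ χF * R) (hst : st + τ ≤ χF * R)
    (HF : RnFP d (m / 2) ξ' (128 * A ^ 5) χF p N R b)
    (hp1 : rnPts n st τ ε (b * Real.log 2) ≤ p) (hp2 : rnPsel n N R st τ ε (b * Real.log 2) ≤ p) :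
    (min 1 (d + m / 2) - ξ') * ((N * R : ℕ) : ℝ) * (b * Real.log 2)
      + 3 * ((d * (((N * R : ℕ) : ℝ) - lo) - τ - 6 * ε) * (b * Real.log 2) * (1 - rnPts n st τ ε (b * Real.log 2)))
      - 4 * Real.log (4 * (8 * A ^ 2) + 2) ≤ (oT + τ) * (b * Real.log 2) := by
  have hlogM : Real.log ((2 ^ b : ℕ) : ℝ) = b * Real.log 2 := by
    push_cast
    rw [Real.log_pow]
  have hM2 : 2 ≤ 2 ^ b := by
    calc 2 = 2 ^ 1 := by norm_num
      _ ≤ 2 ^ b := Nat.pow_le_pow_right (by norm_num) hb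
  have hl0 : 0 ≤ Real.log (11 * A * (8 * A ^ 2) + 2) := Real.log_nonneg (by nlinarith [sq_nonneg A])
  obtain ⟨i0, k0, hik⟩ : ∃ i0 k0 : Fin n, i0 ≠ k0 :=
    ⟨⟨0, by omega⟩, ⟨1, by omega⟩, fun hh => by simpa using Fin.mk.inj_iff.1 hh⟩
  have hτ : 0 ≤ τ := le_trans (ent_pr_nonneg _ _) (h.time 0 0 le_rfl (Nat.zero_le _))
  obtain ⟨hwin, hsm⟩ := rn_sel_win (lo := lo) (N := N) (R := R) (χF := χF) hτ hε hm2 (by linarith : (0 : ℝ) ≤ m / 2) le_rfl hjj hnum2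
  obtain ⟨j, hji, hjk, hsel0⟩ := rn_sel q h hM2 hK hA hes hlo hε (by rw [hlogM]; exact hlog36) hwin hsm i0 k0 hik (by omega)
  have hsel : (q.S n).pr (fun y => ∃ w < N, ∃ u ≤ R,
      q.dsc (2 ^ b) i0 k0 j (w * R + u) (w * R) y < (m / 2 * u - χF * R) * Real.log ((2 ^ b : ℕ) : ℝ)) ≤ p := by
    refine hsel0.trans (le_trans (le_of_eq ?_) hp2)
    rw [hlogM]
    rfl
  obtain ⟨l, hl⟩ : ∃ l : Fin n, l ∉ ({i0, k0, j} : Finset (Fin n)) := by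
    by_contra hcon
    push Not at hcon
    have h1 : (Finset.univ : Finset (Fin n)) ⊆ {i0, k0, j} := fun x _ => hcon x
    have h2 := Finset.card_le_card h1
    have h3 := Finset.card_le_three (a := i0) (b := k0) (c := j)
    simp only [Finset.card_univ, Fintype.card_fin] at h2
    omega
  simp only [Finset.mem_insert, Finset.mem_singleton, not_or] at hl
  obtain ⟨hli, hlk, hlj⟩ := hl
  have hjl : j ≠ l := fun hh => hlj hh.symm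
  have hzs : ∀ y y' : q.Om n, q.zs Finset.univ y = q.zs Finset.univ y' → ∀ i, q.Z (y.2 i) = q.Z (y'.2 i) := fun y y' hy i => by
    have := congrFun hy i
    simpa [RnQ.zs] using this
  have hB := fun (y : q.Om n) i => rn_geo_bd hA (a := q.Z (y.2 i0)) (b := q.Z (y.2 j)) (h.bdZ _) (h.bdZ _) (q.Z (y.2 k0)) i
  have h4 := rn_out_b4f q h hgrid hb hK hN hA hd0 hes hlo hε (by linarith) hnum1 hik hjl hji hjk hli hlk HF hp1 hsel hst
  obtain ⟨h3, h2, h1⟩ := rn_out_b123 q h hgrid hM2 hK hA hes hlo hlor hε (by rw [hlogM]; exact hlog) hpos hik hjl hji hjk hli hlk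
  have hc := rn_out_chain q h (by omega) (B := 8 * A ^ 2) (by positivity) i0 q.m1 (q.m2 i0 j) (q.f1 i0 k0 j) (q.nu i0 k0 j)
    (fun y y' hy => ⟨rfl, by simp only [RnQ.m2, hzs y y' hy], by simp only [RnQ.f1, hzs y y' hy],
      by simp only [RnQ.nu, hzs y y' hy]⟩)
    (fun y i => ⟨(hB y i).2.2.2.1, (hB y i).2.2.1, (hB y i).2.2.2.2.1, (hB y i).2.2.2.2.2.2⟩) h4 h3 h2 h1
  rw [hlogM] at hc
  linarith

theorem rn_aux_core_p {n N R : ℕ} {st τ χ U p : ℝ} (hn : 4 ≤ n) (hN : 1 ≤ N) (hτ : 0 ≤ τ) (hχ : 0 ≤ χ) (hst : st ≤ χ)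
    (hU : 0 < U) (hp : 0 < p)
    (h1 : 8 * ((N : ℝ) * (R + 1)) / p ≤ (n : ℝ) - 2)
    (h2 : 100 * ((n : ℝ) ^ 2 * (N * (R + 1))) * (χ + τ) ≤ p)
    (h3 : 240 * ((n : ℝ) ^ 2 * (N * (R + 1))) ≤ p * U) :
    rnPts n st τ (1 / 10) U ≤ p ∧ rnPsel n N R st τ (1 / 10) U ≤ p := by
  have hnr : (4 : ℝ) ≤ n := by exact_mod_cast hn
  have hNr : (1 : ℝ) ≤ N := by exact_mod_cast hN
  have hRr : (0 : ℝ) ≤ R := Nat.cast_nonneg _
  unfold rnPts rnPsel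
  set W : ℝ := (N : ℝ) * (R + 1) with hW
  have hW1 : 1 ≤ W := by rw [hW]; nlinarith
  set Q : ℝ := (n : ℝ) ^ 2 * W with hQ
  have hn2 : (n : ℝ) ≤ (n : ℝ) ^ 2 := by nlinarith
  have hn2Q : (n : ℝ) ^ 2 ≤ Q := by rw [hQ]; nlinarith [sq_nonneg (n : ℝ)]
  have hQ0 : 0 ≤ Q := le_trans (sq_nonneg _) hn2Q
  set a : ℝ := 10 / U with ha
  have ha0 : 0 < a := by positivity
  have hE : Real.exp (-(1 / 10 * U)) ≤ a := by
    have hx : 0 < 1 / 10 * U := by positivity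
    have h : 1 / 10 * U ≤ Real.exp (1 / 10 * U) := by linarith [Real.add_one_le_exp (1 / 10 * U)]
    rw [Real.exp_neg]
    refine (inv_anti₀ hx h).trans (le_of_eq ?_)
    rw [ha]
    field_simp
  have h3' : 24 * Q * a ≤ p := by
    rw [ha]
    have : 24 * Q * (10 / U) = 240 * Q / U := by ring
    rw [this, div_le_iff₀ hU]
    exact h3
  have f1 : ((st + τ) * U + 1) / (1 / 10 * U) = 10 * (st + τ) + a := by
    rw [ha]
    field_simp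
  have f2 : ((n : ℝ) * ((st + τ) * U) + 1) / (1 / 10 * U) = 10 * ((n : ℝ) * (st + τ)) + a := by
    rw [ha]
    field_simp
  have hc : st + τ ≤ χ + τ := by linarith
  have hc0 : 0 ≤ χ + τ := by linarith
  have hQa : a ≤ Q * a := by nlinarith
  have hnc : (n : ℝ) * (st + τ) ≤ Q * (χ + τ) := by
    calc (n : ℝ) * (st + τ) ≤ (n : ℝ) * (χ + τ) := mul_le_mul_of_nonneg_left hc (by linarith)
      _ ≤ Q * (χ + τ) := mul_le_mul_of_nonneg_right (hn2.trans hn2Q) hc0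
  have hτc : τ ≤ Q * (χ + τ) := by nlinarith
  have hn2τ : (n : ℝ) ^ 2 * τ ≤ Q * (χ + τ) := by
    calc (n : ℝ) ^ 2 * τ ≤ Q * τ := mul_le_mul_of_nonneg_right hn2Q hτ
      _ ≤ Q * (χ + τ) := mul_le_mul_of_nonneg_left (by linarith) hQ0
  have h2' : 100 * (Q * (χ + τ)) ≤ p := by linarith
  constructor
  · rw [f2]
    nlinarith
  · rw [f1]
    have hW2 : W / ((n : ℝ) - 2) ≤ p / 8 := by
      rw [div_le_iff₀ (by linarith)]
      rw [div_le_iff₀ hp] at h1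
      linarith
    have hmul : Q * (5 * Real.exp (-(1 / 10 * U)) + τ + (10 * (st + τ) + a)) ≤ Q * (6 * a + 11 * (χ + τ)) :=
      mul_le_mul_of_nonneg_left (by linarith) hQ0
    nlinarith

theorem rn_aux_core_lo {A r : ℝ} {b : ℕ} (hA : 1 ≤ A) (hr0 : 0 < r) (hb1 : 2 * ⌈10 ^ 5 * A ^ 8⌉₊ ≤ b) :
    1 / (((2 ^ b : ℕ) : ℝ)) ^ 1 ≤ rnKap A ((((2 ^ b : ℕ) : ℝ)) ^ (-(1 / (12 * r) * r))) := by
  have hMpos : (0 : ℝ) < ((2 ^ b : ℕ) : ℝ) := by positivity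
  have e1 : 1 / (12 * r) * r = 1 / 12 := by field_simp
  rw [e1]
  unfold rnKap
  have e2 : ((((2 ^ b : ℕ) : ℝ)) ^ (-(1 / 12 : ℝ))) ^ 6 = (((2 ^ b : ℕ) : ℝ)) ^ (-(1 / 2 : ℝ)) := by
    rw [← Real.rpow_natCast, ← Real.rpow_mul hMpos.le]
    norm_num
  rw [e2, pow_one, le_div_iff₀ (by positivity), Real.rpow_neg hMpos.le]
  have e3 : ((2 ^ b : ℕ) : ℝ) = (((2 ^ b : ℕ) : ℝ)) ^ (1 / 2 : ℝ) * (((2 ^ b : ℕ) : ℝ)) ^ (1 / 2 : ℝ) := by
    rw [← Real.rpow_add hMpos]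
    norm_num
  have hS : 10 ^ 5 * A ^ 8 ≤ (((2 ^ b : ℕ) : ℝ)) ^ (1 / 2 : ℝ) := by
    have e4 : (((2 ^ b : ℕ) : ℝ)) ^ (1 / 2 : ℝ) = (2 : ℝ) ^ ((b : ℝ) * (1 / 2)) := by
      push_cast
      rw [← Real.rpow_natCast, ← Real.rpow_mul (by norm_num)]
    rw [e4]
    generalize hk : ⌈10 ^ 5 * A ^ 8⌉₊ = k at hb1
    have h1 : (k : ℝ) ≤ (b : ℝ) * (1 / 2) := by
      have : ((2 * k : ℕ) : ℝ) ≤ b := by exact_mod_cast hb1
      push_cast at this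
      linarith
    calc 10 ^ 5 * A ^ 8 ≤ (k : ℝ) := by rw [← hk]; exact Nat.le_ceil _
      _ ≤ ((2 ^ k : ℕ) : ℝ) := by exact_mod_cast Nat.lt_two_pow_self.le
      _ = (2 : ℝ) ^ (k : ℝ) := by push_cast; rw [Real.rpow_natCast]
      _ ≤ (2 : ℝ) ^ ((b : ℝ) * (1 / 2)) := Real.rpow_le_rpow_of_exponent_le (by norm_num) h1
  generalize (((2 ^ b : ℕ) : ℝ)) ^ (1 / 2 : ℝ) = S at e3 hS
  have hS0 : 0 < S := lt_of_lt_of_le (by positivity) hS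
  rw [e3]
  rw [div_mul_eq_mul_div, div_le_iff₀ (by positivity)]
  have : S⁻¹ * (S * S) = S := by field_simp
  rw [this]
  linarith

/-- the last computation, FP case -/
theorem rn_aux_core_f1 {d ξ ξ0 r τ U oT mn X P L2 : ℝ} (hd1 : d ≤ 1) (hξ0p : 0 < ξ0) (hξ0l : ξ0 ≤ ξ) (hr0 : 0 < r)
    (hτ1 : τ ≤ 1 / 4) (hU0 : 0 < U) (hXd : X = d * r - d - τ - 6 / 10) (hX0 : 0 ≤ X) (hd0 : 0 < d) (hτ0 : 0 < τ)
    (hξr : 64 ≤ ξ0 * r) (hP : P ≤ ξ0 / 64) (hL : L2 ≤ 1 / 10 * U)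
    (hmain : (mn - ξ0 / 8) * r * U + 3 * (X * U * (1 - P)) - L2 ≤ (oT + τ) * U) :
    (3 * d + mn - ξ) * r ≤ oT := by
  have hXr : X ≤ r := by rw [hXd]; nlinarith
  have hξξ : ξ0 * r ≤ ξ * r := mul_le_mul_of_nonneg_right hξ0l hr0.le
  have hXξ : X * ξ0 ≤ r * ξ0 := mul_le_mul_of_nonneg_right hXr hξ0p.le
  have hXU : 0 ≤ X * U := mul_nonneg hX0 hU0.le
  have hX1 : X * U * (1 - ξ0 / 64) ≤ X * U * (1 - P) := mul_le_mul_of_nonneg_left (by linarith) hXU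
  have h5 : ((mn - ξ0 / 8) * r + 3 * (X * (1 - ξ0 / 64)) - 1 / 10) * U ≤ (oT + τ) * U := by
    linarith
  have h6 := le_of_mul_le_mul_right h5 hU0
  rw [hXd] at h6 hXξ
  linarith

/-- the last computation, four pins -/
theorem rn_aux_core_f2 {d ξ ξ0 r τ U oT mn X P L2 : ℝ} (hd1 : d ≤ 1) (hξ0p : 0 < ξ0) (hξ0l : ξ0 ≤ ξ) (hr0 : 0 < r)
    (hτ1 : τ ≤ 1 / 4) (hU0 : 0 < U) (hXd : X = d * r - d - τ - 6 / 10) (hX0 : 0 ≤ X) (hd0 : 0 < d) (hτ0 : 0 < τ)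
    (hξr : 64 ≤ ξ0 * r) (hP : P ≤ ξ0 / 64) (hL : L2 ≤ 1 / 10 * U) (h7 : mn ≤ d + ξ0 / 8)
    (hmain : 4 * (X * U * (1 - P)) - L2 ≤ (oT + τ) * U) :
    (3 * d + mn - ξ) * r ≤ oT := by
  have hXr : X ≤ r := by rw [hXd]; nlinarith
  have hξξ : ξ0 * r ≤ ξ * r := mul_le_mul_of_nonneg_right hξ0l hr0.le
  have hXξ : X * ξ0 ≤ r * ξ0 := mul_le_mul_of_nonneg_right hXr hξ0p.le
  have hXU : 0 ≤ X * U := mul_nonneg hX0 hU0.le
  have hX1 : X * U * (1 - ξ0 / 64) ≤ X * U * (1 - P) := mul_le_mul_of_nonneg_left (by linarith) hXU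
  have h5 : (4 * (X * (1 - ξ0 / 64)) - 1 / 10) * U ≤ (oT + τ) * U := by
    linarith
  have h6 := le_of_mul_le_mul_right h5 hU0
  have h8 : mn * r ≤ (d + ξ0 / 8) * r := mul_le_mul_of_nonneg_right h7 hr0.le
  rw [hXd] at h6 hXξ
  linarith

set_option maxHeartbeats 1600000 in
/-- LEAF CORE.  **OUT for grid valued `Z`: the constants.**
`ξ' = g0 = ξ/8`;  `(N, χF, R₀)` from `rn_fp d g0 ξ' (128 A⁵)`;  `R ≥ max R₀ (8/χF) (64/ξ) (2/d + 1)` (the last one for `hpos`), `r = N R`;  `(p, b₀)` from `rn_fp`;  `lo = 1`, `es = 1/(12 r)` (then `ϖ⁶ = M^(-1/2)`, `hlo` ⟸ `M^(1/2) ≥ 10⁵ A⁸`);  `ε = 1/10`;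
`n = ⌈8 N (R+1)/p'⌉ + 2`, `p' = min p (ξ/64)`;  `χ = τ` so small that `n³ N (R+1) (χ+τ)/ε ≤ p'/64`;  `b` so large that `exp (-ε U)`, `1/(ε U)`, `log(..)/U` are small (`U = b log 2`).
Case `m/2 ≥ g0`: `rn_out_main_fp`;  case `m/2 < g0`: `rn_out_main_4` and `min 1 (d + m/2) ≤ d + ξ/8`.   `rnPts`, `rnPsel` are monotone in `st ≤ χ`.
Errors: `ξ r/8 + 4 (d + τ + 6 ε) + 4 d r p' + ε + τ ≤ ξ r`  since `ξ r ≥ 64`. -/
theorem rn_out_core (A d ξ : ℝ) (hA : 1 ≤ A) (hd0 : 0 < d) (hd1 : d ≤ 1) (hξ : 0 < ξ) :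
    ∃ r : ℕ, 2 ≤ r ∧ ∃ χ : ℝ, 0 < χ ∧ ∃ es : ℝ, 0 < es ∧ es ≤ 1 ∧ ∃ τ : ℝ, 0 < τ ∧ ∃ M0 : ℕ,
      ∀ (q : RnQ) (b : ℕ) (oT dv st m : ℝ) (jj : ℕ → ℝ), M0 ≤ b → q.Ok (2 ^ b) r 3 A d τ es oT dv st jj →
        (∀ ω ω', q.Zc (2 ^ b) (3 * r) ω = q.Zc (2 ^ b) (3 * r) ω' → q.Z ω = q.Z ω') →
        0 ≤ m → m ≤ 2 → st ≤ χ → (∀ l l', l ≤ l' → l' ≤ r → m * ((l' : ℝ) - l) - χ ≤ jj l' - jj l) →
        (3 * d + min 1 (d + m / 2) - ξ) * r ≤ oT := by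
  obtain ⟨ξ0, hξ0p, hξ0l, hξ01⟩ : ∃ ξ0 : ℝ, 0 < ξ0 ∧ ξ0 ≤ ξ ∧ ξ0 ≤ 1 :=
    ⟨min ξ 1, lt_min hξ one_pos, min_le_left _ _, min_le_right _ _⟩
  have hA5 : 1 ≤ 128 * A ^ 5 := by
    have : 1 ≤ A ^ 5 := one_le_pow₀ hA
    linarith
  obtain ⟨N, hN, χF, hχF, R₀, HR⟩ := rn_fp d (ξ0 / 8) (ξ0 / 8) (128 * A ^ 5) hd0 hd1 (by positivity) (by positivity) hA5
  obtain ⟨R, hR0, hR1, hR2, hR3⟩ : ∃ R : ℕ, R₀ ≤ R ∧ 8 / χF ≤ (R : ℝ) ∧ 64 / ξ0 ≤ (R : ℝ) ∧ 2 / d + 2 ≤ (R : ℝ) := by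
    refine ⟨max R₀ (max ⌈8 / χF⌉₊ (max ⌈64 / ξ0⌉₊ (⌈2 / d⌉₊ + 2))), le_max_left _ _, ?_, ?_, ?_⟩
    · exact (Nat.le_ceil _).trans (by exact_mod_cast ((le_max_left _ _).trans (le_max_right _ _)))
    · exact (Nat.le_ceil _).trans (by
        exact_mod_cast ((le_max_left _ _).trans ((le_max_right _ _).trans (le_max_right _ _))))
    · have h1 : ((⌈2 / d⌉₊ + 2 : ℕ) : ℝ) ≤ ((max R₀ (max ⌈8 / χF⌉₊ (max ⌈64 / ξ0⌉₊ (⌈2 / d⌉₊ + 2))) : ℕ) : ℝ) := by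
        exact_mod_cast (le_max_right _ _).trans ((le_max_right _ _).trans (le_max_right _ _))
      refine le_trans ?_ h1
      push_cast
      linarith [Nat.le_ceil (2 / d)]
  obtain ⟨p, hp, b₀, HF⟩ := HR R hR0
  obtain ⟨p', hp'0, hp'p, hp'ξ⟩ : ∃ p' : ℝ, 0 < p' ∧ p' ≤ p ∧ p' ≤ ξ0 / 64 :=
    ⟨min p (ξ0 / 64), lt_min hp (by positivity), min_le_left _ _, min_le_right _ _⟩
  have hNr : (1 : ℝ) ≤ N := by exact_mod_cast hN
  have hRr : (2 : ℝ) ≤ R := by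
    have : 0 < 2 / d := by positivity
    linarith
  have hW1 : 1 ≤ (N : ℝ) * (R + 1) := by nlinarith
  obtain ⟨n, hn4, hnr⟩ : ∃ n : ℕ, 4 ≤ n ∧ 8 * ((N : ℝ) * (R + 1)) / p' ≤ (n : ℝ) - 2 := by
    refine ⟨⌈8 * ((N : ℝ) * (R + 1)) / p'⌉₊ + 4, by omega, ?_⟩
    push_cast
    linarith [Nat.le_ceil (8 * ((N : ℝ) * (R + 1)) / p')]
  have hn4r : (4 : ℝ) ≤ n := by exact_mod_cast hn4
  have hQ1 : 1 ≤ (n : ℝ) ^ 2 * ((N : ℝ) * (R + 1)) := by nlinarith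
  obtain ⟨τ, hτ0, hτ1, hτ2⟩ : ∃ τ : ℝ, 0 < τ ∧ τ ≤ 1 / 4 ∧ 100 * ((n : ℝ) ^ 2 * ((N : ℝ) * (R + 1))) * (τ + τ) ≤ p' := by
    generalize (n : ℝ) ^ 2 * ((N : ℝ) * (R + 1)) = Q at hQ1
    have hQ0 : 0 < Q := by linarith
    refine ⟨min (p' / (200 * Q)) (1 / 4), lt_min (by positivity) (by norm_num), min_le_right _ _, ?_⟩
    have : min (p' / (200 * Q)) (1 / 4) ≤ p' / (200 * Q) := min_le_left _ _
    rw [le_div_iff₀ (by positivity)] at this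
    linarith
  have hr2 : 2 ≤ N * R := by
    have : 2 ≤ R := by exact_mod_cast hRr
    nlinarith
  have hrR : (R : ℝ) ≤ ((N * R : ℕ) : ℝ) := by
    push_cast
    nlinarith
  have hcA : 0 ≤ 11 * A * (8 * A ^ 2) := by positivity
  have hcA2 : 0 ≤ 4 * (8 * A ^ 2) := by positivity
  have hl1 : 0 ≤ Real.log (11 * A * (8 * A ^ 2) + 2) := Real.log_nonneg (by linarith)
  have hl2 : 0 ≤ Real.log (11 * A * (8 * A ^ 2) + 3) := Real.log_nonneg (by linarith)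
  have hl3 : 0 ≤ Real.log (4 * (8 * A ^ 2) + 2) := Real.log_nonneg (by linarith)
  have hl4 : 0 ≤ Real.log 36 := Real.log_nonneg (by norm_num)
  have hr0 : 0 < ((N * R : ℕ) : ℝ) := by linarith
  refine ⟨N * R, hr2, τ, hτ0, 1 / (12 * ((N * R : ℕ) : ℝ)), by positivity, ?_, τ, hτ0,
    max b₀ (max (2 * ⌈10 ^ 5 * A ^ 8⌉₊) (max ⌈480 * ((n : ℝ) ^ 2 * ((N : ℝ) * (R + 1))) / p'⌉₊
      (max ⌈20 * ((3 * Real.log (11 * A * (8 * A ^ 2) + 2) + Real.log (11 * A * (8 * A ^ 2) + 3))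
        + 4 * Real.log (4 * (8 * A ^ 2) + 2) + Real.log 36)⌉₊ 1))), ?_⟩
  · rw [div_le_one (by positivity)]
    linarith
  intro q b oT dv st m jj hb h hgrid hm0 hm2 hst hjj
  have hb0 : b₀ ≤ b := (le_max_left _ _).trans hb
  have hb1 : 2 * ⌈10 ^ 5 * A ^ 8⌉₊ ≤ b := ((le_max_left _ _).trans (le_max_right _ _)).trans hb
  have hb2 : ⌈480 * ((n : ℝ) ^ 2 * ((N : ℝ) * (R + 1))) / p'⌉₊ ≤ b :=
    ((le_max_left _ _).trans ((le_max_right _ _).trans (le_max_right _ _))).trans hb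
  have hb3 : ⌈20 * ((3 * Real.log (11 * A * (8 * A ^ 2) + 2) + Real.log (11 * A * (8 * A ^ 2) + 3))
        + 4 * Real.log (4 * (8 * A ^ 2) + 2) + Real.log 36)⌉₊ ≤ b :=
    ((le_max_left _ _).trans ((le_max_right _ _).trans ((le_max_right _ _).trans (le_max_right _ _)))).trans hb
  have hb4 : 1 ≤ b :=
    ((le_max_right _ _).trans ((le_max_right _ _).trans ((le_max_right _ _).trans (le_max_right _ _)))).trans hb
  clear hb
  have hb2' : 480 * ((n : ℝ) ^ 2 * ((N : ℝ) * (R + 1))) / p' ≤ (b : ℝ) := (Nat.le_ceil _).trans (by exact_mod_cast hb2)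
  have hb3' : 20 * ((3 * Real.log (11 * A * (8 * A ^ 2) + 2) + Real.log (11 * A * (8 * A ^ 2) + 3))
        + 4 * Real.log (4 * (8 * A ^ 2) + 2) + Real.log 36) ≤ (b : ℝ) := (Nat.le_ceil _).trans (by exact_mod_cast hb3)
  clear hb2 hb3
  have hlg2 : 1 / 2 ≤ Real.log 2 := by linarith [Real.log_two_gt_d9]
  have hbr : (1 : ℝ) ≤ b := by exact_mod_cast hb4
  have hUb : (b : ℝ) / 2 ≤ (b : ℝ) * Real.log 2 := by nlinarith
  have hU0 : 0 < (b : ℝ) * Real.log 2 := by linarith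
  have hlogM : Real.log ((2 ^ b : ℕ) : ℝ) = (b : ℝ) * Real.log 2 := by
    push_cast
    rw [Real.log_pow]
  have hM2 : 2 ≤ 2 ^ b := by
    calc 2 = 2 ^ 1 := by norm_num
      _ ≤ 2 ^ b := Nat.pow_le_pow_right (by norm_num) hb4
  have hQU : 240 * ((n : ℝ) ^ 2 * ((N : ℝ) * (R + 1))) ≤ p' * ((b : ℝ) * Real.log 2) := by
    rw [div_le_iff₀ hp'0] at hb2'
    nlinarith
  obtain ⟨hPts, hPsel⟩ := rn_aux_core_p (n := n) (N := N) (R := R) (st := st) (τ := τ) (χ := τ) (U := (b : ℝ) * Real.log 2)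
    (p := p') hn4 hN hτ0.le hτ0.le hst hU0 hp'0 hnr hτ2 hQU
  have hes : (0 : ℝ) ≤ 1 / (12 * ((N * R : ℕ) : ℝ)) := by positivity
  have hlo := rn_aux_core_lo (b := b) hA hr0 hb1
  have hdr : 2 + 2 * d ≤ d * (R : ℝ) := by
    have h1 : (2 / d + 2) * d ≤ (R : ℝ) * d := mul_le_mul_of_nonneg_right hR3 hd0.le
    have h2 : (2 / d + 2) * d = 2 + 2 * d := by field_simp
    linarith
  have hdr2 : d * (R : ℝ) ≤ d * ((N * R : ℕ) : ℝ) := mul_le_mul_of_nonneg_left hrR hd0.le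
  have hXd : d * (((N * R : ℕ) : ℝ) - ((1 : ℕ) : ℝ)) - τ - 6 * (1 / 10) = d * ((N * R : ℕ) : ℝ) - d - τ - 6 / 10 := by
    rw [Nat.cast_one]; ring
  have hX0 : 0 ≤ d * (((N * R : ℕ) : ℝ) - ((1 : ℕ) : ℝ)) - τ - 6 * (1 / 10) := by
    rw [hXd]; linarith
  have hξr : 64 ≤ ξ0 * ((N * R : ℕ) : ℝ) := by
    have h1 : 64 / ξ0 ≤ ((N * R : ℕ) : ℝ) := hR2.trans hrR
    rw [div_le_iff₀ hξ0p] at h1
    linarith
  have hχR : 8 ≤ χF * R := by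
    have h1 := hR1
    rw [div_le_iff₀ hχF] at h1
    linarith
  by_cases hcase : ξ0 / 8 ≤ m / 2
  · have hmain := rn_out_main_fp (n := n) q (lo := 1) (ε := 1 / 10) (χ := τ) (χF := χF) (p := p) (m := m) (ξ' := ξ0 / 8)
      h hgrid hb4 (by norm_num) hN hA hd0.le hes hlo (by omega) (by norm_num) (by linarith) (by linarith) hX0 hn4 hm0 hm2 hjj
      (by rw [Nat.cast_one]; linarith) (by rw [Nat.cast_one]; linarith) (by linarith) (HF b hb0 (m / 2) hcase (by linarith))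
      (hPts.trans hp'p) (hPsel.trans hp'p)
    exact rn_aux_core_f1 hd1 hξ0p hξ0l hr0 hτ1 hU0 hXd hX0 hd0 hτ0 hξr (hPts.trans hp'ξ) (by linarith) hmain
  · push Not at hcase
    have hmain := rn_out_main_4 (n := n) q (lo := 1) (ε := 1 / 10) h hgrid hM2 (by norm_num) hA hes hlo (by omega) (by norm_num)
      (by rw [hlogM]; linarith) hX0 hn4
    rw [hlogM] at hmain
    exact rn_aux_core_f2 hd1 hξ0p hξ0l hr0 hτ1 hU0 hXd hX0 hd0 hτ0 hξr (hPts.trans hp'ξ) (by linarith)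
      ((min_le_right _ _).trans (by linarith)) hmain

/-- `q` with `Z` replaced by the corner of its cell of side `1/s` -/
noncomputable def RnQ.grid (q : RnQ) (s : ℝ) : RnQ :=
  { q with Z := fun ω => ((⌊(q.Z ω).1 * s⌋ : ℝ) / s, (⌊(q.Z ω).2 * s⌋ : ℝ) / s) }

theorem rn_grid_eqns_cite : True := by
  have := @RnQ.grid.eq_1
  trivial

theorem rn_aux_grid_cell (M k n : ℕ) (hM : 1 ≤ M) (h : k ≤ n) (x : ℝ) :
    rnCell M k ((⌊x * (M : ℝ) ^ n⌋ : ℝ) / (M : ℝ) ^ n) = rnCell M k x := by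
  obtain ⟨j, rfl⟩ := Nat.exists_eq_add_of_le h
  have hM0 : (0 : ℝ) < M := by exact_mod_cast hM
  unfold rnCell
  have h1 : (⌊x * (M : ℝ) ^ (k + j)⌋ : ℝ) / (M : ℝ) ^ (k + j) * (M : ℝ) ^ k
      = (⌊x * (M : ℝ) ^ (k + j)⌋ : ℝ) / ((M ^ j : ℕ) : ℝ) := by
    rw [pow_add]
    push_cast
    field_simp
  have h2 : x * (M : ℝ) ^ k = x * (M : ℝ) ^ (k + j) / ((M ^ j : ℕ) : ℝ) := by
    rw [pow_add]
    push_cast
    field_simp
  rw [h1, h2, Int.floor_div_natCast, Int.floor_div_natCast, Int.floor_intCast]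

theorem rn_aux_fl {s : ℝ} (hs : 0 < s) (x : ℝ) : 0 ≤ x - (⌊x * s⌋ : ℝ) / s ∧ x - (⌊x * s⌋ : ℝ) / s ≤ 1 / s := by
  have h1 : (⌊x * s⌋ : ℝ) ≤ x * s := Int.floor_le _
  have h2 : x * s < (⌊x * s⌋ : ℝ) + 1 := Int.lt_floor_add_one _
  have e : x - (⌊x * s⌋ : ℝ) / s = (x * s - (⌊x * s⌋ : ℝ)) / s := by field_simp
  rw [e]
  exact ⟨div_nonneg (by linarith) hs.le, div_le_div_of_nonneg_right (by linarith) hs.le⟩

/-- difference of squares at a grid corner -/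
theorem rn_aux_fl_sq {A s : ℝ} (_hA : 1 ≤ A) (hs : 1 ≤ s) {x : ℝ} (hx : |x| ≤ A) :
    |x ^ 2 - ((⌊x * s⌋ : ℝ) / s) ^ 2| ≤ (2 * A + 1) / s := by
  have hs0 : 0 < s := by linarith
  obtain ⟨h1, h2⟩ := rn_aux_fl hs0 x
  have h3 : 1 / s ≤ 1 := by rw [div_le_one hs0]; exact hs
  obtain ⟨hx1, hx2⟩ := abs_le.1 hx
  set a := (⌊x * s⌋ : ℝ) / s with ha
  have e : x ^ 2 - a ^ 2 = (x - a) * (x + a) := by ring
  rw [e, abs_mul, abs_of_nonneg h1]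
  have h4 : |x + a| ≤ 2 * A + 1 := by rw [abs_le]; constructor <;> linarith
  calc (x - a) * |x + a| ≤ 1 / s * (2 * A + 1) := mul_le_mul h2 h4 (abs_nonneg _) (by positivity)
    _ = (2 * A + 1) / s := by ring

theorem rn_aux_unit_le {n : ℝ × ℝ × ℝ} (hn : n.1 ^ 2 + n.2.1 ^ 2 + n.2.2 ^ 2 = 1) : |n.1| ≤ 1 ∧ |n.2.1| ≤ 1 ∧ |n.2.2| ≤ 1 := by
  refine ⟨?_, ?_, ?_⟩ <;> rw [← sq_le_one_iff_abs_le_one] <;> nlinarith [sq_nonneg n.1, sq_nonneg n.2.1, sq_nonneg n.2.2]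

theorem rn_aux_grid_slab {A s w w' : ℝ} (hA : 1 ≤ A) (hs : 1 ≤ s) (z : ℝ × ℝ) (hz : |z.1| ≤ A ∧ |z.2| ≤ A) (n : ℝ × ℝ × ℝ)
    (hn : n.1 ^ 2 + n.2.1 ^ 2 + n.2.2 ^ 2 = 1) (c : ℝ) (h1 : (4 * A + 4) / s ≤ w / 2) (h2 : w' ≤ w / 2)
    (h : |n.1 * ((⌊z.1 * s⌋ : ℝ) / s) + n.2.1 * ((⌊z.2 * s⌋ : ℝ) / s)
      + n.2.2 * (((⌊z.1 * s⌋ : ℝ) / s) ^ 2 + ((⌊z.2 * s⌋ : ℝ) / s) ^ 2) - c| ≤ w') :
    |n.1 * z.1 + n.2.1 * z.2 + n.2.2 * (z.1 ^ 2 + z.2 ^ 2) - c| ≤ w := by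
  have hs0 : 0 < s := by linarith
  obtain ⟨n1, n2, n3⟩ := rn_aux_unit_le hn
  obtain ⟨a1, a2⟩ := rn_aux_fl hs0 z.1
  obtain ⟨b1, b2⟩ := rn_aux_fl hs0 z.2
  have q1 := rn_aux_fl_sq hA hs hz.1
  have q2 := rn_aux_fl_sq hA hs hz.2
  set a := (⌊z.1 * s⌋ : ℝ) / s with ha
  set b := (⌊z.2 * s⌋ : ℝ) / s with hb
  have hs1 : 0 ≤ 1 / s := by positivity
  have t1 : |n.1 * (z.1 - a)| ≤ 1 / s := by
    rw [abs_mul, abs_of_nonneg a1]
    calc |n.1| * (z.1 - a) ≤ 1 * (1 / s) := mul_le_mul n1 a2 a1 (by norm_num)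
      _ = 1 / s := one_mul _
  have t2 : |n.2.1 * (z.2 - b)| ≤ 1 / s := by
    rw [abs_mul, abs_of_nonneg b1]
    calc |n.2.1| * (z.2 - b) ≤ 1 * (1 / s) := mul_le_mul n2 b2 b1 (by norm_num)
      _ = 1 / s := one_mul _
  have t3 : |n.2.2 * ((z.1 ^ 2 - a ^ 2) + (z.2 ^ 2 - b ^ 2))| ≤ 2 * ((2 * A + 1) / s) := by
    rw [abs_mul]
    have : |(z.1 ^ 2 - a ^ 2) + (z.2 ^ 2 - b ^ 2)| ≤ 2 * ((2 * A + 1) / s) := (abs_add_le _ _).trans (by linarith)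
    calc |n.2.2| * |(z.1 ^ 2 - a ^ 2) + (z.2 ^ 2 - b ^ 2)| ≤ 1 * (2 * ((2 * A + 1) / s)) :=
          mul_le_mul n3 this (abs_nonneg _) (by norm_num)
      _ = _ := one_mul _
  have e : n.1 * z.1 + n.2.1 * z.2 + n.2.2 * (z.1 ^ 2 + z.2 ^ 2) - c
      = (n.1 * a + n.2.1 * b + n.2.2 * (a ^ 2 + b ^ 2) - c)
        + (n.1 * (z.1 - a) + n.2.1 * (z.2 - b) + n.2.2 * ((z.1 ^ 2 - a ^ 2) + (z.2 ^ 2 - b ^ 2))) := by ring
  rw [e]
  have e2 : 1 / s + 1 / s + 2 * ((2 * A + 1) / s) = (4 * A + 4) / s := by field_simp; ring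
  have t4 : |n.1 * (z.1 - a) + n.2.1 * (z.2 - b) + n.2.2 * ((z.1 ^ 2 - a ^ 2) + (z.2 ^ 2 - b ^ 2))| ≤ (4 * A + 4) / s := by
    rw [← e2]
    exact (abs_add_le _ _).trans (add_le_add ((abs_add_le _ _).trans (add_le_add t1 t2)) t3)
  exact (abs_add_le _ _).trans (by linarith)

/-- LEAF GRID.  **normalisation**: `q'` = `q` with `Z` replaced by `(⌊Z₁ s⌋/s, ⌊Z₂ s⌋/s)`, `s = M^(K r)`.
All cells of depth `≤ K r` are unchanged (`⌊⌊x s⌋/s · M^k⌋ = ⌊x M^k⌋`), so `time ang angU stat pt wid` are the same statements;  `bdZ`: `A + 1`;  `inc`: `A/s + A (4A+2)/s ≤ 7A²/s`;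
`slab`: `|n·V(Z) - n·V(Z')| ≤ (4A+4)/s ≤ w/2` and `w' = w² ≤ w/2`, so the new slab of width `w'` lies in the old slab of width `w = M^(-es r)`. -/
theorem rn_ok_grid (q : RnQ) {M r K : ℕ} {A d τ es oT dv st : ℝ} {jj : ℕ → ℝ} (h : q.Ok M r K A d τ es oT dv st jj)
    (hM : 2 ≤ M) (hK : 1 ≤ K) (hA : 1 ≤ A)
    (hbig1 : 2 ≤ (M : ℝ) ^ (es * r)) (hbig2 : (8 * A + 8) * (M : ℝ) ^ (es * r) ≤ (M : ℝ) ^ (K * r)) :
    ∃ q' : RnQ, q'.Ok M r K (7 * A ^ 2) d τ (2 * es) oT dv st jj ∧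
      ∀ ω ω', q'.Zc M (K * r) ω = q'.Zc M (K * r) ω' → q'.Z ω = q'.Z ω' := by
  have hM1 : 1 ≤ M := by omega
  have hMr : (1 : ℝ) ≤ (M : ℝ) := by exact_mod_cast hM1
  have hM0 : (0 : ℝ) < (M : ℝ) := by linarith
  have hA0 : (0 : ℝ) ≤ A := by linarith
  have hAA : A ≤ A ^ 2 := by nlinarith
  set s : ℝ := (M : ℝ) ^ (K * r) with hs
  have hs1 : 1 ≤ s := one_le_pow₀ hMr
  have hs0 : 0 < s := by linarith
  have hs1' : 1 / s ≤ 1 := by rw [div_le_one hs0]; exact hs1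
  have hZ' : ∀ ω, (q.grid s).Z ω = ((⌊(q.Z ω).1 * s⌋ : ℝ) / s, (⌊(q.Z ω).2 * s⌋ : ℝ) / s) := fun _ => rfl
  have hZc : ∀ k ≤ K * r, (q.grid s).Zc M k = q.Zc M k := by
    intro k hk
    funext ω
    show rnCell2 M k ((q.grid s).Z ω) = rnCell2 M k (q.Z ω)
    rw [hZ']
    simp only [rnCell2, hs, rn_aux_grid_cell M k (K * r) hM1 hk]
  have hYc : ∀ k ≤ K * r, (q.grid s).Yc M k = q.Yc M k := by
    intro k hk
    show pair ((q.grid s).Zc M k) (q.Wc M k) = pair (q.Zc M k) (q.Wc M k)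
    rw [hZc k hk]
    rfl
  have hrK : r ≤ K * r := Nat.le_mul_of_pos_left _ hK
  refine ⟨q.grid s, ?_, ?_⟩
  · refine ⟨?_, ?_, ?_, ?_, ?_, ?_, ?_, ?_, ?_, ?_, ?_, ?_⟩
    · intro ω
      rw [hZ']
      obtain ⟨z1, z2⟩ := h.bdZ ω
      obtain ⟨a1, a2⟩ := rn_aux_fl hs0 (q.Z ω).1
      obtain ⟨b1, b2⟩ := rn_aux_fl hs0 (q.Z ω).2
      obtain ⟨z11, z12⟩ := abs_le.1 z1
      obtain ⟨z21, z22⟩ := abs_le.1 z2
      constructor <;> rw [abs_le] <;> constructor <;> simp only <;> nlinarith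
    · intro ω
      obtain ⟨w1, w2, w3⟩ := h.bdW ω
      have hA7 : A ≤ 7 * A ^ 2 := by nlinarith
      exact ⟨w1.trans hA7, w2.trans hA7, w3.trans hA7⟩
    · intro ω
      have := h.bdt ω
      show |q.th ω| ≤ 7 * A ^ 2
      nlinarith
    · intro ω i
      show |q.O ω i - (rnW (q.W ω) i + q.th ω * rnE ((q.grid s).Z ω) i)| ≤ 7 * A ^ 2 / s
      have h1 := h.inc ω i
      have ht := h.bdt ω
      obtain ⟨z1, z2⟩ := h.bdZ ω
      obtain ⟨a1, a2⟩ := rn_aux_fl hs0 (q.Z ω).1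
      obtain ⟨b1, b2⟩ := rn_aux_fl hs0 (q.Z ω).2
      have q1 := rn_aux_fl_sq hA hs1 z1
      have q2 := rn_aux_fl_sq hA hs1 z2
      have hE : |rnE (q.Z ω) i - rnE ((q.grid s).Z ω) i| ≤ (4 * A + 2) / s := by
        rw [hZ']
        have hpos : 0 ≤ (4 * A + 2) / s := by positivity
        have h1s : 1 / s ≤ (4 * A + 2) / s := div_le_div_of_nonneg_right (by linarith) hs0.le
        fin_cases i
        · simp only [rnE, Fin.zero_eta, Fin.isValue, Matrix.cons_val_zero, sub_self, abs_zero]; exact hpos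
        · simp only [rnE, Fin.mk_one, Fin.isValue, Matrix.cons_val_one, Matrix.cons_val_zero]
          rw [abs_of_nonneg a1]; linarith
        · simp only [rnE, Fin.reduceFinMk, Matrix.cons_val]
          rw [abs_of_nonneg b1]; linarith
        · simp only [rnE, Fin.reduceFinMk, Matrix.cons_val]
          have e : (q.Z ω).1 ^ 2 + (q.Z ω).2 ^ 2 - (((⌊(q.Z ω).1 * s⌋ : ℝ) / s) ^ 2 + ((⌊(q.Z ω).2 * s⌋ : ℝ) / s) ^ 2)
              = ((q.Z ω).1 ^ 2 - ((⌊(q.Z ω).1 * s⌋ : ℝ) / s) ^ 2) + ((q.Z ω).2 ^ 2 - ((⌊(q.Z ω).2 * s⌋ : ℝ) / s) ^ 2) := by ring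
          rw [e]
          refine (abs_add_le _ _).trans ?_
          have e2 : (2 * A + 1) / s + (2 * A + 1) / s = (4 * A + 2) / s := by ring
          linarith
      have e : q.O ω i - (rnW (q.W ω) i + q.th ω * rnE ((q.grid s).Z ω) i)
          = (q.O ω i - (rnW (q.W ω) i + q.th ω * rnE (q.Z ω) i)) + q.th ω * (rnE (q.Z ω) i - rnE ((q.grid s).Z ω) i) := by ring
      rw [e]
      have h2 : |q.th ω * (rnE (q.Z ω) i - rnE ((q.grid s).Z ω) i)| ≤ A * ((4 * A + 2) / s) := by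
        rw [abs_mul]
        exact mul_le_mul ht hE (abs_nonneg _) hA0
      refine (abs_add_le _ _).trans ((add_le_add h1 h2).trans ?_)
      have e3 : A / s + A * ((4 * A + 2) / s) = (A + A * (4 * A + 2)) / s := by ring
      rw [← hs, e3]
      exact div_le_div_of_nonneg_right (by nlinarith) hs0.le
    · exact h.ofun
    · intro k k' h1 h2
      have := h.time k k' h1 h2
      rw [← hYc (K * r) le_rfl] at this
      exact this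
    · intro k k' h1 h2
      have := h.ang k k' h1 h2
      rw [← hZc k' (h2.trans hrK), ← hZc k ((h1.trans h2).trans hrK)] at this
      exact this
    · have := h.angU
      rw [← hZc r hrK] at this
      exact this
    · have := h.stat
      rw [← hZc (K * r) le_rfl] at this
      exact this
    · exact h.pt
    · have := h.wid
      rw [← hYc r hrK] at this
      exact this
    · refine le_trans (ent_pr_mono q.P fun ω _ hω => ?_) h.slab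
      obtain ⟨n, c, hn, hlt⟩ := hω
      refine ⟨n, c, hn, lt_of_lt_of_le hlt ?_⟩
      refine ent_pr_mono q.P fun ω' _ hω' => ⟨hω'.1, hω'.2.1, ?_⟩
      set w : ℝ := (M : ℝ) ^ (-(es * r)) with hw
      have hwpos : 0 < w := Real.rpow_pos_of_pos hM0 _
      have hwinv : w = 1 / (M : ℝ) ^ (es * r) := by rw [hw, Real.rpow_neg hM0.le, one_div]
      have hP : 0 < (M : ℝ) ^ (es * r) := Real.rpow_pos_of_pos hM0 _
      have hw2 : w ≤ 1 / 2 := by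
        rw [hwinv]
        exact one_div_le_one_div_of_le (by norm_num) hbig1
      have hw' : (M : ℝ) ^ (-(2 * es * r)) = w * w := by
        rw [hw, ← Real.rpow_add hM0]
        congr 1
        ring
      refine rn_aux_grid_slab hA hs1 (q.Z ω') (h.bdZ ω') n hn c (w := w) (w' := (M : ℝ) ^ (-(2 * es * r))) ?_ ?_ hω'.2.2
      · rw [hwinv, div_le_iff₀ hs0]
        have : (8 * A + 8) * (M : ℝ) ^ (es * r) ≤ s := hbig2
        rw [div_div, div_mul_eq_mul_div, le_div_iff₀ (by positivity)]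
        linarith
      · rw [hw']
        nlinarith
  · intro ω ω' hω
    rw [hZc (K * r) le_rfl] at hω
    have h1 : rnCell2 M (K * r) (q.Z ω) = rnCell2 M (K * r) (q.Z ω') := hω
    simp only [rnCell2, rnCell, Prod.mk.injEq] at h1
    rw [hZ', hZ', hs, h1.1, h1.2]

/-- LEAF OUT.  **prop:rt-outgoing on one finite law** (= `rn_out` of `Contract.lean`): `rn_out_core` with `7 A²`, `es = es_core/2`, `rn_ok_grid`; `b` large for `hbig1`, `hbig2`. -/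
theorem rn_out_final (A d ξ : ℝ) (hA : 1 ≤ A) (hd0 : 0 < d) (hd1 : d ≤ 1) (hξ : 0 < ξ) :
    ∃ r : ℕ, 2 ≤ r ∧ ∃ χ : ℝ, 0 < χ ∧ ∃ es : ℝ, 0 < es ∧ ∃ τ : ℝ, 0 < τ ∧ ∃ M0 : ℕ,
      ∀ (q : RnQ) (b : ℕ) (oT dv st m : ℝ) (jj : ℕ → ℝ), M0 ≤ b → q.Ok (2 ^ b) r 3 A d τ es oT dv st jj →
        0 ≤ m → m ≤ 2 → st ≤ χ → (∀ l l', l ≤ l' → l' ≤ r → m * ((l' : ℝ) - l) - χ ≤ jj l' - jj l) →
        (3 * d + min 1 (d + m / 2) - ξ) * r ≤ oT := by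
  have hA7 : 1 ≤ 7 * A ^ 2 := by nlinarith
  obtain ⟨r, hr, χ, hχ, esc, hes0, hes1, τ, hτ, M0, H⟩ := rn_out_core (7 * A ^ 2) d ξ hA7 hd0 hd1 hξ
  have hr0 : (0 : ℝ) < r := by exact_mod_cast (by omega : 0 < r)
  have hx : 0 < esc / 2 * r := by positivity
  refine ⟨r, hr, χ, hχ, esc / 2, by positivity, τ, hτ,
    max M0 (max ⌈8 * A + 8⌉₊ (max ⌈1 / (esc / 2 * r)⌉₊ 1)), ?_⟩
  intro q b oT dv st m jj hb h hm0 hm2 hst hjj
  have hb0 : M0 ≤ b := (le_max_left _ _).trans hb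
  have hb1 : ⌈8 * A + 8⌉₊ ≤ b := ((le_max_left _ _).trans (le_max_right _ _)).trans hb
  have hb2 : ⌈1 / (esc / 2 * r)⌉₊ ≤ b := ((le_max_left _ _).trans ((le_max_right _ _).trans (le_max_right _ _))).trans hb
  have hb3 : 1 ≤ b := ((le_max_right _ _).trans ((le_max_right _ _).trans (le_max_right _ _))).trans hb
  have hM2 : 2 ≤ 2 ^ b := by
    calc 2 = 2 ^ 1 := by norm_num
      _ ≤ 2 ^ b := Nat.pow_le_pow_right (by norm_num) hb3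
  have hMr : (1 : ℝ) ≤ ((2 ^ b : ℕ) : ℝ) := by exact_mod_cast Nat.one_le_two_pow
  have hbig1 : 2 ≤ (((2 ^ b : ℕ) : ℝ)) ^ (esc / 2 * r) := by
    have e1 : (((2 ^ b : ℕ) : ℝ)) ^ (esc / 2 * r) = (2 : ℝ) ^ ((b : ℝ) * (esc / 2 * r)) := by
      push_cast
      rw [← Real.rpow_natCast, ← Real.rpow_mul (by norm_num)]
    rw [e1]
    have h1 : 1 / (esc / 2 * r) ≤ (b : ℝ) := (Nat.le_ceil _).trans (by exact_mod_cast hb2)
    rw [div_le_iff₀ hx] at h1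
    calc (2 : ℝ) = 2 ^ (1 : ℝ) := by norm_num
      _ ≤ 2 ^ ((b : ℝ) * (esc / 2 * r)) := Real.rpow_le_rpow_of_exponent_le (by norm_num) h1
  have hbig2 : (8 * A + 8) * (((2 ^ b : ℕ) : ℝ)) ^ (esc / 2 * r) ≤ (((2 ^ b : ℕ) : ℝ)) ^ (3 * r) := by
    have h1 : (((2 ^ b : ℕ) : ℝ)) ^ (esc / 2 * r) ≤ (((2 ^ b : ℕ) : ℝ)) ^ r := by
      rw [← Real.rpow_natCast]
      refine Real.rpow_le_rpow_of_exponent_le hMr ?_
      nlinarith
    have h2 : 8 * A + 8 ≤ ((2 ^ b : ℕ) : ℝ) := by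
      have h3 : 8 * A + 8 ≤ (b : ℝ) := (Nat.le_ceil _).trans (by exact_mod_cast hb1)
      have h4 : (b : ℝ) ≤ ((2 ^ b : ℕ) : ℝ) := by exact_mod_cast Nat.lt_two_pow_self.le
      linarith
    have h3 : ((2 ^ b : ℕ) : ℝ) ≤ (((2 ^ b : ℕ) : ℝ)) ^ (2 * r) := le_self_pow₀ hMr (by omega)
    have h4 : (((2 ^ b : ℕ) : ℝ)) ^ (3 * r) = (((2 ^ b : ℕ) : ℝ)) ^ (2 * r) * (((2 ^ b : ℕ) : ℝ)) ^ r := by
      rw [← pow_add]
      congr 1
      ring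
    rw [h4]
    exact mul_le_mul (h2.trans h3) h1 (Real.rpow_nonneg (by linarith) _) (by positivity)
  obtain ⟨q', hq', hgrid⟩ := rn_ok_grid q h hM2 (by norm_num) hA hbig1 hbig2
  have e2 : 2 * (esc / 2) = esc := by ring
  rw [e2] at hq'
  exact H q' b oT dv st m jj hb0 hq' hgrid hm0 hm2 hst hjj

end Claimed.Agent.R256
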