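import Claimed.Agent.R256.Rnd.End
import Claimed.Agent.R256.Rnd.OutMain

/-!
# Row 256, unit RND (08B), last file: the exit `rn_wave`      (architect helper38)

`rn_rv` (`Rnd/Contract`, `Rnd/Rv`), `rn_out_final` (`Rnd/OutMain`), `rn_end'` (`Rnd/End`)  ⟹  for suitable parameters there is NO `RnProf`.
-/

set_option autoImplicit false

namespace Claimed.Agent.R256

open Claimed.Agent.R255

/-- **EXIT of 08B (waves).**  For every size `A` and all exponents `0 < Γ ≤ d ≤ 1` there are parameters for which PROF is impossible. -/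
theorem rn_wave (A d Γ : ℝ) (hA : 1 ≤ A) (hd0 : 0 < d) (hd1 : d ≤ 1) (hΓ : 0 < Γ) (hΓd : Γ ≤ d) :
    ∃ (r N k0 M0 : ℕ) (e τ es : ℝ), 0 < e ∧ 0 < τ ∧ 0 < es ∧
      ¬ RnProf r N k0 3 M0 A d (1 + 3 * d - 2 * Γ) e τ es := by
  obtain ⟨r, hr, χ, hχ, es, hes, τ1, hτ1, M1, hout⟩ := rn_out_final A d (Γ / 20) hA hd0 hd1 (by positivity)
  obtain ⟨τ2, hτ2, M2, hrv⟩ := rn_rv A (Γ / 20) hA (by positivity)
  obtain ⟨k0, N, _, e, he, hend⟩ := rn_end' d Γ χ r 3 hd0 hd1 hΓ hΓd hχ hr (by norm_num)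
  refine ⟨r, N, k0, max M1 M2, e, min τ1 τ2, es, he, lt_min hτ1 hτ2, hes, ?_⟩
  rintro ⟨D, J, hArr, hq⟩
  have hr1 : 1 ≤ r := by omega
  refine hend D J hArr ?_ ?_
  · refine rn_prof_rv (M0 := max M1 M2) (A := A) (τ := min τ1 τ2) (es := es) hr1 ?_ hq
    intro q b oT dv st jj hM hok
    have hM1 : 1 ≤ 2 ^ b := Nat.one_le_two_pow
    exact hrv q (2 ^ b) r 3 d es oT dv st jj hd0 hd1 hr1 (by norm_num)
      (le_trans (le_trans (le_max_right _ _) hM) (Nat.lt_two_pow_self).le) (rn_ok_mono hM1 (min_le_right _ _) hok)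
  · refine rn_prof_out (M0 := max M1 M2) (A := A) (τ := min τ1 τ2) (es := es) hr1 ?_ hq
    intro q b oT dv st m jj hM hok hm0 hm2 hst hlin
    have hM1 : 1 ≤ 2 ^ b := Nat.one_le_two_pow
    exact hout q b oT dv st m jj (le_trans (le_max_left _ _) hM)
      (rn_ok_mono hM1 (min_le_left _ _) hok) hm0 hm2 hst hlin

end Claimed.Agent.R256
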