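import Mathlib

/-!
# Row 256, unit RND (08B), file 3: the abstract two-direction descent      (architect helper38)

Paper free, Mathlib only.  Finite substitute for Lemma rt-descent (08 l.1384-1431).
Lattice `(P, q)` : `t = 1 - a = 2 P h (+ offset)`, `v = q h`.   DIAGONAL step `(P, q) → (P+1, q+1)` (parallel to the boundary `v = t/2`), HORIZONTAL step `(P, q) → (P+1, q)`.
`E` = excess.  `Hi P q` = "the angular rate is above the threshold", `Hi'` its weak form, which persists along a row (`mono`).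
At a `Good` point: a diagonal step gains `g` if `¬ Hi`, a horizontal step gains `g` if `Hi'`.  Every step costs at most `b`.
PATH: choose a diagonal `e ∈ [e0, 2 e0)` with few bad points; follow it until the first point with `Hi` lying on a row with at most `ℓ` bad points; then follow that row.
Exceptional steps: bad points of the diagonal (`≤ β / e0`), points of the diagonal on bad rows (`≤ β / (ℓ+1)`, one point per row), bad points of the final row (`≤ ℓ`).
LEAVES: L-256-RN-CH1 (`rn_seq_drop`, `rn_pick_diag`, `rn_bad_rows`), L-256-RN-CH2 (`rn_chain`).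
-/

set_option autoImplicit false

namespace Claimed.Agent.R256

open Finset
open Classical

/-- the region swept by the paths -/
def RnIn (P0 W e0 P q : ℕ) : Prop := P0 ≤ P ∧ P < P0 + W ∧ q + e0 ≤ P ∧ P0 < q + 2 * e0

/-- the hypotheses of the descent -/
structure RnDesc (P0 W e0 : ℕ) (E : ℕ → ℕ → ℝ) (Hi Hi' Good : ℕ → ℕ → Prop) (g b : ℝ) : Prop where
  diagG : ∀ P q, RnIn P0 W e0 P q → Good P q → ¬ Hi P q → E (P + 1) (q + 1) ≤ E P q - g
  horG : ∀ P q, RnIn P0 W e0 P q → Good P q → Hi' P q → E (P + 1) q ≤ E P q - g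
  diagB : ∀ P q, RnIn P0 W e0 P q → E (P + 1) (q + 1) ≤ E P q + b
  horB : ∀ P q, RnIn P0 W e0 P q → E (P + 1) q ≤ E P q + b
  mono : ∀ P q, RnIn P0 W e0 P q → Hi P q → ∀ P', P ≤ P' → P' < P0 + W → Hi' P' q

/-- the bad points of the region -/
noncomputable def rnBadSet (P0 W e0 : ℕ) (Good : ℕ → ℕ → Prop) : Finset (ℕ × ℕ) :=
  ((Ico P0 (P0 + W)) ×ˢ (range (P0 + W))).filter fun x => RnIn P0 W e0 x.1 x.2 ∧ ¬ Good x.1 x.2

/-- LEAF CH1.  a sequence that drops by `g` off an exceptional set and rises by at most `b` on it (induction on `n`) -/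
theorem rn_seq_drop (x : ℕ → ℝ) (g b : ℝ) (S : Finset ℕ) (n : ℕ)
    (hgood : ∀ k, k < n → k ∉ S → x (k + 1) ≤ x k - g)
    (hbad : ∀ k, k < n → k ∈ S → x (k + 1) ≤ x k + b) :
    x n ≤ x 0 - g * n + (g + b) * ((S.filter (· < n)).card : ℝ) := by
  induction n with
  | zero => simp
  | succ n ih =>
    have ih' := ih (fun k hk => hgood k (by omega)) (fun k hk => hbad k (by omega))
    by_cases hn : n ∈ S
    · have hc : S.filter (· < n + 1) = insert n (S.filter (· < n)) := by
        ext k
        simp only [mem_filter, mem_insert]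
        constructor
        · rintro ⟨h1, h2⟩
          rcases Nat.lt_succ_iff_lt_or_eq.1 h2 with h3 | h3
          · exact Or.inr ⟨h1, h3⟩
          · exact Or.inl h3
        · rintro (h1 | ⟨h1, h2⟩)
          · exact ⟨h1 ▸ hn, by omega⟩
          · exact ⟨h1, by omega⟩
      rw [hc, card_insert_of_notMem (by simp)]
      have := hbad n (by omega) hn
      push_cast
      linarith
    · have hc : S.filter (· < n + 1) = S.filter (· < n) := by
        ext k
        simp only [mem_filter]
        constructor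
        · rintro ⟨h1, h2⟩
          refine ⟨h1, ?_⟩
          rcases Nat.lt_succ_iff_lt_or_eq.1 h2 with h3 | h3
          · exact h3
          · exact absurd (h3 ▸ h1) hn
        · rintro ⟨h1, h2⟩
          exact ⟨h1, by omega⟩
      rw [hc]
      have := hgood n (by omega) hn
      push_cast
      linarith

/-- LEAF CH1.  some diagonal `q = P - e`, `e0 ≤ e < 2 e0`, has at most `β / e0` bad points
(the maps `k ↦ (P0 + k, P0 - e + k)` for different `e` have disjoint images inside `rnBadSet`; pigeonhole `Finset.exists_le_card_fiber...` or sum over `e`). -/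
theorem rn_pick_diag (P0 W e0 : ℕ) (Good : ℕ → ℕ → Prop) (he0 : 0 < e0) (h2 : 2 * e0 ≤ P0) :
    ∃ e, e0 ≤ e ∧ e < 2 * e0 ∧
      (((range W).filter fun k => ¬ Good (P0 + k) (P0 - e + k)).card : ℝ) * e0 ≤ ((rnBadSet P0 W e0 Good).card : ℝ) := by
  obtain ⟨c, hc⟩ : ∃ c : ℕ → ℕ, c = fun e => ((range W).filter fun k => ¬ Good (P0 + k) (P0 - e + k)).card := ⟨_, rfl⟩
  have hne : (Ico e0 (2 * e0)).Nonempty := ⟨e0, mem_Ico.2 ⟨le_rfl, by omega⟩⟩
  obtain ⟨e, he, hmin⟩ := exists_min_image (Ico e0 (2 * e0)) c hne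
  rw [mem_Ico] at he
  refine ⟨e, he.1, he.2, ?_⟩
  have hsum : ∑ e' ∈ Ico e0 (2 * e0), c e' ≤ (rnBadSet P0 W e0 Good).card := by
    have hA : ∀ e', c e' = (((range W).filter fun k => ¬ Good (P0 + k) (P0 - e' + k)).image fun k => (P0 + k, P0 - e' + k)).card := by
      intro e'
      rw [card_image_of_injective, hc]
      intro k k' hk
      have := (Prod.mk.inj hk).1
      omega
    rw [sum_congr rfl fun e' _ => hA e', ← card_biUnion]
    · refine card_le_card ?_
      intro x hx
      rw [mem_biUnion] at hx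
      obtain ⟨e', he', hx⟩ := hx
      rw [mem_image] at hx
      obtain ⟨k, hk, rfl⟩ := hx
      rw [mem_filter, mem_range] at hk
      rw [mem_Ico] at he'
      unfold rnBadSet
      rw [mem_filter, mem_product, mem_Ico, mem_range]
      refine ⟨⟨⟨by omega, by omega⟩, by omega⟩, ⟨by omega, by omega, by omega, by omega⟩, hk.2⟩
    · intro e1 h1 e2 h2' hne'
      have h1 : e1 ∈ Ico e0 (2 * e0) := h1
      have h2' : e2 ∈ Ico e0 (2 * e0) := h2'
      refine disjoint_left.2 ?_
      intro x hx1 hx2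
      rw [mem_image] at hx1 hx2
      obtain ⟨k1, -, rfl⟩ := hx1
      obtain ⟨k2, -, hx⟩ := hx2
      have a1 := (Prod.mk.inj hx).1
      have a2 := (Prod.mk.inj hx).2
      rw [mem_Ico] at h1 h2'
      omega
  have hle : e0 * c e ≤ ∑ e' ∈ Ico e0 (2 * e0), c e' := by
    have := card_nsmul_le_sum (Ico e0 (2 * e0)) c (c e) hmin
    rw [Nat.card_Ico, smul_eq_mul] at this
    have e1 : 2 * e0 - e0 = e0 := by omega
    rwa [e1] at this
  have h3 : c e * e0 ≤ (rnBadSet P0 W e0 Good).card := by
    rw [mul_comm]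
    exact hle.trans hsum
  have h4 : ((c e * e0 : ℕ) : ℝ) ≤ ((rnBadSet P0 W e0 Good).card : ℝ) := by exact_mod_cast h3
  rw [hc] at h4
  push_cast at h4
  exact h4

/-- LEAF CH1.  the rows with more than `ℓ` bad points (double counting) -/
theorem rn_bad_rows (P0 W e0 ℓ : ℕ) (Good : ℕ → ℕ → Prop) :
    (((range (P0 + W)).filter fun q => ℓ < ((rnBadSet P0 W e0 Good).filter fun x => x.2 = q).card).card : ℝ) * (ℓ + 1)
      ≤ ((rnBadSet P0 W e0 Good).card : ℝ) := by
  have hmap : Set.MapsTo (fun x : ℕ × ℕ => x.2) (rnBadSet P0 W e0 Good : Set (ℕ × ℕ)) (range (P0 + W) : Set ℕ) := by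
    intro x hx
    have hx' : x ∈ rnBadSet P0 W e0 Good := hx
    unfold rnBadSet at hx'
    rw [mem_filter, mem_product] at hx'
    exact hx'.1.2
  have h1 := card_eq_sum_card_fiberwise hmap
  have h2 : ∑ q ∈ (range (P0 + W)).filter (fun q => ℓ < ((rnBadSet P0 W e0 Good).filter fun x => x.2 = q).card),
      ((rnBadSet P0 W e0 Good).filter fun x => x.2 = q).card ≤ (rnBadSet P0 W e0 Good).card := by
    rw [h1]
    exact sum_le_sum_of_subset (filter_subset _ _)
  have h3 := card_nsmul_le_sum ((range (P0 + W)).filter (fun q => ℓ < ((rnBadSet P0 W e0 Good).filter fun x => x.2 = q).card))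
    (fun q => ((rnBadSet P0 W e0 Good).filter fun x => x.2 = q).card) (ℓ + 1) (fun q hq => (mem_filter.1 hq).2)
  rw [smul_eq_mul] at h3
  have h4 := h3.trans h2
  exact_mod_cast h4

/-- LEAF CH2.  **the descent.**
Take `e` from `rn_pick_diag`, `q0 = P0 - e`, `BadRow q` as in `rn_bad_rows`.  `k*` = least `k < W` with `Hi (P0+k) (q0+k) ∧ ¬ BadRow (q0+k)` (`k* = W` if none; `Nat.find`).
`rn_seq_drop` for `x k = E (P0+k) (q0+k)`, `n = k*`, `S = {k : ¬ Good ∨ BadRow (q0+k)}`;  then for `x k = E (P0+k*+k) (q0+k*)`, `n = W - k*`, `S = {k : ¬ Good}` (`Hi'` from `mono`).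
All points are in `RnIn`.  Cards: `≤ β/e0 + β/(ℓ+1)` and `≤ ℓ`. -/
theorem rn_chain {P0 W e0 : ℕ} {E : ℕ → ℕ → ℝ} {Hi Hi' Good : ℕ → ℕ → Prop} {g b : ℝ}
    (h : RnDesc P0 W e0 E Hi Hi' Good g b) (he0 : 0 < e0) (h2 : 2 * e0 ≤ P0) (hg : 0 ≤ g) (hb : 0 ≤ b)
    (ℓ : ℕ) (β s0 τ : ℝ)
    (hstart : ∀ e, e0 ≤ e → e < 2 * e0 → E P0 (P0 - e) ≤ s0)
    (hend : ∀ q, q + e0 ≤ P0 + W → -τ ≤ E (P0 + W) q)
    (hcount : ((rnBadSet P0 W e0 Good).card : ℝ) ≤ β)
    (hnum : s0 + τ + (g + b) * (β / e0 + β / (ℓ + 1) + ℓ) < g * W) : False := by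
  obtain ⟨e, he1, he2, hD⟩ := rn_pick_diag P0 W e0 Good he0 h2
  have hR0 := rn_bad_rows P0 W e0 ℓ Good
  have hs := hstart e he1 he2
  obtain ⟨q0, hq0⟩ : ∃ q0, q0 = P0 - e := ⟨_, rfl⟩
  rw [← hq0] at hD hs
  have hq0' : q0 + e = P0 := by omega
  obtain ⟨BadRow, hBR⟩ : ∃ BadRow : ℕ → Prop,
      BadRow = fun q => ℓ < ((rnBadSet P0 W e0 Good).filter fun x => x.2 = q).card := ⟨_, rfl⟩
  have hR : (((range (P0 + W)).filter fun q => BadRow q).card : ℝ) * (ℓ + 1) ≤ ((rnBadSet P0 W e0 Good).card : ℝ) := by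
    subst hBR
    convert hR0
  have hgb : 0 ≤ g + b := by linarith
  have he0R : (0 : ℝ) < e0 := by exact_mod_cast he0
  have hlR : (0 : ℝ) < (ℓ : ℝ) + 1 := by positivity
  have hIn : ∀ k j, k + j < W → RnIn P0 W e0 (P0 + k + j) (q0 + k) := by
    intro k j hkj
    exact ⟨by omega, by omega, by omega, by omega⟩
  -- the diagonal phase
  have hph1 : ∀ K, K ≤ W → (∀ k, k < K → ¬ (Hi (P0 + k) (q0 + k) ∧ ¬ BadRow (q0 + k))) →
      E (P0 + K) (q0 + K) ≤ s0 - g * K + (g + b) * (β / e0 + β / (ℓ + 1)) := by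
    intro K hK hno
    obtain ⟨S, hS⟩ : ∃ S : Finset ℕ, S = (range W).filter fun k => ¬ Good (P0 + k) (q0 + k) ∨ BadRow (q0 + k) := ⟨_, rfl⟩
    have h1 := rn_seq_drop (fun k => E (P0 + k) (q0 + k)) g b S K
      (by
        intro k hk hkS
        have hG : Good (P0 + k) (q0 + k) ∧ ¬ BadRow (q0 + k) := by
          rw [hS, mem_filter, mem_range] at hkS
          by_contra hcon
          refine hkS ⟨by omega, ?_⟩
          by_cases hgd : Good (P0 + k) (q0 + k)
          · right
            by_contra hbr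
            exact hcon ⟨hgd, hbr⟩
          · exact Or.inl hgd
        exact h.diagG _ _ (hIn k 0 (by omega)) hG.1 (fun hHi => hno k hk ⟨hHi, hG.2⟩))
      (by
        intro k hk _
        exact h.diagB _ _ (hIn k 0 (by omega)))
    have hc1 : ((S.filter (· < K)).card : ℝ) ≤ β / e0 + β / (ℓ + 1) := by
      have a1 : (S.filter (· < K)).card ≤ S.card := card_le_card (filter_subset _ _)
      have a2 : S.card ≤ ((range W).filter fun k => ¬ Good (P0 + k) (q0 + k)).card
          + ((range W).filter fun k => BadRow (q0 + k)).card := by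
        rw [hS, filter_or]
        exact card_union_le _ _
      have a3 : ((range W).filter fun k => BadRow (q0 + k)).card ≤ ((range (P0 + W)).filter fun q => BadRow q).card := by
        refine card_le_card_of_injOn (fun k => q0 + k) ?_ ?_
        · intro k hk
          have hk' : k ∈ (range W).filter fun k => BadRow (q0 + k) := hk
          rw [mem_filter, mem_range] at hk'
          have : q0 + k ∈ (range (P0 + W)).filter fun q => BadRow q := by
            rw [mem_filter, mem_range]
            exact ⟨by omega, hk'.2⟩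
          exact this
        · intro k _ k' _ hkk
          have : q0 + k = q0 + k' := hkk
          omega
      have b1 : (((range W).filter fun k => ¬ Good (P0 + k) (q0 + k)).card : ℝ) ≤ β / e0 := by
        rw [le_div_iff₀ he0R]
        exact hD.trans hcount
      have b2 : (((range (P0 + W)).filter fun q => BadRow q).card : ℝ) ≤ β / (ℓ + 1) := by
        rw [le_div_iff₀ hlR]
        exact hR.trans hcount
      have a4 : ((S.filter (· < K)).card : ℝ) ≤ (((range W).filter fun k => ¬ Good (P0 + k) (q0 + k)).card : ℝ)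
          + (((range (P0 + W)).filter fun q => BadRow q).card : ℝ) := by
        exact_mod_cast a1.trans (a2.trans (Nat.add_le_add_left a3 _))
      linarith
    have h3 : (g + b) * ((S.filter (· < K)).card : ℝ) ≤ (g + b) * (β / e0 + β / (ℓ + 1)) :=
      mul_le_mul_of_nonneg_left hc1 hgb
    have h4 : E (P0 + K) (q0 + K) ≤ E (P0 + 0) (q0 + 0) - g * K + (g + b) * ((S.filter (· < K)).card : ℝ) := h1
    rw [Nat.add_zero, Nat.add_zero] at h4
    linarith
  -- the horizontal phase
  have hph2 : ∀ K, K < W → Hi (P0 + K) (q0 + K) → ¬ BadRow (q0 + K) →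
      E (P0 + W) (q0 + K) ≤ E (P0 + K) (q0 + K) - g * ((W : ℝ) - K) + (g + b) * ℓ := by
    intro K hK hHi hnb
    obtain ⟨S, hS⟩ : ∃ S : Finset ℕ, S = (range (W - K)).filter fun j => ¬ Good (P0 + K + j) (q0 + K) := ⟨_, rfl⟩
    have h1 := rn_seq_drop (fun j => E (P0 + K + j) (q0 + K)) g b S (W - K)
      (by
        intro j hj hjS
        have hG : Good (P0 + K + j) (q0 + K) := by
          rw [hS, mem_filter, mem_range] at hjS
          by_contra hcon
          exact hjS ⟨hj, hcon⟩
        exact h.horG (P0 + K + j) (q0 + K) (hIn K j (by omega)) hG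
          (h.mono (P0 + K) (q0 + K) (hIn K 0 (by omega)) hHi (P0 + K + j) (by omega) (by omega)))
      (by
        intro j hj _
        exact h.horB _ _ (hIn K j (by omega)))
    have hc1 : (S.filter (· < W - K)).card ≤ ℓ := by
      have a1 : (S.filter (· < W - K)).card ≤ S.card := card_le_card (filter_subset _ _)
      have a2 : S.card ≤ ((rnBadSet P0 W e0 Good).filter fun x => x.2 = q0 + K).card := by
        refine card_le_card_of_injOn (fun j => (P0 + K + j, q0 + K)) ?_ ?_
        · intro j hj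
          have hj' : j ∈ S := hj
          rw [hS, mem_filter, mem_range] at hj'
          have : (P0 + K + j, q0 + K) ∈ (rnBadSet P0 W e0 Good).filter fun x => x.2 = q0 + K := by
            unfold rnBadSet
            rw [mem_filter, mem_filter, mem_product, mem_Ico, mem_range]
            exact ⟨⟨⟨⟨by omega, by omega⟩, by omega⟩, hIn K j (by omega), hj'.2⟩, rfl⟩
          exact this
        · intro j _ j' _ hjj
          have := (Prod.mk.inj hjj).1
          omega
      have a3 : ((rnBadSet P0 W e0 Good).filter fun x => x.2 = q0 + K).card ≤ ℓ := by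
        rw [hBR] at hnb
        exact not_lt.1 hnb
      exact a1.trans (a2.trans a3)
    have hc2 : ((S.filter (· < W - K)).card : ℝ) ≤ ℓ := by exact_mod_cast hc1
    have h3 : (g + b) * ((S.filter (· < W - K)).card : ℝ) ≤ (g + b) * ℓ := mul_le_mul_of_nonneg_left hc2 hgb
    have h4 : E (P0 + K + (W - K)) (q0 + K) ≤ E (P0 + K + 0) (q0 + K) - g * ((W - K : ℕ) : ℝ)
        + (g + b) * ((S.filter (· < W - K)).card : ℝ) := h1
    have e1 : P0 + K + (W - K) = P0 + W := by omega
    rw [e1, Nat.add_zero, Nat.cast_sub hK.le] at h4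
    linarith
  have hl0 : 0 ≤ (g + b) * (ℓ : ℝ) := mul_nonneg hgb (Nat.cast_nonneg _)
  by_cases hex : ∃ k, k < W ∧ Hi (P0 + k) (q0 + k) ∧ ¬ BadRow (q0 + k)
  · obtain ⟨hKW, hHi, hnb⟩ := Nat.find_spec hex
    obtain ⟨K, hK⟩ : ∃ K, K = Nat.find hex := ⟨_, rfl⟩
    rw [← hK] at hKW hHi hnb
    have a1 := hph1 K hKW.le (by
      intro k hk hh
      exact Nat.find_min hex (hK ▸ hk) ⟨by omega, hh⟩)
    have a2 := hph2 K hKW hHi hnb
    have a3 := hend (q0 + K) (by omega)
    nlinarith
  · have a1 := hph1 W le_rfl (fun k hk hh => hex ⟨k, hk, hh⟩)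
    have a3 := hend (q0 + W) (by omega)
    nlinarith

end Claimed.Agent.R256
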