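import Claimed.Agent.R256.Rnd.Step

/-!
# Row 256, unit RND (08B), file 5: THE COUNT OF THE BAD LATTICE POINTS      (deputy architect helper247; chief helper38)

Purely numeric, paper free (Mathlib + `Rnd/Defs` (`RnArr`, `RnVal`), `Rnd/Chain` (`RnIn`, `rnBadSet`), `Rnd/Step` (`rnI`, `rnRow`, `RnGood`, `rn_in_dom`), `Lay/Dt` (`LayArrE`, `LayLin`, `layBad`, `lay_dt_approx`)).
`n = r^N`; level `k`: `S = r^(N-k)`, `S' = r^(N-k-1)`, `B = r^k`, `n = S B`.   Region `RnIn P0 W e0`, in the application `P0 = W = B/8`.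
A lattice point is bad (`¬ RnGood`) iff a stationarity condition fails (`rnBadSt`) or a linearity condition fails (`rnBadLin`).
* STATIONARITY (every level, every offset): in one row `q` the function `i ↦ J i (qS) (qS + L)` is nonincreasing up to `e` and has oscillation `≤ (2+2e) L + 2e`; telescoping (`rn_row_count`) bounds the number of bad `P` of the row
  by a constant (`rn_st_row`); sum over the rows: `rn_count_st`.
* LINEARITY (pigeonhole over levels and offsets): capped rows `rnCap n J i` are `LayArrE` (`rn_cap_arr`), they agree with `rnRow J i` on the valid blocks (`rn_cap_lin`); at level `k` the lattices of the offsets `off < 2S` use every row `i`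
  at most twice (`rn_lin_off`); `lay_dt_approx` for all `i` and `rn_pigeon`: `rn_count_lin`.
* `rn_count`: EXIT of the file.
LEAVES `L-256-RN-CT*`: every `sorry`.   Prove IN PLACE, statements frozen (false/awkward: one line to helper247), helper lemmas directly above your theorem, prefix `rn_`.
-/

set_option autoImplicit false

namespace Claimed.Agent.R256

open Finset
open Classical

/-! ## definitions -/

/-- the capped row: `H b a = J i (min a c) (min b c)`, `c = (n - i)/2` = the last valid width at depth `i` -/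
def rnCap (n : ℕ) (J : ℕ → ℕ → ℕ → ℝ) (i : ℕ) : ℕ → ℕ → ℝ :=
  fun b a => J i (min a ((n - i) / 2)) (min b ((n - i) / 2))

/-- the three stationarity conditions of `RnGood` -/
def RnSt (n off S S' K : ℕ) (χ : ℝ) (J : ℕ → ℕ → ℕ → ℝ) (P q : ℕ) : Prop :=
  J (rnI n off S (P + 1) + S) (q * S) (q * S + K * S) - J (rnI n off S (P + 1) + S + K * S) (q * S) (q * S + K * S) ≤ χ * S' ∧
  J (rnI n off S (P + 1)) (q * S) (q * S + K * S) - J (rnI n off S (P + 1) + K * S) (q * S) (q * S + K * S) ≤ χ * S' ∧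
  J (rnI n off S (P + 1)) (q * S) (q * S + S) - J (rnI n off S (P + 1) + S) (q * S) (q * S + S) ≤ χ * S'

/-- the two linearity conditions of `RnGood` -/
def RnLn (n off S S' r : ℕ) (η KL : ℝ) (J : ℕ → ℕ → ℕ → ℝ) (P q : ℕ) : Prop :=
  LayLin (rnRow J (rnI n off S (P + 1) + S)) KL η (q * S) S' r ∧ LayLin (rnRow J (rnI n off S (P + 1))) KL η (q * S) S' r

theorem rn_good_iff {n off S S' r K : ℕ} {χ η KL : ℝ} {J : ℕ → ℕ → ℕ → ℝ} {P q : ℕ} :
    RnGood n off S S' r K χ η KL J P q ↔ RnSt n off S S' K χ J P q ∧ RnLn n off S S' r η KL J P q :=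
  ⟨fun h => ⟨⟨h.st1, h.st2, h.st3⟩, h.lin1, h.lin2⟩, fun h => ⟨h.1.1, h.1.2.1, h.1.2.2, h.2.1, h.2.2⟩⟩

/-- a bad point is bad for the stationarity or for the linearity -/
theorem rn_bad_card (n off S S' r K P0 W e0 : ℕ) (χ η KL : ℝ) (J : ℕ → ℕ → ℕ → ℝ) :
    (rnBadSet P0 W e0 (RnGood n off S S' r K χ η KL J)).card
      ≤ (rnBadSet P0 W e0 (RnSt n off S S' K χ J)).card + (rnBadSet P0 W e0 (RnLn n off S S' r η KL J)).card := by
  refine le_trans (card_le_card ?_) (card_union_le _ _)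
  intro x hx
  unfold rnBadSet at hx ⊢
  rw [mem_filter] at hx
  rw [mem_union, mem_filter, mem_filter]
  by_cases h : RnSt n off S S' K χ J x.1 x.2
  · right
    exact ⟨hx.1, hx.2.1, fun h' => hx.2.2 (rn_good_iff.2 ⟨h, h'⟩)⟩
  · left
    exact ⟨hx.1, hx.2.1, h⟩

/-! ## 1. stationarity -/

/-- **LEAF L-256-RN-CT1** (~60 l.).  bounds of a row value.   Induction on `L`: `jDiag` at `(i, u)`, `jLo`, `jHi` at `q = u + l` (`RnVal n i (u + l + 1)` follows from `hv`). -/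
theorem rn_row_bd {n : ℕ} {pd e : ℝ} {D : ℕ → ℕ → ℝ} {J : ℕ → ℕ → ℕ → ℝ} (hA : RnArr n pd e D J) {i u L : ℕ}
    (hv : RnVal n i (u + L)) : -e - e * L ≤ J i u (u + L) ∧ J i u (u + L) ≤ e + (2 + e) * L := by
  induction L with
  | zero =>
    have h := abs_le.1 (hA.jDiag i u hv)
    simp only [Nat.add_zero, Nat.cast_zero, mul_zero, sub_zero, add_zero]
    exact ⟨h.1, h.2⟩
  | succ L ih =>
    have hv' : RnVal n i (u + L) := ⟨hv.1, by have := hv.2; omega⟩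
    obtain ⟨h1, h2⟩ := ih hv'
    have h3 := hA.jLo i u (u + L) hv (Nat.le_add_right _ _)
    have h4 := hA.jHi i u (u + L) hv (Nat.le_add_right _ _)
    have e1 : u + (L + 1) = u + L + 1 := rfl
    rw [e1]
    push_cast
    constructor <;> linarith

/-- **LEAF L-256-RN-CT1** (~60 l., Mathlib only).  telescoping: `∑_{t<T} (a t - a (t+k)) = ∑_{t<k} a t - ∑_{t<k} a (T+t)` (`Finset.sum_range_add`-type identities: both `∑_{t<T} a t + ∑_{t<k} a (T+t)` and `∑_{t<k} a t + ∑_{t<T} a (k+t)` are `∑_{t<T+k} a t`);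
every term `a t - a (t+k) + e` is `≥ 0`, the bad terms are `> c`. -/
theorem rn_tele (a : ℕ → ℝ) (T k : ℕ) (e c lo hi : ℝ) (hc : 0 ≤ c) (he : 0 ≤ e)
    (hmono : ∀ t, t < T → a (t + k) ≤ a t + e) (hb : ∀ t, t < T + k → lo ≤ a t ∧ a t ≤ hi) :
    (((range T).filter fun t => c < a t - a (t + k)).card : ℝ) * c ≤ k * (hi - lo) + T * e := by
  have hid : ∑ t ∈ range T, (a t - a (t + k)) = ∑ t ∈ range k, a t - ∑ t ∈ range k, a (T + t) := by
    have h1 := Finset.sum_range_add a T k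
    have h2 := Finset.sum_range_add a k T
    rw [Nat.add_comm k T] at h2
    have h3 : ∑ t ∈ range T, a (k + t) = ∑ t ∈ range T, a (t + k) :=
      sum_congr rfl fun t _ => by rw [Nat.add_comm]
    rw [sum_sub_distrib]
    linarith
  have hk : ∑ t ∈ range k, a t - ∑ t ∈ range k, a (T + t) ≤ k * (hi - lo) := by
    rw [← sum_sub_distrib]
    calc ∑ t ∈ range k, (a t - a (T + t)) ≤ ∑ _t ∈ range k, (hi - lo) := by
          refine sum_le_sum fun t ht => ?_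
          rw [mem_range] at ht
          have b1 := (hb t (by omega)).2
          have b2 := (hb (T + t) (by omega)).1
          linarith
      _ = k * (hi - lo) := by rw [sum_const, card_range, nsmul_eq_mul]
  have hall : ∑ t ∈ range T, (a t - a (t + k) + e) = ∑ t ∈ range T, (a t - a (t + k)) + T * e := by
    rw [sum_add_distrib, sum_const, card_range, nsmul_eq_mul]
  have hbad : (((range T).filter fun t => c < a t - a (t + k)).card : ℝ) * c
      ≤ ∑ t ∈ (range T).filter (fun t => c < a t - a (t + k)), (a t - a (t + k) + e) := by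
    rw [← nsmul_eq_mul]
    refine card_nsmul_le_sum _ _ _ fun t ht => ?_
    have := (mem_filter.1 ht).2
    linarith
  have hsub : ∑ t ∈ (range T).filter (fun t => c < a t - a (t + k)), (a t - a (t + k) + e)
      ≤ ∑ t ∈ range T, (a t - a (t + k) + e) := by
    refine sum_le_sum_of_subset_of_nonneg (filter_subset _ _) fun t ht _ => ?_
    have := hmono t (mem_range.1 ht)
    linarith
  linarith

/-- **LEAF L-256-RN-CT2** (~50 l.).  one row, one progression.   `rn_tele` for `a t = J (i0 + t S) u (u + L)`, `lo = -e - e L`, `hi = e + (2+e) L` (`rn_row_bd`), `hmono` from `jMono` (`i = i0 + t S ≤ i' = i0 + (t+k) S`, `q = u + L`). -/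
theorem rn_row_count {n : ℕ} {pd e : ℝ} {D : ℕ → ℕ → ℝ} {J : ℕ → ℕ → ℕ → ℝ} (hA : RnArr n pd e D J) (he : 0 ≤ e)
    (i0 S u L T k : ℕ) (c : ℝ) (hc : 0 ≤ c) (hi0 : 0 < i0) (hv : ∀ t, t < T + k → RnVal n (i0 + t * S) (u + L)) :
    (((range T).filter fun t => c < J (i0 + t * S) u (u + L) - J (i0 + (t + k) * S) u (u + L)).card : ℝ) * c
      ≤ k * ((2 + 2 * e) * L + 2 * e) + T * e := by
  have h := rn_tele (fun t => J (i0 + t * S) u (u + L)) T k e c (-e - e * L) (e + (2 + e) * L) hc he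
    (by
      intro t ht
      have h1 : t * S ≤ (t + k) * S := Nat.mul_le_mul_right _ (Nat.le_add_right _ _)
      exact hA.jMono (i0 + t * S) (i0 + (t + k) * S) u (u + L) (by omega) (hv (t + k) (by omega)) (by omega)
        (Nat.le_add_right _ _))
    (fun t ht => rn_row_bd hA (hv t ht))
  refine h.trans (le_of_eq ?_)
  ring

/-- the points of a row, read on the progression of step `S` -/
theorem rn_st_row_inj (P0 W Pm δ : ℕ) (hδ : δ ≤ 1) (A Bq : ℕ → Prop)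
    (h : ∀ P, Pm ≤ P → P < P0 + W → A P → Bq (2 * (P0 + W - 1 - P) + δ)) :
    ((Ico P0 (P0 + W)).filter fun P => Pm ≤ P ∧ A P).card ≤ ((range (2 * (P0 + W - Pm))).filter Bq).card := by
  refine card_le_card_of_injOn (fun P => 2 * (P0 + W - 1 - P) + δ) ?_ ?_
  · intro P hP
    have hP' : P ∈ (Ico P0 (P0 + W)).filter fun P => Pm ≤ P ∧ A P := hP
    rw [mem_filter, mem_Ico] at hP'
    obtain ⟨⟨h1, h2⟩, h3, h4⟩ := hP'
    have : 2 * (P0 + W - 1 - P) + δ ∈ (range (2 * (P0 + W - Pm))).filter Bq :=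
      mem_filter.2 ⟨mem_range.2 (by omega), h P h3 h2 h4⟩
    exact this
  · intro P hP P' hP' heq
    have hP1 : P ∈ (Ico P0 (P0 + W)).filter fun P => Pm ≤ P ∧ A P := hP
    have hP2 : P' ∈ (Ico P0 (P0 + W)).filter fun P => Pm ≤ P ∧ A P := hP'
    rw [mem_filter, mem_Ico] at hP1 hP2
    have heq' : 2 * (P0 + W - 1 - P) + δ = 2 * (P0 + W - 1 - P') + δ := heq
    omega

/-- the abscissae of a row -/
theorem rn_st_row_rnI {n off S P0 W P : ℕ} (hfit : off + 2 * S * (P0 + W + 1) < n) (hP : P < P0 + W) :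
    rnI n off S (P + 1) = rnI n off S (P0 + W) + 2 * (P0 + W - 1 - P) * S := by
  obtain ⟨d, hd⟩ : ∃ d, d = P0 + W - 1 - P := ⟨_, rfl⟩
  have e1 : P0 + W = P + 1 + d := by omega
  rw [← hd, e1]
  rw [e1] at hfit
  unfold rnI
  have e2 : 2 * S * (P + 1 + d) = 2 * S * (P + 1) + 2 * d * S := by ring
  have e3 : 2 * S * (P + 1 + d + 1) = 2 * S * (P + 1) + 2 * d * S + 2 * S := by ring
  omega

/-- **LEAF L-256-RN-CT3** (~200 l.).  the bad points of one row.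
Let `Pm = max P0 (q + e0)`.  If there is no `P` with `RnIn P0 W e0 P q` the set is empty.  Otherwise `RnIn P0 W e0 Pm q`, the points of the row are `Pm ≤ P < P0 + W`;   `i0 = rnI n off S (P0 + W) > 0`, `T = 2 (P0 + W - Pm) ≤ 2 W`,
`rnI n off S (P + 1) = i0 + t S` with `t = 2 (P0 + W - 1 - P) < T` (pure `ℕ`; `hfit`), `rnI (P+1) + S = i0 + (t + 1) S`.    Validity for `rn_row_count`: `i0 + t S ≤ rnI (Pm + 1) + S + K S` for `t < T + K`, resp. `≤ rnI Pm` for `t < T + 1`; `rn_in_dom` at `(Pm, q)`.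
`¬ st1` injects (`P ↦ t + 1`) into the bad set of `rn_row_count i0 S (qS) (KS) T K`, `¬ st2` (`P ↦ t`) into the same set, `¬ st3` (`P ↦ t`) into the bad set of `rn_row_count i0 S (qS) S T 1`.    `Finset.card_le_card_of_injOn`; `filter_or`/`card_union_le`; `1 ≤ K`. -/
theorem rn_st_row {n off S S' K P0 W e0 : ℕ} {pd e χ : ℝ} {D : ℕ → ℕ → ℝ} {J : ℕ → ℕ → ℕ → ℝ} (hA : RnArr n pd e D J)
    (hS : 0 < S) (he : 0 ≤ e) (hχ : 0 ≤ χ) (hK : 1 ≤ K) (hfit : off + 2 * S * (P0 + W + 1) < n) (he3 : 3 * K ≤ 2 * e0)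
    (he0 : 0 < e0) (h2 : 2 * e0 ≤ P0) (q : ℕ) :
    (((Ico P0 (P0 + W)).filter fun P => RnIn P0 W e0 P q ∧ ¬ RnSt n off S S' K χ J P q).card : ℝ) * (χ * S')
      ≤ 3 * (K * ((2 + 2 * e) * ((K * S : ℕ) : ℝ) + 2 * e) + 2 * W * e) := by
  obtain ⟨c, hc⟩ : ∃ c : ℝ, c = χ * S' := ⟨_, rfl⟩
  have hc0 : 0 ≤ c := by rw [hc]; positivity
  obtain ⟨R, hR⟩ : ∃ R : ℝ, R = K * ((2 + 2 * e) * ((K * S : ℕ) : ℝ) + 2 * e) + 2 * W * e := ⟨_, rfl⟩
  have hR0 : 0 ≤ R := by rw [hR]; positivity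
  rw [← hc, ← hR]
  by_cases hex : ∃ P1, RnIn P0 W e0 P1 q
  swap
  · have : ((Ico P0 (P0 + W)).filter fun P => RnIn P0 W e0 P q ∧ ¬ RnSt n off S S' K χ J P q) = ∅ := by
      rw [filter_eq_empty_iff]
      intro P _ hP
      exact hex ⟨P, hP.1⟩
    rw [this, card_empty]
    simp only [Nat.cast_zero, zero_mul]
    positivity
  obtain ⟨P1, g1, g2, g3, g4⟩ := hex
  obtain ⟨Pm, hPm⟩ : ∃ Pm, Pm = max P0 (q + e0) := ⟨_, rfl⟩
  have hPm1 : P0 ≤ Pm := by rw [hPm]; exact le_max_left _ _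
  have hPm2 : q + e0 ≤ Pm := by rw [hPm]; exact le_max_right _ _
  have hPm3 : Pm ≤ P1 := by rw [hPm]; exact max_le g1 g3
  have hInm : RnIn P0 W e0 Pm q := ⟨hPm1, by omega, hPm2, g4⟩
  obtain ⟨-, hdy, hxx, hvv⟩ := rn_in_dom (n := n) (off := off) (K := K) hS hfit he3 he0 h2 hInm
  obtain ⟨i0, hi0⟩ : ∃ i0, i0 = rnI n off S (P0 + W) := ⟨_, rfl⟩
  have hi0pos : 0 < i0 := by
    rw [hi0]
    unfold rnI
    have : 2 * S * (P0 + W + 1) = 2 * S * (P0 + W) + 2 * S := by ring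
    omega
  have hx : ∀ P, P < P0 + W → rnI n off S (P + 1) = i0 + 2 * (P0 + W - 1 - P) * S := by
    intro P hP
    rw [hi0]
    exact rn_st_row_rnI hfit hP
  obtain ⟨u, hu⟩ : ∃ u, u = q * S := ⟨_, rfl⟩
  obtain ⟨T, hT⟩ : ∃ T, T = 2 * (P0 + W - Pm) := ⟨_, rfl⟩
  have hTW : (T : ℝ) ≤ 2 * W := by
    have : T ≤ 2 * W := by omega
    exact_mod_cast this
  have hTe : (T : ℝ) * e ≤ 2 * W * e := mul_le_mul_of_nonneg_right hTW he
  have hxm := hx Pm (by omega)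
  have hTm : 2 * (P0 + W - 1 - Pm) + 2 = T := by omega
  obtain ⟨tm, htm⟩ : ∃ tm, tm = 2 * (P0 + W - 1 - Pm) := ⟨_, rfl⟩
  rw [← htm] at hxm hTm
  rw [hxm, ← hu] at hdy
  rw [← hxx, hxm, ← hu] at hvv
  -- validity
  have hv1 : ∀ t, t < T + K → RnVal n (i0 + t * S) (u + K * S) := by
    intro t ht
    have h1 : t * S ≤ (tm + 1 + K) * S := Nat.mul_le_mul_right _ (by omega)
    have h3 : (tm + 1 + K) * S = tm * S + S + K * S := by ring
    have h4 := hdy.2.2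
    exact ⟨by omega, by omega⟩
  have hv3 : ∀ t, t < T + 1 → RnVal n (i0 + t * S) (u + S) := by
    intro t ht
    have h1 : t * S ≤ (tm + 2) * S := Nat.mul_le_mul_right _ (by omega)
    have h3 : (tm + 2) * S = tm * S + S + S := by ring
    have h4 := hvv.2
    exact ⟨by omega, by omega⟩
  have hB1 := rn_row_count hA he i0 S u (K * S) T K c hc0 hi0pos hv1
  have hB3 := rn_row_count hA he i0 S u S T 1 c hc0 hi0pos hv3
  obtain ⟨Q1, hQ1⟩ : ∃ Q1 : ℕ → Prop, Q1 = fun t => c < J (i0 + t * S) u (u + K * S) - J (i0 + (t + K) * S) u (u + K * S) := ⟨_, rfl⟩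
  obtain ⟨Q3, hQ3⟩ : ∃ Q3 : ℕ → Prop, Q3 = fun t => c < J (i0 + t * S) u (u + S) - J (i0 + (t + 1) * S) u (u + S) := ⟨_, rfl⟩
  have hB1' : (((range T).filter Q1).card : ℝ) * c ≤ R := by
    subst hQ1
    refine le_trans (le_of_eq ?_) (hB1.trans (by rw [hR]; linarith))
    congr 2
  have hB3' : (((range T).filter Q3).card : ℝ) * c ≤ R := by
    subst hQ3
    refine le_trans (le_of_eq ?_) (hB3.trans ?_)
    · congr 2
    · rw [hR]
      have hKR : (1 : ℝ) ≤ K := by exact_mod_cast hK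
      have hSR : (0 : ℝ) ≤ S := Nat.cast_nonneg _
      have k1 : (S : ℝ) ≤ ((K * S : ℕ) : ℝ) := by
        push_cast
        exact le_mul_of_one_le_left hSR hKR
      have k2 : (2 + 2 * e) * (S : ℝ) + 2 * e ≤ (2 + 2 * e) * ((K * S : ℕ) : ℝ) + 2 * e := by
        have := mul_le_mul_of_nonneg_left k1 (by linarith : (0 : ℝ) ≤ 2 + 2 * e)
        linarith
      have k3 : (2 + 2 * e) * ((K * S : ℕ) : ℝ) + 2 * e ≤ K * ((2 + 2 * e) * ((K * S : ℕ) : ℝ) + 2 * e) :=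
        le_mul_of_one_le_left (by positivity) hKR
      push_cast at k2 k3 ⊢
      linarith
  -- the three conditions
  obtain ⟨A1, hA1⟩ : ∃ A1 : ℕ → Prop, A1 = fun P => ¬ (J (rnI n off S (P + 1) + S) u (u + K * S)
      - J (rnI n off S (P + 1) + S + K * S) u (u + K * S) ≤ c) := ⟨_, rfl⟩
  obtain ⟨A2, hA2⟩ : ∃ A2 : ℕ → Prop, A2 = fun P => ¬ (J (rnI n off S (P + 1)) u (u + K * S)
      - J (rnI n off S (P + 1) + K * S) u (u + K * S) ≤ c) := ⟨_, rfl⟩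
  obtain ⟨A3, hA3⟩ : ∃ A3 : ℕ → Prop, A3 = fun P => ¬ (J (rnI n off S (P + 1)) u (u + S)
      - J (rnI n off S (P + 1) + S) u (u + S) ≤ c) := ⟨_, rfl⟩
  have c1 := rn_st_row_inj P0 W Pm 1 le_rfl A1 Q1 (by
    intro P _ hP hh
    rw [hA1] at hh
    rw [hQ1]
    have hh' := not_le.1 hh
    rw [hx P hP] at hh'
    have e1 : i0 + 2 * (P0 + W - 1 - P) * S + S = i0 + (2 * (P0 + W - 1 - P) + 1) * S := by ring
    have e2 : i0 + 2 * (P0 + W - 1 - P) * S + S + K * S = i0 + (2 * (P0 + W - 1 - P) + 1 + K) * S := by ring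
    rw [e2, e1] at hh'
    exact hh')
  have c2 := rn_st_row_inj P0 W Pm 0 (Nat.zero_le _) A2 Q1 (by
    intro P _ hP hh
    rw [hA2] at hh
    rw [hQ1]
    have hh' := not_le.1 hh
    rw [hx P hP] at hh'
    have e2 : i0 + 2 * (P0 + W - 1 - P) * S + K * S = i0 + (2 * (P0 + W - 1 - P) + 0 + K) * S := by ring
    rw [e2] at hh'
    exact hh')
  have c3 := rn_st_row_inj P0 W Pm 0 (Nat.zero_le _) A3 Q3 (by
    intro P _ hP hh
    rw [hA3] at hh
    rw [hQ3]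
    have hh' := not_le.1 hh
    rw [hx P hP] at hh'
    have e2 : i0 + 2 * (P0 + W - 1 - P) * S + S = i0 + (2 * (P0 + W - 1 - P) + 0 + 1) * S := by ring
    rw [e2] at hh'
    exact hh')
  rw [← hT] at c1 c2 c3
  have hsub : ((Ico P0 (P0 + W)).filter fun P => RnIn P0 W e0 P q ∧ ¬ RnSt n off S S' K χ J P q)
      ⊆ (((Ico P0 (P0 + W)).filter fun P => Pm ≤ P ∧ A1 P) ∪ ((Ico P0 (P0 + W)).filter fun P => Pm ≤ P ∧ A2 P))
        ∪ ((Ico P0 (P0 + W)).filter fun P => Pm ≤ P ∧ A3 P) := by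
    intro P hP
    rw [mem_filter] at hP
    obtain ⟨h1, h3, h4⟩ := hP
    have hPmP : Pm ≤ P := by
      rw [hPm]
      exact max_le h3.1 h3.2.2.1
    by_cases a1 : A1 P
    · exact mem_union_left _ (mem_union_left _ (mem_filter.2 ⟨h1, hPmP, a1⟩))
    by_cases a2 : A2 P
    · exact mem_union_left _ (mem_union_right _ (mem_filter.2 ⟨h1, hPmP, a2⟩))
    refine mem_union_right _ (mem_filter.2 ⟨h1, hPmP, ?_⟩)
    rw [hA1] at a1
    rw [hA2] at a2
    rw [hA3]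
    intro a3
    apply h4
    unfold RnSt
    rw [← hu, ← hc]
    exact ⟨not_not.1 a1, not_not.1 a2, a3⟩
  have hcard : ((Ico P0 (P0 + W)).filter fun P => RnIn P0 W e0 P q ∧ ¬ RnSt n off S S' K χ J P q).card
      ≤ ((range T).filter Q1).card + ((range T).filter Q1).card + ((range T).filter Q3).card := by
    refine (card_le_card hsub).trans ((card_union_le _ _).trans ?_)
    exact Nat.add_le_add ((card_union_le _ _).trans (Nat.add_le_add c1 c2)) c3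
  have hcardR : (((Ico P0 (P0 + W)).filter fun P => RnIn P0 W e0 P q ∧ ¬ RnSt n off S S' K χ J P q).card : ℝ)
      ≤ (((range T).filter Q1).card : ℝ) + (((range T).filter Q1).card : ℝ) + (((range T).filter Q3).card : ℝ) := by
    exact_mod_cast hcard
  have := mul_le_mul_of_nonneg_right hcardR hc0
  linarith

/-- **LEAF L-256-RN-CT4** (~60 l.).  sum over the rows: `rnBadSet = ` disjoint union over `q < P0 + W` of the sets of `rn_st_row` (`Finset.card_eq_sum_card_fiberwise` for `x ↦ x.2`, as in `rn_bad_rows`; the fibre over `q` injects by `x ↦ x.1`). -/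
theorem rn_count_st {n off S S' K P0 W e0 : ℕ} {pd e χ : ℝ} {D : ℕ → ℕ → ℝ} {J : ℕ → ℕ → ℕ → ℝ} (hA : RnArr n pd e D J)
    (hS : 0 < S) (he : 0 ≤ e) (hχ : 0 ≤ χ) (hK : 1 ≤ K) (hfit : off + 2 * S * (P0 + W + 1) < n) (he3 : 3 * K ≤ 2 * e0)
    (he0 : 0 < e0) (h2 : 2 * e0 ≤ P0) :
    ((rnBadSet P0 W e0 (RnSt n off S S' K χ J)).card : ℝ) * (χ * S')
      ≤ ((P0 + W : ℕ) : ℝ) * (3 * (K * ((2 + 2 * e) * ((K * S : ℕ) : ℝ) + 2 * e) + 2 * W * e)) := by
  obtain ⟨R, hR⟩ : ∃ R : ℝ, R = 3 * (K * ((2 + 2 * e) * ((K * S : ℕ) : ℝ) + 2 * e) + 2 * W * e) := ⟨_, rfl⟩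
  rw [← hR]
  have hrow : ∀ q, (((Ico P0 (P0 + W)).filter fun P => RnIn P0 W e0 P q ∧ ¬ RnSt n off S S' K χ J P q).card : ℝ) * (χ * S') ≤ R := by
    intro q
    rw [hR]
    exact rn_st_row hA hS he hχ hK hfit he3 he0 h2 q
  have hmap : Set.MapsTo (fun x : ℕ × ℕ => x.2) (rnBadSet P0 W e0 (RnSt n off S S' K χ J) : Set (ℕ × ℕ))
      (range (P0 + W) : Set ℕ) := by
    intro x hx
    have hx' : x ∈ rnBadSet P0 W e0 (RnSt n off S S' K χ J) := hx
    unfold rnBadSet at hx'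
    rw [mem_filter, mem_product] at hx'
    exact hx'.1.2
  have h1 := card_eq_sum_card_fiberwise hmap
  have hfib : ∀ q, ((rnBadSet P0 W e0 (RnSt n off S S' K χ J)).filter fun x => x.2 = q).card
      ≤ ((Ico P0 (P0 + W)).filter fun P => RnIn P0 W e0 P q ∧ ¬ RnSt n off S S' K χ J P q).card := by
    intro q
    refine card_le_card_of_injOn (fun x => x.1) ?_ ?_
    · intro x hx
      have hx' : x ∈ (rnBadSet P0 W e0 (RnSt n off S S' K χ J)).filter fun x => x.2 = q := hx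
      unfold rnBadSet at hx'
      rw [mem_filter, mem_filter, mem_product] at hx'
      obtain ⟨⟨⟨a1, -⟩, a2⟩, a3⟩ := hx'
      rw [a3] at a2
      have : x.1 ∈ (Ico P0 (P0 + W)).filter fun P => RnIn P0 W e0 P q ∧ ¬ RnSt n off S S' K χ J P q :=
        mem_filter.2 ⟨a1, a2⟩
      exact this
    · intro x hx y hy hxy
      have hx' : x ∈ (rnBadSet P0 W e0 (RnSt n off S S' K χ J)).filter fun x => x.2 = q := hx
      have hy' : y ∈ (rnBadSet P0 W e0 (RnSt n off S S' K χ J)).filter fun x => x.2 = q := hy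
      have b1 := (mem_filter.1 hx').2
      have b2 := (mem_filter.1 hy').2
      exact Prod.ext hxy (b1.trans b2.symm)
  have hc0 : 0 ≤ χ * (S' : ℝ) := by positivity
  rw [h1]
  push_cast
  rw [sum_mul]
  calc ∑ q ∈ range (P0 + W), (((rnBadSet P0 W e0 (RnSt n off S S' K χ J)).filter fun x => x.2 = q).card : ℝ) * (χ * S')
      ≤ ∑ _q ∈ range (P0 + W), R := by
        refine sum_le_sum fun q _ => le_trans (mul_le_mul_of_nonneg_right ?_ hc0) (hrow q)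
        exact_mod_cast hfib q
    _ = ((P0 : ℝ) + W) * R := by
        rw [sum_const, card_range, nsmul_eq_mul]
        push_cast
        ring

/-! ## 2. linearity -/

/-- **LEAF L-256-RN-CT5** (~80 l.).  the capped rows are approximate score arrays.   `c = (n - i)/2`, `2 c + i ≤ n`, so `RnVal n i (min x c)`.   `lo`, `hi`: if `q + 1 ≤ c` this is `jLo`, `jHi`; if `c ≤ q` both values agree.   `incr`: `jIncr` at the four minima (`min` is monotone). -/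
theorem rn_cap_arr {n : ℕ} {pd e : ℝ} {D : ℕ → ℕ → ℝ} {J : ℕ → ℕ → ℕ → ℝ} (hA : RnArr n pd e D J) (he : 0 ≤ e) {i : ℕ}
    (hi : 0 < i) (hin : i ≤ n) : LayArrE n 2 e (rnCap n J i) := by
  obtain ⟨c, hc⟩ : ∃ c, c = (n - i) / 2 := ⟨_, rfl⟩
  have hc2 : 2 * c + i ≤ n := by omega
  have hval : ∀ x, RnVal n i (min x c) := fun x => ⟨hi, by have := min_le_right x c; omega⟩
  have hdef : ∀ b a, rnCap n J i b a = J i (min a c) (min b c) := fun b a => by rw [hc]; rfl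
  refine ⟨?_, ?_, ?_, ?_⟩
  · intro u _
    rw [hdef]
    exact hA.jDiag i _ (hval u)
  · intro u q huq _
    rw [hdef, hdef]
    by_cases h : q + 1 ≤ c
    · rw [min_eq_left h, min_eq_left (by omega : q ≤ c), min_eq_left (by omega : u ≤ c)]
      exact hA.jLo i u q ⟨hi, by omega⟩ huq
    · rw [min_eq_right (by omega : c ≤ q + 1), min_eq_right (by omega : c ≤ q), sub_self]
      linarith
  · intro u q huq _
    rw [hdef, hdef]
    by_cases h : q + 1 ≤ c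
    · rw [min_eq_left h, min_eq_left (by omega : q ≤ c), min_eq_left (by omega : u ≤ c)]
      exact hA.jHi i u q ⟨hi, by omega⟩ huq
    · rw [min_eq_right (by omega : c ≤ q + 1), min_eq_right (by omega : c ≤ q), sub_self]
      linarith
  · intro u u' a b h1 h2 h3 _
    rw [hdef, hdef, hdef, hdef]
    exact hA.jIncr i (min u c) (min u' c) (min a c) (min b c) (hval b) (min_le_min_right c h1) (min_le_min_right c h2)
      (min_le_min_right c h3)

/-- **LEAF L-256-RN-CT5** (~40 l.).  on a valid block the cap is invisible (`p + j S' ≤ p + r S' ≤ (n - i)/2`, `min_eq_left`). -/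
theorem rn_cap_lin {n i p S' r : ℕ} (J : ℕ → ℕ → ℕ → ℝ) (KL η : ℝ) (hv : 2 * (p + r * S') + i ≤ n) :
    LayLin (rnCap n J i) KL η p S' r ↔ LayLin (rnRow J i) KL η p S' r := by
  have key : ∀ j, j ≤ r → min (p + j * S') ((n - i) / 2) = p + j * S' := by
    intro j hj
    have := Nat.mul_le_mul_right S' hj
    exact min_eq_left (by omega)
  have heq : ∀ a b, a ≤ b → b ≤ r → rnCap n J i (p + b * S') (p + a * S') = rnRow J i (p + b * S') (p + a * S') := by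
    intro a b hab hb
    unfold rnCap rnRow
    rw [key a (hab.trans hb), key b hb]
  unfold LayLin
  constructor
  · rintro ⟨g, h0, h1, h2⟩
    refine ⟨g, h0, h1, fun a b hab hb => ?_⟩
    rw [← heq a b hab hb]
    exact h2 a b hab hb
  · rintro ⟨g, h0, h1, h2⟩
    refine ⟨g, h0, h1, fun a b hab hb => ?_⟩
    rw [heq a b hab hb]
    exact h2 a b hab hb

/-- the lattices of the offsets `off < 2 S` are disjoint: abstract form of the counting in `rn_lin_off` -/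
theorem rn_lin_off_aux (n S P0 W e0 δ : ℕ) (hfit : 2 * S + 2 * S * (P0 + W + 1) ≤ n) (T : ℕ → Finset ℕ) (Bd : ℕ → ℕ → Prop)
    (hT : ∀ off, off < 2 * S → ∀ P q, RnIn P0 W e0 P q → Bd (rnI n off S (P + 1) + δ) q →
      rnI n off S (P + 1) + δ ∈ Icc 1 n ∧ q ∈ T (rnI n off S (P + 1) + δ)) :
    ∑ off ∈ range (2 * S), (((Ico P0 (P0 + W)) ×ˢ (range (P0 + W))).filter fun x =>
        RnIn P0 W e0 x.1 x.2 ∧ Bd (rnI n off S (x.1 + 1) + δ) x.2).card
      ≤ ∑ i ∈ Icc 1 n, (T i).card := by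
  rw [← card_sigma, ← card_sigma]
  refine card_le_card_of_injOn (fun z => ⟨rnI n z.1 S (z.2.1 + 1) + δ, z.2.2⟩) ?_ ?_
  · rintro ⟨off, P, q⟩ hz
    have hz' : (⟨off, P, q⟩ : Σ _ : ℕ, ℕ × ℕ) ∈ (range (2 * S)).sigma fun off =>
        ((Ico P0 (P0 + W)) ×ˢ (range (P0 + W))).filter fun x =>
          RnIn P0 W e0 x.1 x.2 ∧ Bd (rnI n off S (x.1 + 1) + δ) x.2 := hz
    rw [mem_sigma, mem_range, mem_filter] at hz'
    obtain ⟨h1, -, h2, h3⟩ := hz'
    have h1 : off < 2 * S := h1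
    obtain ⟨h4, h5⟩ := hT off h1 P q h2 h3
    have : (⟨rnI n off S (P + 1) + δ, q⟩ : Σ _ : ℕ, ℕ) ∈ (Icc 1 n).sigma T := mem_sigma.2 ⟨h4, h5⟩
    exact this
  · rintro ⟨off, P, q⟩ hz ⟨off', P', q'⟩ hz' heq
    have hz1 : (⟨off, P, q⟩ : Σ _ : ℕ, ℕ × ℕ) ∈ (range (2 * S)).sigma fun off =>
        ((Ico P0 (P0 + W)) ×ˢ (range (P0 + W))).filter fun x =>
          RnIn P0 W e0 x.1 x.2 ∧ Bd (rnI n off S (x.1 + 1) + δ) x.2 := hz
    have hz2 : (⟨off', P', q'⟩ : Σ _ : ℕ, ℕ × ℕ) ∈ (range (2 * S)).sigma fun off =>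
        ((Ico P0 (P0 + W)) ×ˢ (range (P0 + W))).filter fun x =>
          RnIn P0 W e0 x.1 x.2 ∧ Bd (rnI n off S (x.1 + 1) + δ) x.2 := hz'
    rw [mem_sigma, mem_range, mem_filter] at hz1 hz2
    obtain ⟨h1, -, h2, -⟩ := hz1
    obtain ⟨h1', -, h2', -⟩ := hz2
    have h1 : off < 2 * S := h1
    have h1' : off' < 2 * S := h1'
    have h2 : RnIn P0 W e0 P q := h2
    have h2' : RnIn P0 W e0 P' q' := h2'
    have heq' : (⟨rnI n off S (P + 1) + δ, q⟩ : Σ _ : ℕ, ℕ) = ⟨rnI n off' S (P' + 1) + δ, q'⟩ := heq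
    rw [Sigma.mk.injEq] at heq'
    obtain ⟨e1, e2⟩ := heq'
    have e2' : q = q' := eq_of_heq e2
    have hP : P < P0 + W := h2.2.1
    have hP' : P' < P0 + W := h2'.2.1
    have b1 : 2 * S * (P + 1) ≤ 2 * S * (P0 + W + 1) := Nat.mul_le_mul_left _ (by omega)
    have b2 : 2 * S * (P' + 1) ≤ 2 * S * (P0 + W + 1) := Nat.mul_le_mul_left _ (by omega)
    unfold rnI at e1
    have e3 : off + 2 * S * (P + 1) = off' + 2 * S * (P' + 1) := by omega
    have hPP : P = P' := by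
      rcases lt_trichotomy P P' with h | h | h
      · exfalso
        have c1 : 2 * S * (P + 2) ≤ 2 * S * (P' + 1) := Nat.mul_le_mul_left _ (by omega)
        have c2 : 2 * S * (P + 2) = 2 * S * (P + 1) + 2 * S := by ring
        omega
      · exact h
      · exfalso
        have c1 : 2 * S * (P' + 2) ≤ 2 * S * (P + 1) := Nat.mul_le_mul_left _ (by omega)
        have c2 : 2 * S * (P' + 2) = 2 * S * (P' + 1) + 2 * S := by ring
        omega
    subst hPP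
    subst e2'
    have : off = off' := by omega
    subst this
    rfl

/-- **LEAF L-256-RN-CT6** (~200 l.).  one level, all offsets: every row `i` is used at most once by `lin1` and at most once by `lin2`.
`S = r^(N-k) = r * S'`, `n = S * r^k`.   `rnBadSet .. (RnLn ..) ⊆ A1 off ∪ A2 off` (`lin1`, resp. `lin2` fails).   `∑_off card (A2 off) = card (Finset.sigma ..)`; the map `(off, (P, q)) ↦ (i, q)`, `i = rnI n off S (P + 1)`, goes into `(Icc 1 n).sigma fun i => layBad (rnCap n J i) KL η r N k`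
(`q < P0 + W ≤ r^k`; `rn_cap_lin` with `2 (q S + S) + i ≤ n`, from `q + e0 ≤ P`, `0 < e0`) and is injective: `n - i = off + 2 S (P + 1)`, `off < 2 S` (`Nat.add_mul_mod_self_left`/`omega` after naming the products).   For `A1`: `i = rnI n off S (P + 1) + S`, `n - i = off + S + 2 S P`.
All subtractions are genuine: `off + 2 S (P0 + W + 1) < n` by `hB`. -/
theorem rn_lin_off {r N k P0 W e0 : ℕ} (η KL : ℝ) (J : ℕ → ℕ → ℕ → ℝ) (hr : 0 < r) (hk : k < N) (he0 : 0 < e0)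
    (hB : 2 * (P0 + W + 2) ≤ r ^ k) :
    ∑ off ∈ range (2 * r ^ (N - k)), (rnBadSet P0 W e0 (RnLn (r ^ N) off (r ^ (N - k)) (r ^ (N - k - 1)) r η KL J)).card
      ≤ 2 * ∑ i ∈ Icc 1 (r ^ N), (layBad (rnCap (r ^ N) J i) KL η r N k).card := by
  obtain ⟨n, hn⟩ : ∃ n, n = r ^ N := ⟨_, rfl⟩
  obtain ⟨S, hS⟩ : ∃ S, S = r ^ (N - k) := ⟨_, rfl⟩
  obtain ⟨S', hS'⟩ : ∃ S', S' = r ^ (N - k - 1) := ⟨_, rfl⟩
  have hSS : S = r * S' := by rw [hS, hS']; exact rn_glue_powN hk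
  have hnSB : n = S * r ^ k := by rw [hn, hS, ← pow_add, Nat.sub_add_cancel hk.le]
  have hfit : 2 * S + 2 * S * (P0 + W + 1) ≤ n := by
    have h1 : S * (2 * (P0 + W + 2)) ≤ S * r ^ k := Nat.mul_le_mul_left _ hB
    rw [← hnSB] at h1
    have h2 : S * (2 * (P0 + W + 2)) = 2 * S + 2 * S * (P0 + W + 1) := by ring
    omega
  have hmem : ∀ δ, δ ≤ S → ∀ off, off < 2 * S → ∀ P q, RnIn P0 W e0 P q →
      ¬ LayLin (rnRow J (rnI n off S (P + 1) + δ)) KL η (q * S) S' r →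
      rnI n off S (P + 1) + δ ∈ Icc 1 n ∧ q ∈ layBad (rnCap n J (rnI n off S (P + 1) + δ)) KL η r N k := by
    intro δ hδ off hoff P q hIn hbad
    obtain ⟨h1, h2, h3, h4⟩ := hIn
    have b1 : 2 * S * (P + 1) ≤ 2 * S * (P0 + W + 1) := Nat.mul_le_mul_left _ (by omega)
    have b2 : 2 * S * (P + 1) = 2 * (S * P) + 2 * S := by ring
    have b3 : (q + 1) * S ≤ P * S := Nat.mul_le_mul_right _ (by omega)
    have b4 : (q + 1) * S = q * S + S := by ring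
    have b5 : P * S = S * P := Nat.mul_comm _ _
    have hv : 2 * (q * S + r * S') + (rnI n off S (P + 1) + δ) ≤ n := by
      rw [← hSS]
      unfold rnI
      omega
    refine ⟨?_, ?_⟩
    · rw [mem_Icc]
      unfold rnI
      omega
    · unfold layBad
      rw [mem_filter, mem_range, ← hS, ← hS']
      refine ⟨by omega, ?_⟩
      rw [rn_cap_lin J KL η hv]
      exact hbad
  obtain ⟨Bd, hBd⟩ : ∃ Bd : ℕ → ℕ → Prop, Bd = fun i q => ¬ LayLin (rnRow J i) KL η (q * S) S' r := ⟨_, rfl⟩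
  have hBd' : ∀ i q, Bd i q ↔ ¬ LayLin (rnRow J i) KL η (q * S) S' r := fun i q => by rw [hBd]
  have hA1 := rn_lin_off_aux n S P0 W e0 S hfit (fun i => layBad (rnCap n J i) KL η r N k) Bd
    (fun off ho P q h1 h2 => hmem S le_rfl off ho P q h1 ((hBd' _ _).1 h2))
  have hA2 := rn_lin_off_aux n S P0 W e0 0 hfit (fun i => layBad (rnCap n J i) KL η r N k) Bd
    (fun off ho P q h1 h2 => hmem 0 (Nat.zero_le _) off ho P q h1 ((hBd' _ _).1 h2))
  rw [← hn, ← hS, ← hS']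
  refine le_trans ?_ (le_trans (Nat.add_le_add hA1 hA2) (le_of_eq (two_mul _).symm))
  rw [← sum_add_distrib]
  refine sum_le_sum fun off _ => ?_
  refine le_trans (card_le_card ?_) (card_union_le _ _)
  intro x hx
  unfold rnBadSet at hx
  rw [mem_filter] at hx
  by_cases h : LayLin (rnRow J (rnI n off S (x.1 + 1) + S)) KL η (x.2 * S) S' r
  · refine mem_union_right _ (mem_filter.2 ⟨hx.1, hx.2.1, (hBd' _ _).2 fun h' => hx.2.2 ⟨h, ?_⟩⟩)
    rw [Nat.add_zero] at h'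
    exact h'
  · exact mem_union_left _ (mem_filter.2 ⟨hx.1, hx.2.1, (hBd' _ _).2 h⟩)

/-- **LEAF L-256-RN-CT7** (~80 l., Mathlib only).  pigeonhole over levels and offsets.   By contradiction: if `C (r^k)² < c k off (N - k0)` for all `k, off`, then `r^(N-k) ∑_off c k off (N - k0) > r^(N-k) (2 r^(N-k)) C (r^k)² = 2 C (r^N)²` for each of the `N - k0` levels
(`r^(N-k) * r^k = r^N`: `pow_add`, `Nat.sub_add_cancel`); sum over `k` (`Finset.sum_lt_sum_of_nonempty`, `Nat.card_Ico`). -/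
theorem rn_pigeon (r N k0 : ℕ) (hr : 0 < r) (hk : k0 < N) (c : ℕ → ℕ → ℕ) (C : ℝ)
    (h : ∑ k ∈ Ico k0 N, (r : ℝ) ^ (N - k) * ∑ off ∈ range (2 * r ^ (N - k)), (c k off : ℝ) ≤ 2 * C * ((r : ℝ) ^ N) ^ 2) :
    ∃ k off, k0 ≤ k ∧ k < N ∧ off < 2 * r ^ (N - k) ∧ (c k off : ℝ) * ((N : ℝ) - k0) ≤ C * ((r : ℝ) ^ k) ^ 2 := by
  by_contra hcon
  push Not at hcon
  have hr0 : (0 : ℝ) < r := by exact_mod_cast hr
  have hm : (0 : ℝ) < (N : ℝ) - k0 := by
    have : (k0 : ℝ) < N := by exact_mod_cast hk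
    linarith
  have key : ∀ k ∈ Ico k0 N, 2 * C * ((r : ℝ) ^ N) ^ 2 / ((N : ℝ) - k0)
      < (r : ℝ) ^ (N - k) * ∑ off ∈ range (2 * r ^ (N - k)), (c k off : ℝ) := by
    intro k hkI
    rw [mem_Ico] at hkI
    have hne : (range (2 * r ^ (N - k))).Nonempty := by
      rw [nonempty_range_iff]
      have : 0 < r ^ (N - k) := pow_pos hr _
      omega
    have h1 : ∑ _off ∈ range (2 * r ^ (N - k)), C * ((r : ℝ) ^ k) ^ 2 / ((N : ℝ) - k0)
        < ∑ off ∈ range (2 * r ^ (N - k)), (c k off : ℝ) := by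
      refine sum_lt_sum_of_nonempty hne fun off hoff => ?_
      rw [div_lt_iff₀ hm]
      exact hcon k off hkI.1 hkI.2 (mem_range.1 hoff)
    rw [sum_const, card_range, nsmul_eq_mul] at h1
    have hp : (0 : ℝ) < (r : ℝ) ^ (N - k) := by positivity
    have h2 := mul_lt_mul_of_pos_left h1 hp
    have e : (r : ℝ) ^ N = (r : ℝ) ^ (N - k) * (r : ℝ) ^ k := by
      rw [← pow_add, Nat.sub_add_cancel hkI.2.le]
    refine lt_of_eq_of_lt ?_ h2
    rw [e]
    push_cast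
    ring
  have hne : (Ico k0 N).Nonempty := nonempty_Ico.2 hk
  have h3 := sum_lt_sum_of_nonempty hne key
  rw [sum_const, Nat.card_Ico, nsmul_eq_mul, Nat.cast_sub hk.le] at h3
  have e : ((N : ℝ) - k0) * (2 * C * ((r : ℝ) ^ N) ^ 2 / ((N : ℝ) - k0)) = 2 * C * ((r : ℝ) ^ N) ^ 2 := by
    field_simp
  rw [e] at h3
  linarith

/-- **LEAF L-256-RN-CT8** (~120 l.).  the linearity count.   `H i = rnCap (r^N) J i`, `KL = 2 + e + e n`, `ηL = η0 + e + e n`.   `lay_dt_approx r N _ hη0 _ he (rn_cap_arr ..)` for `i ∈ Icc 1 n`, sum over `i` (`n` terms): `∑_i ∑_{k<N} card (layBad (H i) KL ηL r N k) r^(N-k) ≤ C_L n²`.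
`Finset.sum_comm`; restrict `range N` to `Ico k0 N` (nonnegative terms); `rn_lin_off` (cast to `ℝ`) at each level;  `rn_pigeon` with `c k off = card (rnBadSet ..)`, `C = C_L`. -/
theorem rn_count_lin {r N k0 : ℕ} {pd e η0 : ℝ} {D : ℕ → ℕ → ℝ} {J : ℕ → ℕ → ℕ → ℝ} (hA : RnArr (r ^ N) pd e D J)
    (hr : 0 < r) (hk : k0 < N) (he : 0 ≤ e) (hη0 : 0 < η0) (Wf e0f : ℕ → ℕ)
    (hW : ∀ k, k0 ≤ k → k < N → 0 < e0f k ∧ 2 * (Wf k + Wf k + 2) ≤ r ^ k) :
    ∃ k off, k0 ≤ k ∧ k < N ∧ off < 2 * r ^ (N - k) ∧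
      ((rnBadSet (Wf k) (Wf k) (e0f k) (RnLn (r ^ N) off (r ^ (N - k)) (r ^ (N - k - 1)) r
          (η0 + e + e * (r ^ N : ℕ)) (2 + e + e * (r ^ N : ℕ)) J)).card : ℝ) * ((N : ℝ) - k0)
        ≤ (2 * (2 + e + e * (r ^ N : ℕ)) / η0 + 12 * (2 + e + e * (r ^ N : ℕ)) ^ 2 / η0 ^ 2) * ((r : ℝ) ^ k) ^ 2 := by
  obtain ⟨KL, hKL⟩ : ∃ KL : ℝ, KL = 2 + e + e * (r ^ N : ℕ) := ⟨_, rfl⟩
  obtain ⟨ηL, hηL⟩ : ∃ ηL : ℝ, ηL = η0 + e + e * (r ^ N : ℕ) := ⟨_, rfl⟩
  obtain ⟨CL, hCL⟩ : ∃ CL : ℝ, CL = 2 * KL / η0 + 12 * KL ^ 2 / η0 ^ 2 := ⟨_, rfl⟩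
  rw [← hKL, ← hηL, ← hCL]
  have hrR : (0 : ℝ) < r := by exact_mod_cast hr
  have hdt : ∀ i ∈ Icc 1 (r ^ N), ∑ k ∈ range N, ((layBad (rnCap (r ^ N) J i) KL ηL r N k).card : ℝ) * (r : ℝ) ^ (N - k)
      ≤ CL * (r : ℝ) ^ N := by
    intro i hi
    rw [mem_Icc] at hi
    have := lay_dt_approx r N hr hη0 (by norm_num : (0 : ℝ) ≤ 2) he (rn_cap_arr hA he (by omega : 0 < i) hi.2)
    rw [← hKL, ← hηL, ← hCL] at this
    exact this
  refine rn_pigeon r N k0 hr hk (fun k off => (rnBadSet (Wf k) (Wf k) (e0f k)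
    (RnLn (r ^ N) off (r ^ (N - k)) (r ^ (N - k - 1)) r ηL KL J)).card) CL ?_
  have hA1 : ∀ k ∈ Ico k0 N, (r : ℝ) ^ (N - k) * ∑ off ∈ range (2 * r ^ (N - k)), (((rnBadSet (Wf k) (Wf k) (e0f k)
      (RnLn (r ^ N) off (r ^ (N - k)) (r ^ (N - k - 1)) r ηL KL J)).card : ℕ) : ℝ)
      ≤ 2 * ∑ i ∈ Icc 1 (r ^ N), ((layBad (rnCap (r ^ N) J i) KL ηL r N k).card : ℝ) * (r : ℝ) ^ (N - k) := by
    intro k hk'
    rw [mem_Ico] at hk'
    obtain ⟨w1, w2⟩ := hW k hk'.1 hk'.2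
    have h1 := rn_lin_off (P0 := Wf k) (W := Wf k) (e0 := e0f k) ηL KL J hr hk'.2 w1 w2
    have h2 : ∑ off ∈ range (2 * r ^ (N - k)), (((rnBadSet (Wf k) (Wf k) (e0f k)
        (RnLn (r ^ N) off (r ^ (N - k)) (r ^ (N - k - 1)) r ηL KL J)).card : ℕ) : ℝ)
        ≤ 2 * ∑ i ∈ Icc 1 (r ^ N), ((layBad (rnCap (r ^ N) J i) KL ηL r N k).card : ℝ) := by
      exact_mod_cast h1
    have h3 := mul_le_mul_of_nonneg_left h2 (by positivity : (0 : ℝ) ≤ (r : ℝ) ^ (N - k))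
    refine h3.trans (le_of_eq ?_)
    rw [← sum_mul]
    ring
  refine (sum_le_sum hA1).trans ?_
  rw [← mul_sum, sum_comm]
  have hA2 : ∀ i ∈ Icc 1 (r ^ N), ∑ k ∈ Ico k0 N, ((layBad (rnCap (r ^ N) J i) KL ηL r N k).card : ℝ) * (r : ℝ) ^ (N - k)
      ≤ CL * (r : ℝ) ^ N := by
    intro i hi
    refine le_trans ?_ (hdt i hi)
    refine sum_le_sum_of_subset_of_nonneg ?_ fun k _ _ => by positivity
    intro k hk'
    rw [mem_Ico] at hk'
    exact mem_range.2 hk'.2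
  have hA3 := sum_le_sum hA2
  rw [sum_const, Nat.card_Icc, nsmul_eq_mul] at hA3
  have e1 : ((r ^ N + 1 - 1 : ℕ) : ℝ) = (r : ℝ) ^ N := by
    rw [Nat.add_sub_cancel]
    push_cast
    ring
  rw [e1] at hA3
  have e2 : 2 * CL * ((r : ℝ) ^ N) ^ 2 = 2 * ((r : ℝ) ^ N * (CL * (r : ℝ) ^ N)) := by ring
  rw [e2]
  linarith

/-! ## 3. exit -/

/-- **LEAF L-256-RN-CT9** (~60 l., real arithmetic).  the stationarity bound in closed form: `e ≤ 1/2`, `W e ≤ 1`, `S = r S'`, `1 ≤ K, S'`:   `2W * 3 (K (3 K S + 1) + 2) ≤ 36 K² W r S'`; divide by `χ S'`; `72 K² r ≤ χ θ W`. -/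
theorem rn_count_st_num {S S' r K W : ℕ} {e χ θ c : ℝ} (hS : S = r * S') (hS' : 0 < S') (hr : 0 < r) (hK : 1 ≤ K) (he : 0 ≤ e)
    (he2 : e ≤ 1 / 2) (hWe : W * e ≤ 1) (hχ : 0 < χ) (hθ : 0 < θ) (hW : 72 * (K : ℝ) ^ 2 * r ≤ χ * θ * W)
    (h : c * (χ * S') ≤ ((W + W : ℕ) : ℝ) * (3 * (K * ((2 + 2 * e) * ((K * S : ℕ) : ℝ) + 2 * e) + 2 * W * e))) :
    c ≤ θ * (W : ℝ) ^ 2 / 2 := by
  have hKR : (1 : ℝ) ≤ K := by exact_mod_cast hK
  have hS'R : (1 : ℝ) ≤ S' := by exact_mod_cast hS'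
  have hrR : (1 : ℝ) ≤ r := by exact_mod_cast hr
  have hWR : (0 : ℝ) ≤ W := Nat.cast_nonneg _
  have hSR : (S : ℝ) = r * S' := by rw [hS]; push_cast; ring
  have hS1 : (1 : ℝ) ≤ S := by rw [hSR]; exact one_le_mul_of_one_le_of_one_le hrR hS'R
  obtain ⟨X, hX⟩ : ∃ X : ℝ, X = (K : ℝ) ^ 2 * S := ⟨_, rfl⟩
  have hKK : (K : ℝ) ≤ (K : ℝ) ^ 2 := by rw [sq]; exact le_mul_of_one_le_left (by linarith) hKR
  have a1 : (K : ℝ) ≤ X := by
    rw [hX]
    exact hKK.trans (le_mul_of_one_le_right (by positivity) hS1)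
  have a2 : (1 : ℝ) ≤ X := hKR.trans a1
  have hKS : ((K * S : ℕ) : ℝ) = K * S := by push_cast; ring
  have b1 : (2 + 2 * e) * ((K * S : ℕ) : ℝ) + 2 * e ≤ 3 * ((K : ℝ) * S) + 1 := by
    rw [hKS]
    have : (2 + 2 * e) * ((K : ℝ) * S) ≤ 3 * ((K : ℝ) * S) := mul_le_mul_of_nonneg_right (by linarith) (by positivity)
    linarith
  have b2 : (K : ℝ) * ((2 + 2 * e) * ((K * S : ℕ) : ℝ) + 2 * e) ≤ 3 * X + K := by
    have := mul_le_mul_of_nonneg_left b1 (by linarith : (0 : ℝ) ≤ K)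
    rw [hX]
    linarith
  have b3 : 3 * ((K : ℝ) * ((2 + 2 * e) * ((K * S : ℕ) : ℝ) + 2 * e) + 2 * W * e) ≤ 18 * X := by linarith
  have b4 : c * (χ * S') ≤ (2 * W) * (18 * X) := by
    refine h.trans ?_
    push_cast
    have := mul_le_mul_of_nonneg_left b3 (by linarith : (0 : ℝ) ≤ (W : ℝ) + W)
    push_cast at this
    linarith
  have b5 : c * χ * S' ≤ (36 * W * (K : ℝ) ^ 2 * r) * S' := by
    rw [hX, hSR] at b4
    linarith
  have b6 : c * χ ≤ 36 * W * (K : ℝ) ^ 2 * r := le_of_mul_le_mul_right b5 (by linarith)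
  have b7 : 72 * (K : ℝ) ^ 2 * r * W ≤ χ * θ * W * W := mul_le_mul_of_nonneg_right hW hWR
  have b8 : c * χ ≤ (θ * (W : ℝ) ^ 2 / 2) * χ := by
    have : (θ * (W : ℝ) ^ 2 / 2) * χ = χ * θ * W * W / 2 := by ring
    rw [this]
    linarith
  exact le_of_mul_le_mul_right b8 hχ

/-- **LEAF L-256-RN-CT9** (~50 l., real arithmetic).  the linearity bound in closed form: `KL ≤ 3`, `B ≤ 16 W`. -/
theorem rn_count_lin_num {W : ℕ} {KL η0 θ c M B : ℝ} (hKL0 : 0 ≤ KL) (hKL : KL ≤ 3) (hη0 : 0 < η0) (hθ : 0 < θ) (hM : 0 < M) (hB0 : 0 ≤ B) (hB : B ≤ 16 * W)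
    (hN : 512 * (6 / η0 + 108 / η0 ^ 2) ≤ θ * M) (h : c * M ≤ (2 * KL / η0 + 12 * KL ^ 2 / η0 ^ 2) * B ^ 2) :
    c ≤ θ * (W : ℝ) ^ 2 / 2 := by
  have hWR : (0 : ℝ) ≤ W := Nat.cast_nonneg _
  have a1 : 2 * KL / η0 ≤ 6 / η0 := div_le_div_of_nonneg_right (by linarith) hη0.le
  have a2 : KL ^ 2 ≤ 9 := by
    have := pow_le_pow_left₀ hKL0 hKL 2
    linarith
  have a3 : 12 * KL ^ 2 / η0 ^ 2 ≤ 108 / η0 ^ 2 := div_le_div_of_nonneg_right (by linarith) (by positivity)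
  have a4 : B ^ 2 ≤ 256 * (W : ℝ) ^ 2 := by
    have := pow_le_pow_left₀ hB0 hB 2
    have e1 : (16 * (W : ℝ)) ^ 2 = 256 * (W : ℝ) ^ 2 := by ring
    linarith
  obtain ⟨C', hC'⟩ : ∃ C' : ℝ, C' = 6 / η0 + 108 / η0 ^ 2 := ⟨_, rfl⟩
  have hC'0 : 0 ≤ C' := by rw [hC']; positivity
  rw [← hC'] at hN
  have a5 : (2 * KL / η0 + 12 * KL ^ 2 / η0 ^ 2) * B ^ 2 ≤ C' * (256 * (W : ℝ) ^ 2) := by
    refine mul_le_mul (by rw [hC']; linarith) a4 (by positivity) hC'0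
  have a6 : 512 * C' * (W : ℝ) ^ 2 ≤ θ * M * (W : ℝ) ^ 2 := mul_le_mul_of_nonneg_right hN (by positivity)
  have a7 : c * M ≤ (θ * (W : ℝ) ^ 2 / 2) * M := by
    have : (θ * (W : ℝ) ^ 2 / 2) * M = θ * M * (W : ℝ) ^ 2 / 2 := by ring
    rw [this]
    linarith
  exact le_of_mul_le_mul_right a7 hM

/-- **EXIT: some level and some offset have few bad points.** -/
theorem rn_count {r N k0 K : ℕ} {pd e χ η0 θ : ℝ} {D : ℕ → ℕ → ℝ} {J : ℕ → ℕ → ℕ → ℝ} (hA : RnArr (r ^ N) pd e D J)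
    (hr : 0 < r) (hK : 1 ≤ K) (hk : k0 < N) (he : 0 ≤ e) (hen : e * ((r ^ N : ℕ) + 1) ≤ 1 / 2) (hχ : 0 < χ) (hη0 : 0 < η0) (hθ : 0 < θ)
    (Wf e0f : ℕ → ℕ)
    (hW : ∀ k, k0 ≤ k → k < N → 4 * Wf k + 4 ≤ r ^ k ∧ r ^ k ≤ 16 * Wf k ∧ 3 * K ≤ 2 * e0f k ∧ 0 < e0f k ∧ 2 * e0f k ≤ Wf k ∧
      72 * (K : ℝ) ^ 2 * r ≤ χ * θ * Wf k)
    (hN : 512 * (6 / η0 + 108 / η0 ^ 2) ≤ θ * ((N : ℝ) - k0)) :
    ∃ k off, k0 ≤ k ∧ k < N ∧ off < 2 * r ^ (N - k) ∧
      ((rnBadSet (Wf k) (Wf k) (e0f k) (RnGood (r ^ N) off (r ^ (N - k)) (r ^ (N - k - 1)) r K χ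
          (η0 + e + e * (r ^ N : ℕ)) (2 + e + e * (r ^ N : ℕ)) J)).card : ℝ) ≤ θ * (Wf k : ℝ) ^ 2 := by
  obtain ⟨k, off, hk0, hkN, hoff, hlin⟩ := rn_count_lin hA hr hk he hη0 Wf e0f (fun k h1 h2 => by
    obtain ⟨a1, -, -, a4, -, -⟩ := hW k h1 h2
    exact ⟨a4, by omega⟩)
  refine ⟨k, off, hk0, hkN, hoff, ?_⟩
  obtain ⟨a1, a2, a3, a4, a5, a6⟩ := hW k hk0 hkN
  have hn0 : (0 : ℝ) ≤ ((r ^ N : ℕ) : ℝ) := Nat.cast_nonneg _
  have hen' : e + e * ((r ^ N : ℕ) : ℝ) ≤ 1 / 2 := by linarith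
  have hen0 : 0 ≤ e * ((r ^ N : ℕ) : ℝ) := mul_nonneg he hn0
  have hSS : r ^ (N - k) = r * r ^ (N - k - 1) := rn_glue_powN hkN
  have hS' : 0 < r ^ (N - k - 1) := Nat.pow_pos hr
  have hS : 0 < r ^ (N - k) := Nat.pow_pos hr
  have hnSB : r ^ N = r ^ (N - k) * r ^ k := by rw [← pow_add, Nat.sub_add_cancel hkN.le]
  have hfit : off + 2 * r ^ (N - k) * (Wf k + Wf k + 1) < r ^ N := by
    have h1 : r ^ (N - k) * (4 * Wf k + 4) ≤ r ^ (N - k) * r ^ k := Nat.mul_le_mul_left _ a1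
    rw [← hnSB] at h1
    have h2 : r ^ (N - k) * (4 * Wf k + 4) = 2 * r ^ (N - k) + 2 * r ^ (N - k) * (Wf k + Wf k + 1) := by ring
    omega
  have hst := rn_count_st (S' := r ^ (N - k - 1)) (K := K) (χ := χ) hA hS he hχ.le hK hfit a3 a4 a5
  have hWn : (Wf k : ℝ) ≤ ((r ^ N : ℕ) : ℝ) := by
    have h1 : r ^ k ≤ r ^ N := Nat.pow_le_pow_right hr hkN.le
    exact_mod_cast (by omega : Wf k ≤ r ^ N)
  have c1 := rn_count_st_num (θ := θ) hSS hS' hr hK he (by linarith) (by nlinarith) hχ hθ a6 hst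
  have hM : (0 : ℝ) < (N : ℝ) - k0 := by
    have : (k0 : ℝ) < N := by exact_mod_cast hk
    linarith
  have c2 := rn_count_lin_num (W := Wf k) (θ := θ) (by linarith) (by linarith) hη0 hθ hM (by positivity)
    (by exact_mod_cast a2) hN hlin
  have c3 := rn_bad_card (r ^ N) off (r ^ (N - k)) (r ^ (N - k - 1)) r K (Wf k) (Wf k) (e0f k) χ
    (η0 + e + e * (r ^ N : ℕ)) (2 + e + e * (r ^ N : ℕ)) J
  have c4 : ((rnBadSet (Wf k) (Wf k) (e0f k) (RnGood (r ^ N) off (r ^ (N - k)) (r ^ (N - k - 1)) r K χ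
      (η0 + e + e * (r ^ N : ℕ)) (2 + e + e * (r ^ N : ℕ)) J)).card : ℝ)
      ≤ ((rnBadSet (Wf k) (Wf k) (e0f k) (RnSt (r ^ N) off (r ^ (N - k)) (r ^ (N - k - 1)) K χ J)).card : ℝ)
        + ((rnBadSet (Wf k) (Wf k) (e0f k) (RnLn (r ^ N) off (r ^ (N - k)) (r ^ (N - k - 1)) r
          (η0 + e + e * (r ^ N : ℕ)) (2 + e + e * (r ^ N : ℕ)) J)).card : ℝ) := by
    exact_mod_cast c3
  linarith

theorem rn_count_eqns_cite : True := by
  have := @rnCap.eq_1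
  have := @RnSt.eq_1
  have := @RnLn.eq_1
  trivial

end Claimed.Agent.R256
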