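import Claimed.Agent.R256.Rnd.Count

/-!
# Row 256, unit RND (08B), file 6: THE END OF THE FINITE CHAIN      (deputy architect helper247; chief helper38)

`rn_end'` = the statement of `rn_end` (`Rnd/Contract.lean`), proved from `rn_count` (`Rnd/Count.lean`), `rn_desc`, `rn_start`, `rn_endpt` (`Rnd/Step.lean`), `rn_chain` (`Rnd/Chain.lean`) and the numeric leaf `rn_end_num`.
CONSTANTS.  `χ' = min χ (Γ/40)`, `η = min (Γ/40) (χ'/(2r))`, `η0 = η/2`, `θ = Γ²/4000`, `κ = Γ/40`;   level `k`: `B = r^k`, `P0 = W = B/8`, `e0 = ⌊Γ W/32⌋₊`, `ℓ = ⌊Γ W/40⌋₊`, `β = θ W²`;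
`k0` with `2^k0 ≥ 16 (W0 + 1)`, `W0 = max (96 K/Γ) (72 K² r/(χ' θ))`;   `N = k0 + ⌈512 (6/η0 + 108/η0²)/θ⌉₊ + 1`;   `e = min (η/2) (χ'/4) / (r^N + 1)`.
-/

set_option autoImplicit false

namespace Claimed.Agent.R256

open Finset

/-- (round-out) is monotone in `χ` -/
theorem rn_out_chi_mono {r N k0 K : ℕ} {d ξ χ χ' : ℝ} {D : ℕ → ℕ → ℝ} {J : ℕ → ℕ → ℕ → ℝ} (h : RnOUT r N k0 K d ξ χ D J)
    (hχ : χ' ≤ χ) : RnOUT r N k0 K d ξ χ' D J := by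
  intro k hk0 hkN i j hdom m hm0 hm2 hst hlin
  have hS : (0 : ℝ) ≤ (r : ℝ) ^ (N - k - 1) := by positivity
  refine h k hk0 hkN i j hdom m hm0 hm2 (hst.trans (mul_le_mul_of_nonneg_right hχ hS))
    (fun l l' hl hl' => le_trans ?_ (hlin l l' hl hl'))
  exact mul_le_mul_of_nonneg_right (by linarith) hS

theorem rn_rv1_of {r N k0 K k : ℕ} {d ε : ℝ} {D : ℕ → ℕ → ℝ} {J : ℕ → ℕ → ℕ → ℝ} (h : RnRV r N k0 K d ε D J) (hk0 : k0 ≤ k)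
    (hkN : k < N) : RnRV1 (r ^ N) K (r ^ (N - k)) d ε D J := by
  intro i j hdom
  have := h k hk0 hkN i j hdom
  push_cast
  exact this

theorem rn_out1_of {r N k0 K k : ℕ} {d ξ χ : ℝ} {D : ℕ → ℕ → ℝ} {J : ℕ → ℕ → ℕ → ℝ} (h : RnOUT r N k0 K d ξ χ D J) (hk0 : k0 ≤ k)
    (hkN : k < N) : RnOUT1 (r ^ N) K (r ^ (N - k)) (r ^ (N - k - 1)) r d ξ χ D J := by
  intro i j hdom m hm0 hm2 hst hlin
  have := h k hk0 hkN i j hdom m hm0 hm2 (by push_cast at hst; exact hst) (fun l l' hl hl' => by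
    have := hlin l l' hl hl'
    push_cast at this
    exact this)
  push_cast
  exact this

/-- **LEAF L-256-RN-EN1** (~60 l.).  the floors.   `x = Γ W ≥ 96 K ≥ 96`;  `x/32 - 1 < e0 ≤ x/32` (`Nat.floor_le`, `Nat.lt_floor_add_one`), so `x/64 ≤ e0`, `3K/2 ≤ x/64`, `2 e0 ≤ x/16 ≤ W`. -/
theorem rn_end_floor {Γ : ℝ} {K W : ℕ} (hΓ : 0 < Γ) (hΓ1 : Γ ≤ 1) (hK : 1 ≤ K) (hW : 96 * (K : ℝ) ≤ Γ * W) :
    3 * K ≤ 2 * ⌊Γ * W / 32⌋₊ ∧ 0 < ⌊Γ * W / 32⌋₊ ∧ 2 * ⌊Γ * W / 32⌋₊ ≤ W ∧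
      Γ * W / 64 ≤ (⌊Γ * W / 32⌋₊ : ℝ) ∧ (⌊Γ * W / 32⌋₊ : ℝ) ≤ Γ * W / 32 ∧
      (⌊Γ * W / 40⌋₊ : ℝ) ≤ Γ * W / 40 ∧ Γ * W / 40 < (⌊Γ * W / 40⌋₊ : ℝ) + 1 := by
  obtain ⟨x, hx⟩ : ∃ x : ℝ, x = Γ * W := ⟨_, rfl⟩
  rw [← hx] at hW ⊢
  have hKR : (1 : ℝ) ≤ K := by exact_mod_cast hK
  have hWR : (0 : ℝ) ≤ W := Nat.cast_nonneg _
  have hx96 : 96 ≤ x := by linarith
  have hxW : x ≤ W := by
    rw [hx]
    exact mul_le_of_le_one_left hWR hΓ1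
  have f1 := Nat.floor_le (by linarith : 0 ≤ x / 32)
  have f2 := Nat.lt_floor_add_one (x / 32)
  have f3 := Nat.floor_le (by linarith : 0 ≤ x / 40)
  have f4 := Nat.lt_floor_add_one (x / 40)
  have g1 : x / 64 ≤ (⌊x / 32⌋₊ : ℝ) := by linarith
  refine ⟨?_, ?_, ?_, g1, f1, f3, f4⟩
  · have : (3 : ℝ) * K ≤ 2 * (⌊x / 32⌋₊ : ℝ) := by linarith
    exact_mod_cast this
  · have : (0 : ℝ) < (⌊x / 32⌋₊ : ℝ) := by linarith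
    exact_mod_cast this
  · have : (2 : ℝ) * (⌊x / 32⌋₊ : ℝ) ≤ W := by linarith
    exact_mod_cast this

/-- **LEAF L-256-RN-EN2** (~80 l., real arithmetic).  the numerology of `rn_chain`.   `x = Γ W ≥ 96`:  `β/e0 ≤ (x²/4000)/(x/64) = 0.016 x`, `β/(l+1) ≤ (x²/4000)/(x/40) = 0.01 x`, `l ≤ 0.025 x`;  `3ΓS + 10S + 2e ≤ 14 S`;  `4 (2 e0 + 1) S + 4 + 4 e ≤ (x/4 + 10) S`;
total `≤ (0.964 x + 10) S < 3 x S`. -/
theorem rn_end_num {Γ e W S e0 l : ℝ} (hΓ : 0 < Γ) (hΓ1 : Γ ≤ 1) (hS : 1 ≤ S) (he : 0 ≤ e) (he2 : e ≤ 1 / 2) (hW : 96 ≤ Γ * W)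
    (h1 : Γ * W / 64 ≤ e0) (h2 : e0 ≤ Γ * W / 32) (h3 : l ≤ Γ * W / 40) (h4 : Γ * W / 40 < l + 1) (hl : 0 ≤ l) :
    (4 * (2 * e0 + 1) * S + 4 + 3 * e) + e
      + (3 * Γ * S + (10 * S + 2 * e)) * (Γ ^ 2 / 4000 * W ^ 2 / e0 + Γ ^ 2 / 4000 * W ^ 2 / (l + 1) + l) < 3 * Γ * S * W := by
  obtain ⟨x, hx⟩ : ∃ x : ℝ, x = Γ * W := ⟨_, rfl⟩
  have hβ : Γ ^ 2 / 4000 * W ^ 2 = x ^ 2 / 4000 := by rw [hx]; ring
  have hgoal : 3 * Γ * S * W = 3 * x * S := by rw [hx]; ring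
  rw [hβ, hgoal]
  rw [← hx] at hW h1 h2 h3 h4
  have hx0 : 0 < x := by linarith
  have hβ0 : 0 ≤ x ^ 2 / 4000 := by positivity
  have q1 : x ^ 2 / 4000 / e0 ≤ 0.016 * x := by
    have a := div_le_div_of_nonneg_left hβ0 (by positivity : 0 < x / 64) h1
    have b : x ^ 2 / 4000 / (x / 64) = 0.016 * x := by
      field_simp
      ring
    linarith
  have q2 : x ^ 2 / 4000 / (l + 1) ≤ 0.01 * x := by
    have a := div_le_div_of_nonneg_left hβ0 (by positivity : 0 < x / 40) h4.le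
    have b : x ^ 2 / 4000 / (x / 40) = 0.01 * x := by
      field_simp
      ring
    linarith
  have he00 : 0 < e0 := by linarith
  have q0 : 0 ≤ x ^ 2 / 4000 / e0 + x ^ 2 / 4000 / (l + 1) + l := by positivity
  have q3 : x ^ 2 / 4000 / e0 + x ^ 2 / 4000 / (l + 1) + l ≤ 0.051 * x := by linarith
  have hS0 : 0 ≤ S := by linarith
  have a1 : 3 * Γ * S + (10 * S + 2 * e) ≤ 14 * S := by
    have : Γ * S ≤ 1 * S := mul_le_mul_of_nonneg_right hΓ1 hS0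
    linarith
  have a2 : (3 * Γ * S + (10 * S + 2 * e)) * (x ^ 2 / 4000 / e0 + x ^ 2 / 4000 / (l + 1) + l) ≤ 14 * S * (0.051 * x) :=
    mul_le_mul a1 q3 q0 (by positivity)
  have a3 : 4 * (2 * e0 + 1) * S ≤ 4 * (2 * (x / 32) + 1) * S := mul_le_mul_of_nonneg_right (by linarith) hS0
  have a4 : (96 : ℝ) * S ≤ x * S := mul_le_mul_of_nonneg_right hW hS0
  nlinarith

/-- **LEAF L-256-RN-EN3** (~80 l.).  the size of the levels.   `k0 := ⌈16 (W0 + 1)⌉₊`;  `r^k ≥ 2^k ≥ 2^k0 > k0 ≥ 16 (W0 + 1)` (`Nat.lt_two_pow_self`, `Nat.pow_le_pow_left`, `Nat.pow_le_pow_right`);   `B/8 - 1 < ⌊B/8⌋ = B / 8` (`Nat.div_add_mod`/`omega`), so `B ≤ 16 (B/8)` for `B ≥ 16` and `W0 ≤ B/8`. -/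
theorem rn_end_level (r : ℕ) (hr : 2 ≤ r) (W0 : ℝ) (hW0 : 0 ≤ W0) :
    ∃ k0 : ℕ, ∀ k, k0 ≤ k → 4 * (r ^ k / 8) + 4 ≤ r ^ k ∧ r ^ k ≤ 16 * (r ^ k / 8) ∧ W0 ≤ ((r ^ k / 8 : ℕ) : ℝ) := by
  refine ⟨⌈16 * (W0 + 1)⌉₊, fun k hk => ?_⟩
  obtain ⟨B, hB⟩ : ∃ B, B = r ^ k := ⟨_, rfl⟩
  rw [← hB]
  have h1 : ⌈16 * (W0 + 1)⌉₊ < B := by
    calc ⌈16 * (W0 + 1)⌉₊ ≤ k := hk
      _ < 2 ^ k := Nat.lt_two_pow_self
      _ ≤ r ^ k := Nat.pow_le_pow_left hr k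
      _ = B := hB.symm
  have h2 : 16 * (W0 + 1) ≤ (B : ℝ) := by
    have a := Nat.le_ceil (16 * (W0 + 1))
    have b : ((⌈16 * (W0 + 1)⌉₊ : ℕ) : ℝ) ≤ (B : ℝ) := by exact_mod_cast h1.le
    linarith
  have h3 : 16 ≤ B := by
    have : (16 : ℝ) ≤ (B : ℝ) := by linarith
    exact_mod_cast this
  refine ⟨by omega, by omega, ?_⟩
  have h4 : B ≤ 8 * (B / 8) + 7 := by omega
  have h5 : (B : ℝ) ≤ 8 * ((B / 8 : ℕ) : ℝ) + 7 := by exact_mod_cast h4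
  linarith

/-- one level with few bad points is contradictory -/
theorem rn_end_one {n off S S' r K W e0 l : ℕ} {d Γ e χ η KL : ℝ} {D : ℕ → ℕ → ℝ} {J : ℕ → ℕ → ℕ → ℝ}
    (hA : RnArr n (1 + 3 * d - 2 * Γ) e D J) (hRV : RnRV1 n K S d (Γ / 20) D J) (hOUT : RnOUT1 n K S S' r d (Γ / 20) χ D J)
    (hS : S = r * S') (hS' : 0 < S') (hr : 0 < r) (hd0 : 0 < d) (hd1 : d ≤ 1) (hΓ : 0 < Γ) (hΓd : Γ ≤ d)
    (he0 : 0 ≤ e) (heη : e ≤ η) (hηΓ : η ≤ Γ / 40) (hηχ : η * (2 * r) ≤ χ) (hχ0 : 0 ≤ χ) (hχΓ : χ ≤ Γ / 40) (heχ : e ≤ χ / 4)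
    (hoff : off < 2 * S) (hfit : off + 2 * S * (W + W + 1) < n) (hW : 96 ≤ Γ * W)
    (b1 : 3 * K ≤ 2 * e0) (b2 : 0 < e0) (b3 : 2 * e0 ≤ W) (b4 : Γ * W / 64 ≤ (e0 : ℝ)) (b5 : (e0 : ℝ) ≤ Γ * W / 32)
    (b6 : (l : ℝ) ≤ Γ * W / 40) (b7 : Γ * W / 40 < (l : ℝ) + 1)
    (hcount : ((rnBadSet W W e0 (RnGood n off S S' r K χ η KL J)).card : ℝ) ≤ Γ ^ 2 / 4000 * (W : ℝ) ^ 2) : False := by
  have hΓ1 : Γ ≤ 1 := hΓd.trans hd1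
  have hS0 : 0 < S := by rw [hS]; exact Nat.mul_pos hr hS'
  have hS'R : (1 : ℝ) ≤ S' := by exact_mod_cast hS'
  have hSR : (1 : ℝ) ≤ S := by exact_mod_cast hS0
  have hη0 : 0 ≤ η := he0.trans heη
  have hsm : η * ((r : ℝ) * S') + 2 * e ≤ χ * S' := by
    have h1 : η * (2 * r) * S' ≤ χ * S' := mul_le_mul_of_nonneg_right hηχ (by positivity)
    have h2 : χ ≤ χ * S' := le_mul_of_one_le_right hχ0 hS'R
    linarith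
  have heS : e ≤ η * S := heη.trans (le_mul_of_one_le_right hη0 hSR)
  have heκ : e ≤ Γ / 40 * S := (heη.trans hηΓ).trans (le_mul_of_one_le_right (by positivity) hSR)
  have hdesc := rn_desc (off := off) (P0 := W) (W := W) (e0 := e0) (η := η) (κ := Γ / 40) (KL := KL) hA hRV hOUT hS hS' hr hd0 hd1
    hΓ hΓd he0 hη0 hηΓ hχ0 hχΓ rfl hsm heS heκ hfit b1 b2 b3
  have hpd0 : 0 ≤ 1 + 3 * d - 2 * Γ := by linarith
  have hpd4 : 1 + 3 * d - 2 * Γ ≤ 4 := by linarith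
  refine rn_chain hdesc b2 b3 (by positivity) (by positivity) l (Γ ^ 2 / 4000 * (W : ℝ) ^ 2)
    (4 * ((2 * e0 + 1 : ℕ) : ℝ) * S + 4 + 3 * e) e ?_ ?_ hcount ?_
  · intro e' _ he'
    refine rn_start hA hpd0 hpd4 he0 hoff ?_ he' b3
    have : 2 * S * (W + 1) ≤ 2 * S * (W + W + 1) := Nat.mul_le_mul_left _ (by omega)
    omega
  · intro q hq
    refine rn_endpt hA ?_ (by omega)
    have : 2 * S * (W + W) ≤ 2 * S * (W + W + 1) := Nat.mul_le_mul_left _ (by omega)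
    omega
  · have := rn_end_num (e := e) (S := S) (e0 := e0) (l := l) hΓ hΓ1 hSR he0 (by linarith) hW b4 b5 b6 b7 (Nat.cast_nonneg _)
    push_cast
    exact this

/-- **END** (statement of `rn_end`, `Rnd/Contract.lean`) -/
theorem rn_end' (d Γ χ : ℝ) (r K : ℕ) (hd0 : 0 < d) (hd1 : d ≤ 1) (hΓ : 0 < Γ) (hΓd : Γ ≤ d) (hχ : 0 < χ)
    (hr : 2 ≤ r) (hK : 1 ≤ K) :
    ∃ k0 N : ℕ, k0 < N ∧ ∃ e : ℝ, 0 < e ∧ ∀ (D : ℕ → ℕ → ℝ) (J : ℕ → ℕ → ℕ → ℝ),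
      RnArr (r ^ N) (1 + 3 * d - 2 * Γ) e D J → RnRV r N k0 K d (Γ / 20) D J →
      RnOUT r N k0 K d (Γ / 20) χ D J → False := by
  have hr0 : 0 < r := by omega
  have hrR : (0 : ℝ) < r := by exact_mod_cast hr0
  have hΓ1 : Γ ≤ 1 := hΓd.trans hd1
  have hKR : (1 : ℝ) ≤ K := by exact_mod_cast hK
  -- constants
  obtain ⟨χ', hχ'⟩ : ∃ χ' : ℝ, χ' = min χ (Γ / 40) := ⟨_, rfl⟩
  have hχ'0 : 0 < χ' := by rw [hχ']; exact lt_min hχ (by positivity)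
  have hχ'χ : χ' ≤ χ := by rw [hχ']; exact min_le_left _ _
  have hχ'Γ : χ' ≤ Γ / 40 := by rw [hχ']; exact min_le_right _ _
  obtain ⟨η, hη⟩ : ∃ η : ℝ, η = min (Γ / 40) (χ' / (2 * r)) := ⟨_, rfl⟩
  have hη0 : 0 < η := by rw [hη]; exact lt_min (by positivity) (by positivity)
  have hηΓ : η ≤ Γ / 40 := by rw [hη]; exact min_le_left _ _
  have hηχ : η * (2 * r) ≤ χ' := by
    have : η ≤ χ' / (2 * r) := by rw [hη]; exact min_le_right _ _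
    rwa [le_div_iff₀ (by positivity)] at this
  obtain ⟨θ, hθ⟩ : ∃ θ : ℝ, θ = Γ ^ 2 / 4000 := ⟨_, rfl⟩
  have hθ0 : 0 < θ := by rw [hθ]; positivity
  obtain ⟨k0, hk0⟩ := rn_end_level r hr (max (96 * K / Γ) (72 * (K : ℝ) ^ 2 * r / (χ' * θ))) (le_max_of_le_left (by positivity))
  obtain ⟨N, hN⟩ : ∃ N : ℕ, N = k0 + ⌈512 * (6 / (η / 2) + 108 / (η / 2) ^ 2) / θ⌉₊ + 1 := ⟨_, rfl⟩
  have hkN : k0 < N := by omega
  have hNθ : 512 * (6 / (η / 2) + 108 / (η / 2) ^ 2) ≤ θ * ((N : ℝ) - k0) := by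
    have h1 : 512 * (6 / (η / 2) + 108 / (η / 2) ^ 2) / θ ≤ (N : ℝ) - k0 := by
      rw [hN]
      push_cast
      have := Nat.le_ceil (512 * (6 / (η / 2) + 108 / (η / 2) ^ 2) / θ)
      linarith
    rw [div_le_iff₀ hθ0] at h1
    linarith
  obtain ⟨e, he⟩ : ∃ e : ℝ, e = min (η / 2) (χ' / 4) / (((r ^ N : ℕ) : ℝ) + 1) := ⟨_, rfl⟩
  have hn0 : (0 : ℝ) ≤ ((r ^ N : ℕ) : ℝ) := Nat.cast_nonneg _
  have he0 : 0 < e := by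
    rw [he]
    exact div_pos (lt_min (by positivity) (by positivity)) (by positivity)
  have hen : e * (((r ^ N : ℕ) : ℝ) + 1) = min (η / 2) (χ' / 4) := by
    rw [he]
    field_simp
  have hen1 : e * (((r ^ N : ℕ) : ℝ) + 1) ≤ η / 2 := by rw [hen]; exact min_le_left _ _
  have hen2 : e * (((r ^ N : ℕ) : ℝ) + 1) ≤ χ' / 4 := by rw [hen]; exact min_le_right _ _
  have hen0 : 0 ≤ e * ((r ^ N : ℕ) : ℝ) := mul_nonneg he0.le hn0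
  have hee : e ≤ e * (((r ^ N : ℕ) : ℝ) + 1) := by linarith
  refine ⟨k0, N, hkN, e, he0, ?_⟩
  intro D J hA hRV hOUT
  have hOUT' := rn_out_chi_mono hOUT hχ'χ
  -- the level
  have hlev : ∀ k, k0 ≤ k → 4 * (r ^ k / 8) + 4 ≤ r ^ k ∧ r ^ k ≤ 16 * (r ^ k / 8) ∧ 96 * (K : ℝ) ≤ Γ * ((r ^ k / 8 : ℕ) : ℝ) ∧
      72 * (K : ℝ) ^ 2 * r ≤ χ' * θ * ((r ^ k / 8 : ℕ) : ℝ) := by
    intro k hk
    obtain ⟨a1, a2, a3⟩ := hk0 k hk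
    refine ⟨a1, a2, ?_, ?_⟩
    · have := (le_max_left _ _).trans a3
      rw [div_le_iff₀ hΓ] at this
      linarith
    · have := (le_max_right _ _).trans a3
      rw [div_le_iff₀ (by positivity)] at this
      linarith
  obtain ⟨k, off, hkk0, hkkN, hoff, hcount⟩ := rn_count (K := K) (χ := χ') (η0 := η / 2) (θ := θ) hA hr0 hK hkN he0.le
    (by linarith) hχ'0 (by positivity) hθ0 (fun k => r ^ k / 8) (fun k => ⌊Γ * ((r ^ k / 8 : ℕ) : ℝ) / 32⌋₊) (fun k h1 _ => by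
      obtain ⟨a1, a2, a3, a4⟩ := hlev k h1
      obtain ⟨b1, b2, b3, -⟩ := rn_end_floor hΓ hΓ1 hK a3
      exact ⟨a1, a2, b1, b2, b3, a4⟩) hNθ
  obtain ⟨a1, a2, a3, a4⟩ := hlev k hkk0
  obtain ⟨b1, b2, b3, b4, b5, b6, b7⟩ := rn_end_floor hΓ hΓ1 hK a3
  have hnSB : r ^ N = r ^ (N - k) * r ^ k := by rw [← pow_add, Nat.sub_add_cancel hkkN.le]
  have hfit : off + 2 * r ^ (N - k) * (r ^ k / 8 + r ^ k / 8 + 1) < r ^ N := by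
    have h1 : r ^ (N - k) * (4 * (r ^ k / 8) + 4) ≤ r ^ (N - k) * r ^ k := Nat.mul_le_mul_left _ a1
    rw [← hnSB] at h1
    have h2 : r ^ (N - k) * (4 * (r ^ k / 8) + 4) = 2 * r ^ (N - k) + 2 * r ^ (N - k) * (r ^ k / 8 + r ^ k / 8 + 1) := by ring
    omega
  rw [hθ] at hcount
  exact rn_end_one (l := ⌊Γ * ((r ^ k / 8 : ℕ) : ℝ) / 40⌋₊) hA (rn_rv1_of hRV hkk0 hkkN) (rn_out1_of hOUT' hkk0 hkkN) (rn_glue_powN hkkN) (Nat.pow_pos hr0) hr0 hd0 hd1 hΓ hΓd he0.le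
    (by linarith) (by linarith) (le_trans (mul_le_mul_of_nonneg_right (by linarith) (by positivity)) hηχ) hχ'0.le hχ'Γ (by linarith) hoff hfit (by linarith)
    b1 b2 b3 b4 b5 b6 b7 hcount

end Claimed.Agent.R256
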