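import Claimed.Agent.R256.Rnd.OutTs

/-!
# Row 256, unit RND (08B), OUT file 4: the directions.  NO RAMSEY.      (architect helper38)

Pins: `i0`, `k0` fixed, all other pins `j` are CANDIDATES.  `q.sl i0 k0 j` = chart slope of `rnE Z_k0` in the quotient by `rnE Z_i0, rnE Z_j`, `q.bit` its chart,
`q.dD i0 k0 j = ((C, Z_≠k0), chart)` the side data of FP,   `q.dsc M i0 k0 j a b` = score of the slope cell of depth `a` given its cell of depth `b`, `C'` and the side data (the arrangement is that of `FpHyp.slope`).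
 * `rn_dir_listY`, `rn_dir_listU` : `Z_k0` at depth `b + lo` lists (slope cell of depth `b`, chart);  two (slope cell of depth `a`, chart) list `Z_k0` at depth `a - lo`   (`rn_geo_lip`, `rn_geo_secant` on `q.Tr`).
 * `rn_dir` : **two directions** (rt-two-directions), hereditary form:  `dsc j + dsc l ≥ (jj (a-lo) - jj (b+lo) - τ - 9 ε) log M` typically.
      `X_j, Y_j` slope cells of depth `a, b`, `β_j` chart, `𝒢 = (C', C, Z_≠k0)`.
      (1) `dsc j + t ≥ sur (X_j | Y_j, Y_l, β_j, β_l, 𝒢)`, (2) `dsc l + t ≥ sur (X_l | X_j, Y_j, Y_l, β_j, β_l, 𝒢)` (`ltk_lp`);  (3) chain rule `ent_surC_chain`;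
      (4) `ltk_transfer` with `T = (X_j, X_l)`, `Y = (Y_j, Y_l, β_j, β_l, 𝒢)`, `U = Z_k0` at depth `a - lo`, `Y' = (Z_k0 at depth b + lo, (Z_≠k0, names))`, lists `36`, `36` (4 charts × 9);
      (5) `rn_pin_sur` and `rn_ok_ang2`.      All rearrangements of the conditioning: `ent_surC_congr`.
 * `rn_count_bad` : if `a j v + a l v ≥ 2 h v` for all `j ≠ l`, then for each `v` at most ONE `j` has `a j v < h v`; so some `j` is bad with probability `≤ |W|/|cand| + P(not typical)`.      (replaces colours + Ramsey + restriction to an event)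
 * `rn_sel` : a candidate all of whose window scores are `≥ (g u - χF R) log M`, `g ≤ m/2`.
LEAVES: L-256-RN-DL (`rn_dir_listY`, `rn_dir_listU`), DIR (`rn_dir`), CNT (`rn_count_bad`), SEL (`rn_sel`, `rn_sel_win`).
-/

set_option autoImplicit false

namespace Claimed.Agent.R256

open Claimed.Agent.R255 Claimed.Agent.R255.FLaw
open Classical

namespace RnQ

variable (q : RnQ) {n : ℕ}

/-- chart slope of the pin `k0` seen from the pins `i0, j` -/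
noncomputable def sl (i0 k0 j : Fin n) : q.Om n → ℝ := fun y => rnSl (q.Z (y.2 i0)) (q.Z (y.2 j)) (q.Z (y.2 k0))

/-- its chart -/
def bit (i0 k0 j : Fin n) : q.Om n → Prop := fun y => rnBit (q.Z (y.2 i0)) (q.Z (y.2 j)) (q.Z (y.2 k0))

/-- slope cell -/
noncomputable def sc (M a : ℕ) (i0 k0 j : Fin n) : q.Om n → ℤ := fun y => rnCell M a (q.sl i0 k0 j y)

/-- the side data of FP -/
def dD (i0 k0 j : Fin n) : q.Om n → (q.α × (Fin n → Option (ℝ × ℝ))) × Prop :=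
  pair (pair q.nC (q.zs (Finset.univ.erase k0))) (q.bit i0 k0 j)

/-- score of the slope cell of depth `a` given the cell of depth `b`, the point name `(C', D)` and `D` -/
noncomputable def dsc (M : ℕ) (i0 k0 j : Fin n) (a b : ℕ) : q.Om n → ℝ :=
  (q.S n).surC (q.sc M a i0 k0 j) (pair (pair (q.sc M b i0 k0 j) (pair q.nC' (q.dD i0 k0 j))) (q.dD i0 k0 j))

end RnQ

variable (q : RnQ) {n : ℕ}

theorem rn_aux_nval_prop {Ω : Type} [Fintype Ω] {α : Type} (P : FLaw Ω) (G : Ω → Prop) (B : Ω → Prop) (A : Ω → α) :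
    P.NVal G B A 2 := by
  intro ω₀
  refine ⟨{True, False}, ?_, fun ω _ _ _ => ?_⟩
  · have : ({True, False} : Finset Prop).card ≤ 2 := Finset.card_le_two
    exact_mod_cast this
  · by_cases hB : B ω
    · simp [hB]
    · simp [hB]

theorem rn_aux_zs_erase {k0 i : Fin n} (hi : i ≠ k0) {y y' : q.Om n}
    (he : q.zs (Finset.univ.erase k0) y = q.zs (Finset.univ.erase k0) y') : q.Z (y.2 i) = q.Z (y'.2 i) := by
  have := congrFun he i
  unfold RnQ.zs at this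
  have hm : i ∈ Finset.univ.erase k0 := Finset.mem_erase.2 ⟨hi, Finset.mem_univ i⟩
  rw [if_pos hm, if_pos hm] at this
  exact Option.some.inj this

/-- LEAF DL.  same `Z_i0, Z_j`, `|Z_k0 - Z_k0'| ≤ M^-(b+lo)` coordinatewise, same chart ⟹ `|σ - σ'| ≤ 400 A³ M^-(b+lo)/ϖ⁴ ≤ M^-b`:  `3` cells for each of the `2` charts
(`rn_geo_lip`, `rn_nval_close`, `ltk_nval_comp`). -/
theorem rn_dir_listY {M lo b : ℕ} {A ϖ : ℝ} (hM : 1 ≤ M) (hA : 1 ≤ A) (hϖ : 0 < ϖ) (hϖ1 : ϖ ≤ 1)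
    (hbd : ∀ ω, |(q.Z ω).1| ≤ A ∧ |(q.Z ω).2| ≤ A) (hlo : 1 / (M : ℝ) ^ lo ≤ rnKap A ϖ)
    {i0 k0 j : Fin n} (hik : i0 ≠ k0) (hji : j ≠ i0) (hjk : j ≠ k0) :
    (q.S n).NVal (q.Tr ϖ (ϖ ^ 4 / (72 * A ^ 3)) i0 k0) (pair (q.sc M b i0 k0 j) (q.bit i0 k0 j))
      (pair (fun y => q.Zc M (b + lo) (y.2 k0)) (q.zs (Finset.univ.erase k0))) 6 := by
  have hM0 : (1 : ℝ) ≤ M := by exact_mod_cast hM
  have hpb : (0 : ℝ) < (M : ℝ) ^ b := by positivity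
  have hpl : (0 : ℝ) < (M : ℝ) ^ lo := by positivity
  have hA0 : 0 < A := by linarith
  have h1 := rn_aux_nval_prop (q.S n) (q.Tr ϖ (ϖ ^ 4 / (72 * A ^ 3)) i0 k0) (q.bit i0 k0 j)
    (pair (fun y => q.Zc M (b + lo) (y.2 k0)) (q.zs (Finset.univ.erase k0)))
  have h2 := rn_nval_close (q.S n) (q.Tr ϖ (ϖ ^ 4 / (72 * A ^ 3)) i0 k0)
    (pair (q.bit i0 k0 j) (pair (fun y => q.Zc M (b + lo) (y.2 k0)) (q.zs (Finset.univ.erase k0))))
    (q.sl i0 k0 j) (s := (M : ℝ) ^ b) (R := 1 / (M : ℝ) ^ b) hpb (by positivity)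
    (fun y y' _ _ hT hT' he => by
      have e1 : q.bit i0 k0 j y = q.bit i0 k0 j y' := congrArg Prod.fst he
      have e2 : q.Zc M (b + lo) (y.2 k0) = q.Zc M (b + lo) (y'.2 k0) := congrArg (fun t => t.2.1) he
      have e3 : q.zs (Finset.univ.erase k0) y = q.zs (Finset.univ.erase k0) y' := congrArg (fun t => t.2.2) he
      have zi := rn_aux_zs_erase q hik e3
      have zj := rn_aux_zs_erase q hjk e3
      have c1 : |(q.Z (y.2 k0)).1 - (q.Z (y'.2 k0)).1| ≤ 1 / (M : ℝ) ^ (b + lo) :=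
        rn_aux_cell_close hM (congrArg Prod.fst e2)
      have c2 : |(q.Z (y.2 k0)).2 - (q.Z (y'.2 k0)).2| ≤ 1 / (M : ℝ) ^ (b + lo) :=
        rn_aux_cell_close hM (congrArg Prod.snd e2)
      have t1 := (hT.1 k0 i0 hik.symm).le
      have t2 := (hT.1 k0 j hjk.symm).le
      have t3 := (hT'.1 k0 i0 hik.symm).le
      have t4 := (hT'.1 k0 j hjk.symm).le
      rw [← zi] at t3
      rw [← zj] at t4
      have hbit : rnBit (q.Z (y.2 i0)) (q.Z (y.2 j)) (q.Z (y.2 k0)) ↔ rnBit (q.Z (y.2 i0)) (q.Z (y.2 j)) (q.Z (y'.2 k0)) := by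
        have : rnBit (q.Z (y.2 i0)) (q.Z (y.2 j)) (q.Z (y.2 k0)) = rnBit (q.Z (y'.2 i0)) (q.Z (y'.2 j)) (q.Z (y'.2 k0)) := e1
        rw [this, zi, zj]
      have g := rn_geo_lip hA hϖ (by positivity) (hbd (y.2 i0)) (hbd (y.2 j)) (hbd (y.2 k0)) (hbd (y'.2 k0)) hbit t1 t2 t3 t4 c1 c2
      have e4 : q.sl i0 k0 j y - q.sl i0 k0 j y'
          = rnSl (q.Z (y.2 i0)) (q.Z (y.2 j)) (q.Z (y.2 k0)) - rnSl (q.Z (y.2 i0)) (q.Z (y.2 j)) (q.Z (y'.2 k0)) := by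
        unfold RnQ.sl
        rw [zi, zj]
      rw [e4]
      refine g.trans ?_
      rw [pow_add, div_le_iff₀ (by positivity)]
      unfold rnKap at hlo
      have k1 : 400 * A ^ 3 * (1 / ((M : ℝ) ^ b * (M : ℝ) ^ lo)) = (1 / (M : ℝ) ^ b) * (400 * A ^ 3 * (1 / (M : ℝ) ^ lo)) := by
        field_simp
      rw [k1]
      refine mul_le_mul_of_nonneg_left ?_ (by positivity)
      have k2 : 400 * A ^ 3 * (1 / (M : ℝ) ^ lo) ≤ 400 * A ^ 3 * (ϖ ^ 6 / (10 ^ 5 * A ^ 8)) :=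
        mul_le_mul_of_nonneg_left hlo (by positivity)
      refine k2.trans ?_
      have k3 : 400 * A ^ 3 * (ϖ ^ 6 / (10 ^ 5 * A ^ 8)) = ϖ ^ 4 * (400 * ϖ ^ 2 / (10 ^ 5 * A ^ 5)) := by
        field_simp
      rw [k3]
      have k4 : 400 * ϖ ^ 2 / (10 ^ 5 * A ^ 5) ≤ 1 := by
        rw [div_le_one (by positivity)]
        have : ϖ ^ 2 ≤ 1 := pow_le_one₀ hϖ.le hϖ1
        have : (1 : ℝ) ≤ A ^ 5 := one_le_pow₀ hA
        nlinarith
      have : 0 < ϖ ^ 4 := by positivity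
      nlinarith)
  have h3 := ltk_nval_comp (q.S n) _ _ _ _ (by positivity) h1 h2
  refine ltk_nval_mono (q.S n) h3 (fun _ h => h) (fun _ _ h => h) ⟨id, fun _ => rfl⟩ ?_
  have : 1 / (M : ℝ) ^ b * (M : ℝ) ^ b = 1 := by field_simp
  rw [this]
  norm_num

/-- LEAF DL.  same `Z_i0, Z_j, Z_l`, same charts, slopes `M^-a`-close ⟹ `|Z_k0 - Z_k0'| ≤ 200 A⁴ M^-a/(ϖ ϖ₂) ≤ M^-(a-lo)` coordinatewise: `3 × 3` cells (`rn_geo_secant`). -/
theorem rn_dir_listU {M lo a : ℕ} {A ϖ : ℝ} (hM : 1 ≤ M) (hA : 1 ≤ A) (hϖ : 0 < ϖ) (hϖ1 : ϖ ≤ 1)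
    (hbd : ∀ ω, |(q.Z ω).1| ≤ A ∧ |(q.Z ω).2| ≤ A) (hlo : 1 / (M : ℝ) ^ lo ≤ rnKap A ϖ) (ha : lo ≤ a)
    {i0 k0 j l : Fin n} (hik : i0 ≠ k0) (hjl : j ≠ l) (hji : j ≠ i0) (hjk : j ≠ k0) (hli : l ≠ i0) (hlk : l ≠ k0) :
    (q.S n).NVal (q.Tr ϖ (ϖ ^ 4 / (72 * A ^ 3)) i0 k0) (fun y => q.Zc M (a - lo) (y.2 k0))
      (pair (pair (pair (q.sc M a i0 k0 j) (q.bit i0 k0 j)) (pair (q.sc M a i0 k0 l) (q.bit i0 k0 l)))
        (q.zs (Finset.univ.erase k0))) 9 := by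
  have hM0 : (1 : ℝ) ≤ M := by exact_mod_cast hM
  have hpa : (0 : ℝ) < (M : ℝ) ^ a := by positivity
  have hpl : (0 : ℝ) < (M : ℝ) ^ lo := by positivity
  have hps : (0 : ℝ) < (M : ℝ) ^ (a - lo) := by positivity
  have hA0 : 0 < A := by linarith
  have hϖ₂ : 0 < ϖ ^ 4 / (72 * A ^ 3) := by positivity
  have key : ∀ y y' : q.Om n, q.Tr ϖ (ϖ ^ 4 / (72 * A ^ 3)) i0 k0 y → q.Tr ϖ (ϖ ^ 4 / (72 * A ^ 3)) i0 k0 y' →
      (pair (pair (pair (q.sc M a i0 k0 j) (q.bit i0 k0 j)) (pair (q.sc M a i0 k0 l) (q.bit i0 k0 l)))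
        (q.zs (Finset.univ.erase k0))) y = (pair (pair (pair (q.sc M a i0 k0 j) (q.bit i0 k0 j)) (pair (q.sc M a i0 k0 l) (q.bit i0 k0 l)))
        (q.zs (Finset.univ.erase k0))) y' →
      |(q.Z (y.2 k0)).1 - (q.Z (y'.2 k0)).1| ≤ 1 / (M : ℝ) ^ (a - lo) ∧ |(q.Z (y.2 k0)).2 - (q.Z (y'.2 k0)).2| ≤ 1 / (M : ℝ) ^ (a - lo) := by
    intro y y' hT hT' he
    have e1 : q.sc M a i0 k0 j y = q.sc M a i0 k0 j y' := congrArg (fun t => t.1.1.1) he
    have e2 : q.bit i0 k0 j y = q.bit i0 k0 j y' := congrArg (fun t => t.1.1.2) he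
    have e3 : q.sc M a i0 k0 l y = q.sc M a i0 k0 l y' := congrArg (fun t => t.1.2.1) he
    have e4 : q.bit i0 k0 l y = q.bit i0 k0 l y' := congrArg (fun t => t.1.2.2) he
    have e5 : q.zs (Finset.univ.erase k0) y = q.zs (Finset.univ.erase k0) y' := congrArg Prod.snd he
    have zi := rn_aux_zs_erase q hik e5
    have zj := rn_aux_zs_erase q hjk e5
    have zl := rn_aux_zs_erase q hlk e5
    have hbit : rnBit (q.Z (y.2 i0)) (q.Z (y.2 j)) (q.Z (y.2 k0)) ↔ rnBit (q.Z (y.2 i0)) (q.Z (y.2 j)) (q.Z (y'.2 k0)) := by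
      have : rnBit (q.Z (y.2 i0)) (q.Z (y.2 j)) (q.Z (y.2 k0)) = rnBit (q.Z (y'.2 i0)) (q.Z (y'.2 j)) (q.Z (y'.2 k0)) := e2
      rw [this, zi, zj]
    have hbit' : rnBit (q.Z (y.2 i0)) (q.Z (y.2 l)) (q.Z (y.2 k0)) ↔ rnBit (q.Z (y.2 i0)) (q.Z (y.2 l)) (q.Z (y'.2 k0)) := by
      have : rnBit (q.Z (y.2 i0)) (q.Z (y.2 l)) (q.Z (y.2 k0)) = rnBit (q.Z (y'.2 i0)) (q.Z (y'.2 l)) (q.Z (y'.2 k0)) := e4
      rw [this, zi, zl]
    have s1 : |rnSl (q.Z (y.2 i0)) (q.Z (y.2 j)) (q.Z (y.2 k0)) - rnSl (q.Z (y.2 i0)) (q.Z (y.2 j)) (q.Z (y'.2 k0))| ≤ 1 / (M : ℝ) ^ a := by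
      have := rn_aux_cell_close hM e1
      unfold RnQ.sl at this
      rwa [← zi, ← zj] at this
    have s2 : |rnSl (q.Z (y.2 i0)) (q.Z (y.2 l)) (q.Z (y.2 k0)) - rnSl (q.Z (y.2 i0)) (q.Z (y.2 l)) (q.Z (y'.2 k0))| ≤ 1 / (M : ℝ) ^ a := by
      have := rn_aux_cell_close hM e3
      unfold RnQ.sl at this
      rwa [← zi, ← zl] at this
    have t1 := (hT.1 k0 i0 hik.symm).le
    have t2 := (hT'.1 k0 i0 hik.symm).le
    rw [← zi] at t2
    have t3 := (hT.1 l i0 hli).le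
    have t4 := (hT.2 j l hjl hji hjk hli hlk).le
    have g := rn_geo_secant hA hϖ hϖ₂ (by positivity) (hbd (y.2 i0)) (hbd (y.2 j)) (hbd (y.2 l)) (hbd (y.2 k0)) (hbd (y'.2 k0))
      hbit hbit' s1 s2 t1 t2 t3 t4
    have hle : 200 * A ^ 4 * (1 / (M : ℝ) ^ a) / (ϖ * (ϖ ^ 4 / (72 * A ^ 3))) ≤ 1 / (M : ℝ) ^ (a - lo) := by
      have a7 : (M : ℝ) ^ a = (M : ℝ) ^ (a - lo) * (M : ℝ) ^ lo := by
        rw [← pow_add, Nat.sub_add_cancel ha]
      rw [a7]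
      have k1 : 200 * A ^ 4 * (1 / ((M : ℝ) ^ (a - lo) * (M : ℝ) ^ lo)) / (ϖ * (ϖ ^ 4 / (72 * A ^ 3)))
          = (1 / (M : ℝ) ^ (a - lo)) * ((14400 * A ^ 7 / ϖ ^ 5) * (1 / (M : ℝ) ^ lo)) := by
        field_simp
        ring
      rw [k1]
      have k2 : (14400 * A ^ 7 / ϖ ^ 5) * (1 / (M : ℝ) ^ lo) ≤ (14400 * A ^ 7 / ϖ ^ 5) * (ϖ ^ 6 / (10 ^ 5 * A ^ 8)) :=
        mul_le_mul_of_nonneg_left hlo (by positivity)
      have k3 : (14400 * A ^ 7 / ϖ ^ 5) * (ϖ ^ 6 / (10 ^ 5 * A ^ 8)) = 14400 * ϖ / (10 ^ 5 * A) := by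
        field_simp
      have k4 : 14400 * ϖ / (10 ^ 5 * A) ≤ 1 := by
        rw [div_le_one (by positivity)]
        nlinarith
      have k5 : 0 < 1 / (M : ℝ) ^ (a - lo) := by positivity
      have k6 : (14400 * A ^ 7 / ϖ ^ 5) * (1 / (M : ℝ) ^ lo) ≤ 1 := by linarith
      nlinarith
    exact ⟨g.1.trans hle, g.2.trans hle⟩
  have h1 := rn_nval_close (q.S n) (q.Tr ϖ (ϖ ^ 4 / (72 * A ^ 3)) i0 k0)
    (pair (pair (pair (q.sc M a i0 k0 j) (q.bit i0 k0 j)) (pair (q.sc M a i0 k0 l) (q.bit i0 k0 l)))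
        (q.zs (Finset.univ.erase k0)))
    (fun y => (q.Z (y.2 k0)).2) (s := (M : ℝ) ^ (a - lo)) (R := 1 / (M : ℝ) ^ (a - lo)) hps (by positivity)
    (fun y y' _ _ hT hT' he => (key y y' hT hT' he).2)
  have h2 := rn_nval_close (q.S n) (q.Tr ϖ (ϖ ^ 4 / (72 * A ^ 3)) i0 k0)
    (pair (fun y => ⌊(q.Z (y.2 k0)).2 * (M : ℝ) ^ (a - lo)⌋) (pair (pair (pair (q.sc M a i0 k0 j) (q.bit i0 k0 j)) (pair (q.sc M a i0 k0 l) (q.bit i0 k0 l)))
        (q.zs (Finset.univ.erase k0))))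
    (fun y => (q.Z (y.2 k0)).1) (s := (M : ℝ) ^ (a - lo)) (R := 1 / (M : ℝ) ^ (a - lo)) hps (by positivity)
    (fun y y' _ _ hT hT' he => (key y y' hT hT' (congrArg Prod.snd he)).1)
  have h3 := ltk_nval_comp (q.S n) _ _ _ _ (by positivity) h1 h2
  refine ltk_nval_mono (q.S n) h3 (fun _ h => h) (fun _ _ h => h) ⟨id, fun _ => rfl⟩ ?_
  have : 1 / (M : ℝ) ^ (a - lo) * (M : ℝ) ^ (a - lo) = 1 := by field_simp
  rw [this]
  norm_num

theorem rn_aux_fst_iff (y y' : q.Om n) : y'.1 = y.1 ↔ (q.nC y' = q.nC y ∧ q.nC' y' = q.nC' y) := by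
  constructor
  · intro h
    unfold RnQ.nC RnQ.nC'
    rw [h]
    exact ⟨rfl, rfl⟩
  · rintro ⟨h1, h2⟩
    exact Subtype.ext (Prod.ext h1 h2)

/-- LEAF DIR.  **two directions** (header). -/
theorem rn_dir {M r K lo a b : ℕ} {A d τ es oT dv st ε : ℝ} {jj : ℕ → ℝ} (h : q.Ok M r K A d τ es oT dv st jj)
    (hM : 2 ≤ M) (hK : 1 ≤ K) (hA : 1 ≤ A) (hes : 0 ≤ es)
    (hlo : 1 / (M : ℝ) ^ lo ≤ rnKap A ((M : ℝ) ^ (-(es * r)))) (hab : b + 2 * lo ≤ a) (har : a ≤ r)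
    (hε : 0 < ε) (hlog : Real.log 36 ≤ ε * Real.log M)
    {i0 k0 j l : Fin n} (hik : i0 ≠ k0) (hjl : j ≠ l) (hji : j ≠ i0) (hjk : j ≠ k0) (hli : l ≠ i0) (hlk : l ≠ k0) :
    (q.S n).pr (fun y => q.Tr ((M : ℝ) ^ (-(es * r))) (((M : ℝ) ^ (-(es * r))) ^ 4 / (72 * A ^ 3)) i0 k0 y ∧
        q.dsc M i0 k0 j a b y + q.dsc M i0 k0 l a b y < (jj (a - lo) - jj (b + lo) - τ - 9 * ε) * Real.log M)
      ≤ 5 * Real.exp (-(ε * Real.log M)) + τ + ((st + τ) * Real.log M + 1) / (ε * Real.log M) := by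
  have hM1 : 1 ≤ M := by omega
  have hMr : (2 : ℝ) ≤ M := by exact_mod_cast hM
  have hL : 0 < Real.log M := Real.log_pos (by linarith)
  obtain ⟨w, hw⟩ : ∃ w : ℝ, w = (M : ℝ) ^ (-(es * r)) := ⟨_, rfl⟩
  have hw0 : 0 < w := by rw [hw]; exact Real.rpow_pos_of_pos (by linarith) _
  have hw1 : w ≤ 1 := by
    rw [hw]
    refine Real.rpow_le_one_of_one_le_of_nonpos (by linarith) ?_
    have : 0 ≤ es * r := mul_nonneg hes (Nat.cast_nonneg r)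
    linarith
  rw [← hw] at hlo ⊢
  obtain ⟨G, hG⟩ : ∃ G : q.Om n → Prop, G = q.Tr w (w ^ 4 / (72 * A ^ 3)) i0 k0 := ⟨_, rfl⟩
  obtain ⟨Xj, hXj⟩ : ∃ X, X = q.sc M a i0 k0 j := ⟨_, rfl⟩
  obtain ⟨Xl, hXl⟩ : ∃ X, X = q.sc M a i0 k0 l := ⟨_, rfl⟩
  obtain ⟨Yj, hYj⟩ : ∃ X, X = q.sc M b i0 k0 j := ⟨_, rfl⟩
  obtain ⟨Yl, hYl⟩ : ∃ X, X = q.sc M b i0 k0 l := ⟨_, rfl⟩
  obtain ⟨βj, hβj⟩ : ∃ X, X = q.bit i0 k0 j := ⟨_, rfl⟩
  obtain ⟨βl, hβl⟩ : ∃ X, X = q.bit i0 k0 l := ⟨_, rfl⟩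
  obtain ⟨zs, hzs⟩ : ∃ X, X = q.zs (Finset.univ.erase k0) := ⟨_, rfl⟩
  obtain ⟨Zb, hZb⟩ : ∃ X : q.Om n → ℤ × ℤ, X = fun y => q.Zc M (b + lo) (y.2 k0) := ⟨_, rfl⟩
  obtain ⟨U, hU⟩ : ∃ X : q.Om n → ℤ × ℤ, X = fun y => q.Zc M (a - lo) (y.2 k0) := ⟨_, rfl⟩
  -- the lists
  have lYj : (q.S n).NVal G (pair Yj βj) (pair Zb zs) 6 := by
    rw [hG, hYj, hβj, hZb, hzs]
    exact rn_dir_listY q hM1 hA hw0 hw1 h.bdZ hlo hik hji hjk
  have lYl : (q.S n).NVal G (pair Yl βl) (pair Zb zs) 6 := by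
    rw [hG, hYl, hβl, hZb, hzs]
    exact rn_dir_listY q hM1 hA hw0 hw1 h.bdZ hlo hik hli hlk
  have lU : (q.S n).NVal G U (pair (pair (pair Xj βj) (pair Xl βl)) zs) 9 := by
    rw [hG, hU, hXj, hXl, hβj, hβl, hzs]
    exact rn_dir_listU q hM1 hA hw0 hw1 h.bdZ hlo (by omega) hik hjl hji hjk hli hlk
  obtain ⟨Y', hY'⟩ : ∃ X, X = pair Zb (pair zs (Prod.fst : q.Om n → q.Pt)) := ⟨_, rfl⟩
  obtain ⟨Y0, hY0⟩ : ∃ X, X = pair (pair (pair Yj βj) (pair Yl βl)) (pair zs (Prod.fst : q.Om n → q.Pt)) := ⟨_, rfl⟩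
  have nY : (q.S n).NVal G Y0 Y' 36 := by
    have a1 : (q.S n).NVal G (pair Yl βl) Y' 6 :=
      ltk_nval_mono (q.S n) lYl (fun _ h => h) (fun y y' he => by
        rw [hY'] at he
        simp only [FLaw.pair, Prod.mk.injEq] at he ⊢
        exact ⟨he.1, he.2.1⟩) ⟨id, fun _ => rfl⟩ le_rfl
    have a2 : (q.S n).NVal G (pair Yj βj) (pair (pair Yl βl) Y') 6 :=
      ltk_nval_mono (q.S n) lYj (fun _ h => h) (fun y y' he => by
        rw [hY'] at he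
        simp only [FLaw.pair, Prod.mk.injEq] at he ⊢
        exact ⟨he.2.1, he.2.2.1⟩) ⟨id, fun _ => rfl⟩ le_rfl
    have a3 := ltk_nval_comp (q.S n) _ _ _ _ (by norm_num) a1 a2
    have a4 := rn_aux_nval_pair (q.S n) G _ Y' (pair zs (Prod.fst : q.Om n → q.Pt)) a3 (fun y y' he => by
        rw [hY'] at he
        exact congrArg Prod.snd he)
    rw [hY0]
    refine ltk_nval_mono (q.S n) a4 (fun _ h => h) (fun _ _ h => h) ⟨id, fun _ => rfl⟩ (by norm_num)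
  have nU : (q.S n).NVal G U (pair (pair Xj Xl) Y') 36 := by
    have a1 := rn_aux_nval_prop (q.S n) G βl (pair (pair Xj Xl) Y')
    have a2 := rn_aux_nval_prop (q.S n) G βj (pair βl (pair (pair Xj Xl) Y'))
    have a3 := ltk_nval_comp (q.S n) _ _ _ _ (by norm_num) a1 a2
    have a4 : (q.S n).NVal G U (pair (pair βj βl) (pair (pair Xj Xl) Y')) 9 :=
      ltk_nval_mono (q.S n) lU (fun _ h => h) (fun y y' he => by
        rw [hY'] at he
        simp only [FLaw.pair, Prod.mk.injEq] at he ⊢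
        exact ⟨⟨⟨he.2.1.1, he.1.1⟩, he.2.1.2, he.1.2⟩, he.2.2.2.1⟩) ⟨id, fun _ => rfl⟩ le_rfl
    have a5 := ltk_nval_comp (q.S n) _ _ _ _ (by norm_num) a3 a4
    exact ltk_nval_mono (q.S n) a5 (fun _ h => h) (fun _ _ h => h) ⟨Prod.fst, fun _ => rfl⟩ (by norm_num)
  -- the five bad events
  have b1 := ltk_lp (q.S n) Xj (pair (pair Yj (pair q.nC' (q.dD i0 k0 j))) (q.dD i0 k0 j)) (pair Yl βl) (ε * Real.log M)
  have b2 := ltk_lp (q.S n) Xl (pair (pair Yl (pair q.nC' (q.dD i0 k0 l))) (q.dD i0 k0 l)) (pair Xj (pair Yj βj)) (ε * Real.log M)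
  have b3 := ltk_transfer (q.S n) G (pair Xj Xl) U Y0 Y' (N₁ := 36) (N₂ := 36) (by norm_num) (by norm_num) nY nU (ε * Real.log M)
  have b4 := rn_ok_ang2 q h hM hK hε (b + lo) (a - lo) (by omega) (by omega)
  have b4' : (q.S n).pr (fun y => q.P.surC (q.Zc M (a - lo)) (pair (q.Zc M (b + lo)) (pair q.C q.C')) (y.2 k0)
      < (jj (a - lo) - jj (b + lo) - τ - ε) * Real.log M) ≤ τ + ((st + τ) * Real.log M + 1) / (ε * Real.log M) := by
    have := ent_map_pr (q.S n) (fun y => y.2 k0) (fun ω => q.P.surC (q.Zc M (a - lo)) (pair (q.Zc M (b + lo)) (pair q.C q.C')) ω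
      < (jj (a - lo) - jj (b + lo) - τ - ε) * Real.log M)
    rw [rn_pin_map] at this
    rw [← this]
    exact b4
  have hsub : (q.S n).pr (fun y => G y ∧
        q.dsc M i0 k0 j a b y + q.dsc M i0 k0 l a b y < (jj (a - lo) - jj (b + lo) - τ - 9 * ε) * Real.log M)
      ≤ (q.S n).pr (fun y => ((((q.S n).surC Xj (pair (pair Yj (pair q.nC' (q.dD i0 k0 j))) (q.dD i0 k0 j)) y + ε * Real.log M
              < (q.S n).surC Xj (pair (pair Yl βl) (pair (pair Yj (pair q.nC' (q.dD i0 k0 j))) (q.dD i0 k0 j))) y)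
          ∨ ((q.S n).surC Xl (pair (pair Yl (pair q.nC' (q.dD i0 k0 l))) (q.dD i0 k0 l)) y + ε * Real.log M
              < (q.S n).surC Xl (pair (pair Xj (pair Yj βj)) (pair (pair Yl (pair q.nC' (q.dD i0 k0 l))) (q.dD i0 k0 l))) y))
          ∨ (G y ∧ (q.S n).surC (pair Xj Xl) Y0 y < (q.S n).surC U Y' y - Real.log 36 - Real.log 36 - 3 * (ε * Real.log M)))
          ∨ (q.P.surC (q.Zc M (a - lo)) (pair (q.Zc M (b + lo)) (pair q.C q.C')) (y.2 k0)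
              < (jj (a - lo) - jj (b + lo) - τ - ε) * Real.log M)) := by
    refine ent_pr_mono _ fun y hy hlt => ?_
    obtain ⟨hGy, hlt⟩ := hlt
    by_contra hcon
    push Not at hcon
    obtain ⟨⟨⟨c1, c2⟩, c3⟩, c4⟩ := hcon
    have c3' := c3 hGy
    have d1 : q.dsc M i0 k0 j a b y = (q.S n).surC Xj (pair (pair Yj (pair q.nC' (q.dD i0 k0 j))) (q.dD i0 k0 j)) y := by
      rw [hXj, hYj]; rfl
    have d2 : q.dsc M i0 k0 l a b y = (q.S n).surC Xl (pair (pair Yl (pair q.nC' (q.dD i0 k0 l))) (q.dD i0 k0 l)) y := by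
      rw [hXl, hYl]; rfl
    have e1 : (q.S n).surC Xj (pair (pair Yl βl) (pair (pair Yj (pair q.nC' (q.dD i0 k0 j))) (q.dD i0 k0 j))) y
        = (q.S n).surC Xj Y0 y := by
      refine ent_surC_congr (q.S n) _ _ _ _ y (fun y' _ => ?_) (fun _ _ _ => Iff.rfl)
      rw [hY0]
      simp only [FLaw.pair, RnQ.dD, Prod.mk.injEq, rn_aux_fst_iff q y y', ← hβj, ← hzs]
      tauto
    have e2 : (q.S n).surC Xl (pair (pair Xj (pair Yj βj)) (pair (pair Yl (pair q.nC' (q.dD i0 k0 l))) (q.dD i0 k0 l))) y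
        = (q.S n).surC Xl (pair Xj Y0) y := by
      refine ent_surC_congr (q.S n) _ _ _ _ y (fun y' _ => ?_) (fun _ _ _ => Iff.rfl)
      rw [hY0]
      simp only [FLaw.pair, RnQ.dD, Prod.mk.injEq, rn_aux_fst_iff q y y', ← hβl, ← hzs]
      tauto
    have e3 := ent_surC_chain (q.S n) Xj Xl Y0 hy
    have e4 : (q.S n).surC U Y' y = q.P.surC (q.Zc M (a - lo)) (pair (q.Zc M (b + lo)) (pair q.C q.C')) (y.2 k0) := by
      rw [hU, hY', hZb]
      refine rn_pin_sur q k0 (q.Zc M (a - lo)) (q.Zc M (b + lo)) zs (fun y y' he => ?_) hy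
      rw [hzs]
      funext i
      unfold RnQ.zs
      by_cases hi : i ∈ Finset.univ.erase k0
      · rw [if_pos hi, if_pos hi, (rn_aux_oth_iff q k0 y' y).1 he i (Finset.ne_of_mem_erase hi)]
      · rw [if_neg hi, if_neg hi]
    rw [e1] at c1
    rw [e2] at c2
    rw [e4] at c3'
    rw [d1, d2] at hlt
    nlinarith
  rw [← hG]
  refine hsub.trans ?_
  refine (ent_pr_or_le _ _ _).trans ?_
  refine (add_le_add (ent_pr_or_le _ _ _) le_rfl).trans ?_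
  refine (add_le_add (add_le_add (ent_pr_or_le _ _ _) le_rfl) le_rfl).trans ?_
  linarith

/-- LEAF CNT.  **at most one bad candidate per window** (header).   `∑_j P(bad_j ∧ Typ) = E[#bad 1_Typ] ≤ |W|`, pigeonhole (`Finset.exists_le_of_sum_le` or minimum). -/
theorem rn_count_bad {Ω : Type} [Fintype Ω] (P : FLaw Ω) {ι κ : Type} (cand : Finset ι) (W : Finset κ)
    (a : ι → κ → Ω → ℝ) (hh : κ → ℝ) (Typ : Ω → Prop) (hc : 0 < cand.card)
    (htyp : ∀ ω, Typ ω → ∀ j ∈ cand, ∀ l ∈ cand, j ≠ l → ∀ v ∈ W, 2 * hh v ≤ a j v ω + a l v ω) :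
    ∃ j ∈ cand, P.pr (fun ω => ∃ v ∈ W, a j v ω < hh v) ≤ (W.card : ℝ) / cand.card + P.pr (fun ω => ¬ Typ ω) := by
  have hc' : (0 : ℝ) < cand.card := by exact_mod_cast hc
  -- pointwise count
  have hpt : ∀ ω, ∑ j ∈ cand, (if (∃ v ∈ W, a j v ω < hh v) ∧ Typ ω then P.p ω else 0) ≤ (W.card : ℝ) * P.p ω := by
    intro ω
    have hp := P.nonneg ω
    by_cases hT : Typ ω
    · have hcard : (cand.filter fun j => ∃ v ∈ W, a j v ω < hh v).card ≤ W.card := by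
        refine Finset.card_le_card_of_forall_subsingleton (fun j v => a j v ω < hh v) ?_ ?_
        · intro j hj
          obtain ⟨v, hv, hlt⟩ := (Finset.mem_filter.1 hj).2
          exact ⟨v, hv, hlt⟩
        · intro v hv j hj l hl
          by_contra hne
          have h1 := htyp ω hT j (Finset.mem_filter.1 hj.1).1 l (Finset.mem_filter.1 hl.1).1 hne v hv
          have h2 : a j v ω < hh v := hj.2
          have h3 : a l v ω < hh v := hl.2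
          linarith
      calc ∑ j ∈ cand, (if (∃ v ∈ W, a j v ω < hh v) ∧ Typ ω then P.p ω else 0)
          = ∑ j ∈ cand, (if (∃ v ∈ W, a j v ω < hh v) then P.p ω else 0) := by
            refine Finset.sum_congr rfl fun j _ => ?_
            simp [hT]
        _ = ((cand.filter fun j => ∃ v ∈ W, a j v ω < hh v).card : ℝ) * P.p ω := by
            rw [← Finset.sum_filter, Finset.sum_const, nsmul_eq_mul]
        _ ≤ (W.card : ℝ) * P.p ω := by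
            refine mul_le_mul_of_nonneg_right ?_ hp
            exact_mod_cast hcard
    · calc ∑ j ∈ cand, (if (∃ v ∈ W, a j v ω < hh v) ∧ Typ ω then P.p ω else 0) = 0 := by
            refine Finset.sum_eq_zero fun j _ => ?_
            simp [hT]
        _ ≤ (W.card : ℝ) * P.p ω := by positivity
  have hsum : ∑ j ∈ cand, P.pr (fun ω => (∃ v ∈ W, a j v ω < hh v) ∧ Typ ω) ≤ ∑ _j ∈ cand, (W.card : ℝ) / cand.card := by
    calc ∑ j ∈ cand, P.pr (fun ω => (∃ v ∈ W, a j v ω < hh v) ∧ Typ ω)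
        = ∑ ω, ∑ j ∈ cand, (if (∃ v ∈ W, a j v ω < hh v) ∧ Typ ω then P.p ω else 0) := by
          unfold FLaw.pr
          rw [Finset.sum_comm]
          refine Finset.sum_congr rfl fun ω _ => Finset.sum_congr rfl fun j _ => ?_
          by_cases hb : (∃ v ∈ W, a j v ω < hh v) ∧ Typ ω
          · rw [if_pos hb, if_pos hb]
          · rw [if_neg hb, if_neg hb]
      _ ≤ ∑ ω, (W.card : ℝ) * P.p ω := Finset.sum_le_sum fun ω _ => hpt ω
      _ = (W.card : ℝ) := by rw [← Finset.mul_sum, P.sum_one, mul_one]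
      _ = ∑ _j ∈ cand, (W.card : ℝ) / cand.card := by
          rw [Finset.sum_const, nsmul_eq_mul]
          field_simp
  obtain ⟨j, hj, hle⟩ := Finset.exists_le_of_sum_le (Finset.card_pos.1 hc) hsum
  refine ⟨j, hj, ?_⟩
  have h1 := ent_pr_split P (fun ω => ∃ v ∈ W, a j v ω < hh v) Typ
  have h2 : P.pr (fun ω => (∃ v ∈ W, a j v ω < hh v) ∧ ¬ Typ ω) ≤ P.pr (fun ω => ¬ Typ ω) := ent_pr_mono P fun ω _ h => h.2
  linarith

/-- abstract form of `rn_sel` -/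
theorem rn_sel_aux {Ω : Type} [Fintype Ω] (P : FLaw Ω) {n : ℕ} (T : Ω → Prop) (D : Fin n → ℕ → ℕ → Ω → ℝ)
    {N R lo : ℕ} {g χF L δ δT : ℝ} (J : ℕ → ℕ → ℝ) (hL : 0 ≤ L) (hδ : 0 ≤ δ)
    (i0 k0 : Fin n) (hik : i0 ≠ k0) (hn : 3 ≤ n)
    (hnn : ∀ j a b ω, P.p ω ≠ 0 → 0 ≤ D j a b ω)
    (hTr : P.pr (fun ω => ¬ T ω) ≤ δT)
    (hdir : ∀ j l, j ≠ l → j ≠ i0 → j ≠ k0 → l ≠ i0 → l ≠ k0 → ∀ w < N, ∀ u ≤ R, 2 * lo ≤ u →
       P.pr (fun ω => T ω ∧ D j (w * R + u) (w * R) ω + D l (w * R + u) (w * R) ω < J w u * L) ≤ δ)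
    (hwin : ∀ w < N, ∀ u ≤ R, 2 * lo ≤ u → 2 * (g * u - χF * R) ≤ J w u)
    (hsm : ∀ u : ℕ, u < 2 * lo → g * u - χF * R ≤ 0) :
    ∃ j : Fin n, j ≠ i0 ∧ j ≠ k0 ∧
      P.pr (fun y => ∃ w < N, ∃ u ≤ R, D j (w * R + u) (w * R) y < (g * u - χF * R) * L)
        ≤ (N * (R + 1) : ℝ) / ((n : ℝ) - 2) + (n : ℝ) ^ 2 * (N * (R + 1)) * δ + δT := by
  set cand : Finset (Fin n) := (Finset.univ.erase i0).erase k0 with hcand
  set W : Finset (ℕ × ℕ) := Finset.range N ×ˢ Finset.range (R + 1) with hW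
  have hmc : ∀ j, j ∈ cand ↔ j ≠ k0 ∧ j ≠ i0 := by
    intro j
    simp [hcand]
  have hmW : ∀ v : ℕ × ℕ, v ∈ W ↔ v.1 < N ∧ v.2 ≤ R := by
    intro v
    simp [hW]
  have hcc : cand.card = n - 2 := by
    rw [hcand, Finset.card_erase_of_mem (by simp [hik.symm]), Finset.card_erase_of_mem (Finset.mem_univ _),
      Finset.card_univ, Fintype.card_fin]
    omega
  have hWc : (W.card : ℝ) = N * (R + 1) := by
    rw [hW, Finset.card_product, Finset.card_range, Finset.card_range]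
    push_cast
    ring
  have hccR : (cand.card : ℝ) = (n : ℝ) - 2 := by
    rw [hcc, Nat.cast_sub (by omega)]
    norm_num
  -- the bad events
  let E : (Fin n × Fin n) × (ℕ × ℕ) → Ω → Prop := fun x ω =>
    (x.1.1 ≠ x.1.2 ∧ x.1.1 ∈ cand ∧ x.1.2 ∈ cand ∧ 2 * lo ≤ x.2.2) ∧
      (T ω ∧ D x.1.1 (x.2.1 * R + x.2.2) (x.2.1 * R) ω + D x.1.2 (x.2.1 * R + x.2.2) (x.2.1 * R) ω
        < J x.2.1 x.2.2 * L)
  let Sx : Finset ((Fin n × Fin n) × (ℕ × ℕ)) := (Finset.univ ×ˢ Finset.univ) ×ˢ W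
  let Typ : Ω → Prop := fun ω => P.p ω ≠ 0 ∧ T ω ∧ ∀ x ∈ Sx, ¬ E x ω
  obtain ⟨j, hj, hle⟩ := rn_count_bad P cand W (fun j v ω => D j (v.1 * R + v.2) (v.1 * R) ω)
    (fun v => (g * v.2 - χF * R) * L) Typ (by rw [hcc]; omega) (by
      intro ω hT j hj l hl hjl v hv
      obtain ⟨hp, hTω, hE⟩ := hT
      obtain ⟨hv1, hv2⟩ := (hmW v).1 hv
      by_cases hu : 2 * lo ≤ v.2
      · have h1 := hE ((j, l), v) (by simp [Sx, hv])
        have h2 : J v.1 v.2 * L ≤ D j (v.1 * R + v.2) (v.1 * R) ω + D l (v.1 * R + v.2) (v.1 * R) ω := by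
          by_contra hlt
          exact h1 ⟨⟨hjl, hj, hl, hu⟩, hTω, not_le.1 hlt⟩
        have h3 := mul_le_mul_of_nonneg_right (hwin v.1 hv1 v.2 hv2 hu) hL
        show 2 * ((g * v.2 - χF * R) * L) ≤ _
        linarith
      · have h1 := hsm v.2 (not_le.1 hu)
        have h2 : (g * v.2 - χF * R) * L ≤ 0 := mul_nonpos_of_nonpos_of_nonneg h1 hL
        have h3 := hnn j (v.1 * R + v.2) (v.1 * R) ω hp
        have h4 := hnn l (v.1 * R + v.2) (v.1 * R) ω hp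
        show 2 * ((g * v.2 - χF * R) * L) ≤ _
        linarith)
  obtain ⟨hjk, hji⟩ := (hmc j).1 hj
  refine ⟨j, hji, hjk, ?_⟩
  have hEx : ∀ x ∈ Sx, P.pr (E x) ≤ δ := by
    intro x hx
    have hxW : x.2 ∈ W := (Finset.mem_product.1 hx).2
    obtain ⟨hv1, hv2⟩ := (hmW x.2).1 hxW
    by_cases hc : x.1.1 ≠ x.1.2 ∧ x.1.1 ∈ cand ∧ x.1.2 ∈ cand ∧ 2 * lo ≤ x.2.2
    · obtain ⟨c1, c2, c3, c4⟩ := hc
      obtain ⟨d1, d2⟩ := (hmc _).1 c2
      obtain ⟨d3, d4⟩ := (hmc _).1 c3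
      refine le_trans (ent_pr_mono P fun ω _ h => h.2) (hdir x.1.1 x.1.2 c1 d2 d1 d4 d3 x.2.1 hv1 x.2.2 hv2 c4)
    · rw [ent_pr_eq_zero P fun ω _ h => hc h.1]
      exact hδ
  have hnT : P.pr (fun ω => ¬ Typ ω) ≤ δT + (n : ℝ) ^ 2 * (N * (R + 1)) * δ := by
    have h1 : P.pr (fun ω => ¬ Typ ω) ≤ P.pr (fun ω => ¬ T ω ∨ ∃ x ∈ Sx, E x ω) := by
      refine ent_pr_mono P fun ω hp h => ?_
      by_contra hcon
      rw [not_or, not_not] at hcon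
      refine h ⟨hp, hcon.1, fun x hx hE => hcon.2 ⟨x, hx, hE⟩⟩
    have h2 := ent_pr_or_le P (fun ω => ¬ T ω) (fun ω => ∃ x ∈ Sx, E x ω)
    have h3 := ent_pr_exists_le P Sx E
    have h4 : ∑ x ∈ Sx, P.pr (E x) ≤ Sx.card • δ := Finset.sum_le_card_nsmul _ _ _ hEx
    have h5 : (Sx.card : ℝ) = (n : ℝ) ^ 2 * (N * (R + 1)) := by
      simp only [Sx]
      rw [Finset.card_product, Finset.card_product, Finset.card_univ, Fintype.card_fin]
      push_cast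
      rw [hWc]
      ring
    rw [nsmul_eq_mul, h5] at h4
    linarith
  have hev : P.pr (fun y => ∃ w < N, ∃ u ≤ R, D j (w * R + u) (w * R) y < (g * u - χF * R) * L)
      ≤ P.pr (fun ω => ∃ v ∈ W, D j (v.1 * R + v.2) (v.1 * R) ω < (g * v.2 - χF * R) * L) := by
    refine ent_pr_mono P fun ω _ h => ?_
    obtain ⟨w, hw, u, hu, hlt⟩ := h
    exact ⟨(w, u), (hmW _).2 ⟨hw, hu⟩, hlt⟩
  rw [hWc, hccR] at hle
  linarith

/-- LEAF SEL.  **choice of the second pin.**   `r = N R`, windows `[w R, w R + u]`, `w < N`, `u ≤ R`.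
`Typ` = support ∧ `q.Tr` ∧ the inequality of `rn_dir` for all candidates `j ≠ l` and all windows with `2 lo ≤ u`.   For `u < 2 lo` the threshold is `≤ 0` (`hsm`) and scores are `≥ 0` on the support.
For `u ≥ 2 lo`: `hwin`.   `rn_count_bad` with `cand = univ \ {i0, k0}`, `W = range N ×ˢ range (R+1)`, `hh (w,u) = (g u - χF R) log M`;  `P(¬Typ)`: `rn_tr_prob` + union bound of `rn_dir`. -/
theorem rn_sel {M K lo N R : ℕ} {A d τ es oT dv st ε g χF : ℝ} {jj : ℕ → ℝ}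
    (h : q.Ok M (N * R) K A d τ es oT dv st jj)
    (hM : 2 ≤ M) (hK : 1 ≤ K) (hA : 1 ≤ A) (hes : 0 ≤ es)
    (hlo : 1 / (M : ℝ) ^ lo ≤ rnKap A ((M : ℝ) ^ (-(es * (N * R : ℕ)))))
    (hε : 0 < ε) (hlog : Real.log 36 ≤ ε * Real.log M)
    (hwin : ∀ w < N, ∀ u ≤ R, 2 * lo ≤ u →
      2 * (g * u - χF * R) ≤ jj (w * R + u - lo) - jj (w * R + lo) - τ - 9 * ε)
    (hsm : ∀ u : ℕ, u < 2 * lo → g * u - χF * R ≤ 0)
    (i0 k0 : Fin n) (hik : i0 ≠ k0) (hn : 3 ≤ n) :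
    ∃ j : Fin n, j ≠ i0 ∧ j ≠ k0 ∧
      (q.S n).pr (fun y => ∃ w < N, ∃ u ≤ R, q.dsc M i0 k0 j (w * R + u) (w * R) y < (g * u - χF * R) * Real.log M)
        ≤ (N * (R + 1) : ℝ) / ((n : ℝ) - 2)
          + (n : ℝ) ^ 2 * (N * (R + 1)) * (5 * Real.exp (-(ε * Real.log M)) + τ + ((st + τ) * Real.log M + 1) / (ε * Real.log M))
          + 4 * (n : ℝ) ^ 2 * τ := by
  have hM1 : (1 : ℝ) < M := by exact_mod_cast (by omega : 1 < M)
  have hL : 0 < Real.log M := Real.log_pos hM1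
  have hτ : 0 ≤ τ := le_trans (ent_pr_nonneg _ _) h.slab
  have hst : 0 ≤ (st + τ) * Real.log M := le_trans (ent_miC_nonneg _ _ _ _) h.stat
  have hδ : 0 ≤ 5 * Real.exp (-(ε * Real.log M)) + τ + ((st + τ) * Real.log M + 1) / (ε * Real.log M) := by
    have h1 := Real.exp_pos (-(ε * Real.log M))
    have h2 : 0 ≤ ((st + τ) * Real.log M + 1) / (ε * Real.log M) := div_nonneg (by linarith) (mul_pos hε hL).le
    linarith
  exact rn_sel_aux (q.S n)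
    (q.Tr ((M : ℝ) ^ (-(es * (N * R : ℕ)))) (((M : ℝ) ^ (-(es * (N * R : ℕ)))) ^ 4 / (72 * A ^ 3)) i0 k0)
    (fun j a b => q.dsc M i0 k0 j a b) (N := N) (R := R) (lo := lo) (g := g) (χF := χF) (L := Real.log M)
    (fun w u => jj (w * R + u - lo) - jj (w * R + lo) - τ - 9 * ε) hL.le hδ i0 k0 hik hn
    (fun j a b ω hp => ent_surC_nonneg _ _ _ hp)
    (rn_tr_prob q h (by omega) hA i0 k0 hik)
    (fun j l hjl hji hjk hli hlk w hw u hu hlu =>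
      rn_dir q h hM hK hA hes hlo (by omega)
        (by
          have h1 : w * R + R ≤ N * R := by
            calc w * R + R = (w + 1) * R := by ring
              _ ≤ N * R := Nat.mul_le_mul_right _ hw
          omega) hε hlog hik hjl hji hjk hli hlk)
    hwin hsm

/-- LEAF SEL.  the window hypotheses in the wave case: `jj (a-lo) - jj (b+lo) ≥ m (u - 2 lo) - χ` (`hjj`), `m ≤ 2`, `g ≤ m/2 ≤ 1`, `hnum`;  `χ ≥ 0` follows from `hjj 0 0`. -/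
theorem rn_sel_win {lo N R : ℕ} {τ ε m g χ χF : ℝ} {jj : ℕ → ℝ} (hτ : 0 ≤ τ) (hε : 0 < ε)
    (hm2 : m ≤ 2) (hg0 : 0 ≤ g) (hgm : g ≤ m / 2)
    (hjj : ∀ l l', l ≤ l' → l' ≤ N * R → m * ((l' : ℝ) - l) - χ ≤ jj l' - jj l)
    (hnum : 2 * lo + (χ + τ + 9 * ε) / 2 ≤ χF * R) :
    (∀ w < N, ∀ u ≤ R, 2 * lo ≤ u → 2 * (g * u - χF * R) ≤ jj (w * R + u - lo) - jj (w * R + lo) - τ - 9 * ε) ∧
      (∀ u : ℕ, u < 2 * lo → g * u - χF * R ≤ 0) := by
  have hχ : 0 ≤ χ := by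
    have := hjj 0 0 le_rfl (Nat.zero_le _)
    simp at this
    linarith
  have hg1 : g ≤ 1 := by linarith
  have hlo0 : (0 : ℝ) ≤ lo := Nat.cast_nonneg _
  constructor
  · intro w hw u hu hlu
    have hle : w * R + lo ≤ w * R + u - lo := by omega
    have hNR : w * R + u - lo ≤ N * R := by
      have h1 : w * R + R ≤ N * R := by
        calc w * R + R = (w + 1) * R := by ring
          _ ≤ N * R := Nat.mul_le_mul_right _ hw
      omega
    have h := hjj _ _ hle hNR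
    have hc : ((w * R + u - lo : ℕ) : ℝ) = (w : ℝ) * R + u - lo := by
      rw [Nat.cast_sub (by omega)]
      push_cast
      ring
    rw [hc] at h
    push_cast at h
    have hu' : (2 : ℝ) * lo ≤ u := by exact_mod_cast hlu
    have h2 : m * ((w : ℝ) * R + u - lo - (w * R + lo)) = m * ((u : ℝ) - 2 * lo) := by ring
    rw [h2] at h
    -- 2 g u ≤ m u ; m (u - 2 lo) = m u - 2 m lo ≥ m u - 4 lo
    have h3 : 2 * g * u ≤ m * u := by
      have : (0 : ℝ) ≤ u := Nat.cast_nonneg _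
      nlinarith
    have h4 : m * (2 * (lo : ℝ)) ≤ 2 * (2 * lo) := by nlinarith
    nlinarith
  · intro u hu
    have hu' : (u : ℝ) ≤ 2 * lo := by
      have : u ≤ 2 * lo := hu.le
      exact_mod_cast this
    have hu0 : (0 : ℝ) ≤ u := Nat.cast_nonneg _
    have h3 : g * u ≤ 1 * u := mul_le_mul_of_nonneg_right hg1 hu0
    nlinarith

end Claimed.Agent.R256
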