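import Claimed.Agent.R256.Rnd.Defs

/-!
# Row 256, unit RND (08B), OUT file 1: the geometry of the pins      (architect helper38)

Pure real algebra (no laws).  Replaces Gram-Schmidt, `π_ij`, the projective directions `g_ij` and the secant argument of 08 l.1180-1290.
Points `a b c z : ℝ × ℝ` are angular variables, `rnE z = (1, z, |z|²)`.   FUNCTIONALS on `ℝ⁴` are vectors `Fin 4 → ℝ`, paired by `rnDot`.
For two pins `a, b` the functionals that kill `rnE a`, `rnE b` are spanned by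
   `rnLA a b`,  value on `rnE z` : `rnAl a b z = (b - a) × (z - a)`,
   `rnLB a b`,  value on `rnE z` : `rnBe a b z = (z - a) · (z - b)`,                 `Al² + Be² = |z-a|² |z-b|²`   (Lagrange).
The direction of `rnE c` in the quotient plane is `(Al : Be)(c)` (= cotangent of the inscribed angle: constant on the circles through `a, b`).
CHART: `rnBit a b c : |Be| ≤ |Al|`;  slope `rnSl ∈ [-1,1]` = `Be/Al` or `Al/Be`;  coordinates `(rnF1, rnF2) = (LA, LB)` or `(LB, LA)`;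
`rnNu = rnF2 - rnSl • rnF1` kills `rnE a, rnE b, rnE c`  (the intercept functional).   `rnM2 a b` kills `rnE a`, value `|b-a|²` on `rnE b`.   `rnM1 = (1,0,0,0)`.
SECANT LEMMA without roots:  write `ν_{abc}(rnE z) = p |z'|² + z'·u`, `ν_{ab'c}(rnE z) = p' |z'|² + z'·u'`, `z' = z - a`.  With `γ = c - a`, `γ' = c' - a`, `s = |γ|²`, `s' = |γ'|²`, `δ = s' γ - s γ'`:
  `δ·u = - s ν_{abc}(rnE c')`, `δ·u' = - s ν_{ab'c}(rnE c')`, `|δ|² = s s' |γ - γ'|²`, Cramer `|δ|² (u×u')² ≤ 2 ((δ·u)² |u'|² + (δ·u')² |u|²)`;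
  the same with `b'` for `c'`: `δ₂ = |b'-a|² γ - s (b'-a)`, `δ₂·u' = 0`, `δ₂·u = - s ν_{abc}(rnE b')`, so `(u×u')² |δ₂|² = (δ₂·u)² |u'|²`, `|u'|² ≥ |b'-a|²`.
LEAVES: L-256-RN-GE1 (identities, bounds), GE2 (`rn_geo_secant`), GE3 (`rn_geo_lip`), GE4 (`rn_geo_plane`).
-/

set_option autoImplicit false

namespace Claimed.Agent.R256

open Classical

/-- pairing of a functional with a vector -/
def rnDot (φ x : Fin 4 → ℝ) : ℝ := φ 0 * x 0 + φ 1 * x 1 + φ 2 * x 2 + φ 3 * x 3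

/-- `(b - a) × (z - a)` -/
def rnAl (a b z : ℝ × ℝ) : ℝ := (b.1 - a.1) * (z.2 - a.2) - (b.2 - a.2) * (z.1 - a.1)

/-- `(z - a) · (z - b)` -/
def rnBe (a b z : ℝ × ℝ) : ℝ := (z.1 - a.1) * (z.1 - b.1) + (z.2 - a.2) * (z.2 - b.2)

def rnLA (a b : ℝ × ℝ) : Fin 4 → ℝ := ![(b.2 - a.2) * a.1 - (b.1 - a.1) * a.2, -(b.2 - a.2), b.1 - a.1, 0]

def rnLB (a b : ℝ × ℝ) : Fin 4 → ℝ := ![a.1 * b.1 + a.2 * b.2, -(a.1 + b.1), -(a.2 + b.2), 1]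

def rnM2 (a b : ℝ × ℝ) : Fin 4 → ℝ := ![-((b.1 - a.1) * a.1 + (b.2 - a.2) * a.2), b.1 - a.1, b.2 - a.2, 0]

def rnM1 : Fin 4 → ℝ := ![1, 0, 0, 0]

/-- the chart -/
def rnBit (a b c : ℝ × ℝ) : Prop := |rnBe a b c| ≤ |rnAl a b c|

/-- the slope of `rnE c` in the chart -/
noncomputable def rnSl (a b c : ℝ × ℝ) : ℝ :=
  if rnBit a b c then rnBe a b c / rnAl a b c else rnAl a b c / rnBe a b c

/-- first coordinate of the chart -/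
noncomputable def rnF1 (a b c : ℝ × ℝ) : Fin 4 → ℝ := if rnBit a b c then rnLA a b else rnLB a b

/-- second coordinate of the chart -/
noncomputable def rnF2 (a b c : ℝ × ℝ) : Fin 4 → ℝ := if rnBit a b c then rnLB a b else rnLA a b

/-- the intercept functional -/
noncomputable def rnNu (a b c : ℝ × ℝ) : Fin 4 → ℝ := fun i => rnF2 a b c i - rnSl a b c * rnF1 a b c i

/-- both coordinates are bounded by `A` -/
def RnB (A : ℝ) (z : ℝ × ℝ) : Prop := |z.1| ≤ A ∧ |z.2| ≤ A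

/-! ## GE1: identities and bounds -/

theorem rn_geo_dotA (a b z : ℝ × ℝ) : rnDot (rnLA a b) (rnE z) = rnAl a b z := by
  simp only [rnDot, rnLA, rnE, rnAl, Matrix.cons_val_zero, Matrix.cons_val_one, Matrix.cons_val]
  ring

theorem rn_geo_dotB (a b z : ℝ × ℝ) : rnDot (rnLB a b) (rnE z) = rnBe a b z := by
  simp only [rnDot, rnLB, rnE, rnBe, Matrix.cons_val_zero, Matrix.cons_val_one, Matrix.cons_val]
  ring

theorem rn_geo_dotM2 (a b z : ℝ × ℝ) :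
    rnDot (rnM2 a b) (rnE z) = (b.1 - a.1) * (z.1 - a.1) + (b.2 - a.2) * (z.2 - a.2) := by
  simp only [rnDot, rnM2, rnE, Matrix.cons_val_zero, Matrix.cons_val_one, Matrix.cons_val]
  ring

theorem rn_geo_dotM1 (z : ℝ × ℝ) : rnDot rnM1 (rnE z) = 1 := by
  simp only [rnDot, rnM1, rnE, Matrix.cons_val_zero, Matrix.cons_val_one, Matrix.cons_val]
  ring

theorem rn_geo_lagr (a b c : ℝ × ℝ) :
    rnAl a b c ^ 2 + rnBe a b c ^ 2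
      = ((c.1 - a.1) ^ 2 + (c.2 - a.2) ^ 2) * ((c.1 - b.1) ^ 2 + (c.2 - b.2) ^ 2) := by
  simp only [rnAl, rnBe]
  ring

theorem rn_geo_sl_le (a b c : ℝ × ℝ) : |rnSl a b c| ≤ 1 := by
  unfold rnSl
  split_ifs with h
  · rw [abs_div]
    exact div_le_one_of_le₀ h (abs_nonneg _)
  · rw [abs_div]
    unfold rnBit at h
    exact div_le_one_of_le₀ (not_le.1 h).le (abs_nonneg _)

theorem rn_geo_nu_dot (a b c : ℝ × ℝ) (x : Fin 4 → ℝ) :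
    rnDot (rnNu a b c) x = rnDot (rnF2 a b c) x - rnSl a b c * rnDot (rnF1 a b c) x := by
  simp only [rnDot, rnNu]
  ring

theorem rn_geo_f1_a (a b c : ℝ × ℝ) : rnDot (rnF1 a b c) (rnE a) = 0 := by
  unfold rnF1
  split_ifs
  · rw [rn_geo_dotA]; simp only [rnAl]; ring
  · rw [rn_geo_dotB]; simp only [rnBe]; ring

theorem rn_geo_f1_b (a b c : ℝ × ℝ) : rnDot (rnF1 a b c) (rnE b) = 0 := by
  unfold rnF1
  split_ifs
  · rw [rn_geo_dotA]; simp only [rnAl]; ring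
  · rw [rn_geo_dotB]; simp only [rnBe]; ring

theorem rn_geo_f2_a (a b c : ℝ × ℝ) : rnDot (rnF2 a b c) (rnE a) = 0 := by
  unfold rnF2
  split_ifs
  · rw [rn_geo_dotB]; simp only [rnBe]; ring
  · rw [rn_geo_dotA]; simp only [rnAl]; ring

theorem rn_geo_f2_b (a b c : ℝ × ℝ) : rnDot (rnF2 a b c) (rnE b) = 0 := by
  unfold rnF2
  split_ifs
  · rw [rn_geo_dotB]; simp only [rnBe]; ring
  · rw [rn_geo_dotA]; simp only [rnAl]; ring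

theorem rn_geo_nu_a (a b c : ℝ × ℝ) : rnDot (rnNu a b c) (rnE a) = 0 := by
  rw [rn_geo_nu_dot, rn_geo_f1_a, rn_geo_f2_a]; ring

theorem rn_geo_nu_b (a b c : ℝ × ℝ) : rnDot (rnNu a b c) (rnE b) = 0 := by
  rw [rn_geo_nu_dot, rn_geo_f1_b, rn_geo_f2_b]; ring

/-- (if `Al = Be = 0` everything vanishes) -/
theorem rn_geo_nu_c (a b c : ℝ × ℝ) : rnDot (rnNu a b c) (rnE c) = 0 := by
  rw [rn_geo_nu_dot]
  unfold rnF1 rnF2 rnSl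
  split_ifs with h
  · rw [rn_geo_dotA, rn_geo_dotB]
    by_cases h0 : rnAl a b c = 0
    · unfold rnBit at h
      rw [h0, abs_zero] at h
      have : rnBe a b c = 0 := abs_eq_zero.1 (le_antisymm h (abs_nonneg _))
      rw [h0, this]; simp
    · field_simp
      ring
  · rw [rn_geo_dotA, rn_geo_dotB]
    have h0 : rnBe a b c ≠ 0 := by
      intro h0
      apply h
      unfold rnBit
      rw [h0, abs_zero]
      exact abs_nonneg _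
    field_simp
    ring

/-- speed of the first chart coordinate -/
theorem rn_geo_f1_c (a b c : ℝ × ℝ) :
    ((c.1 - a.1) ^ 2 + (c.2 - a.2) ^ 2) * ((c.1 - b.1) ^ 2 + (c.2 - b.2) ^ 2) ≤ 2 * rnDot (rnF1 a b c) (rnE c) ^ 2 := by
  rw [← rn_geo_lagr]
  unfold rnF1
  split_ifs with h
  · rw [rn_geo_dotA]
    have := sq_le_sq.2 h
    linarith
  · rw [rn_geo_dotB]
    unfold rnBit at h
    have := sq_le_sq.2 (not_le.1 h).le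
    linarith

theorem rn_geo_bd {A : ℝ} (hA : 1 ≤ A) {a b : ℝ × ℝ} (ha : RnB A a) (hb : RnB A b) (c : ℝ × ℝ) (i : Fin 4) :
    |rnLA a b i| ≤ 8 * A ^ 2 ∧ |rnLB a b i| ≤ 8 * A ^ 2 ∧ |rnM2 a b i| ≤ 8 * A ^ 2 ∧ |rnM1 i| ≤ 8 * A ^ 2 ∧
      |rnF1 a b c i| ≤ 8 * A ^ 2 ∧ |rnF2 a b c i| ≤ 8 * A ^ 2 ∧ |rnNu a b c i| ≤ 8 * A ^ 2 := by
  obtain ⟨a1, a2⟩ := ha
  obtain ⟨b1, b2⟩ := hb
  have hAA : A ≤ A ^ 2 := by nlinarith
  have hA1 : 1 ≤ A ^ 2 := by nlinarith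
  have hA0 : 0 ≤ A := by linarith
  have pr : ∀ {x y : ℝ}, |x| ≤ A → |y| ≤ A → |x * y| ≤ A ^ 2 := by
    intro x y hx hy
    rw [abs_mul, sq]
    exact mul_le_mul hx hy (abs_nonneg _) hA0
  have p11 := abs_le.1 (pr a1 b1)
  have p22 := abs_le.1 (pr a2 b2)
  have p12 := abs_le.1 (pr a1 b2)
  have p21 := abs_le.1 (pr a2 b1)
  have q11 := abs_le.1 (pr a1 a1)
  have q22 := abs_le.1 (pr a2 a2)
  have q12 := abs_le.1 (pr a1 a2)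
  have a1' := abs_le.1 a1
  have a2' := abs_le.1 a2
  have b1' := abs_le.1 b1
  have b2' := abs_le.1 b2
  have hLA : |rnLA a b i| ≤ 4 * A ^ 2 := by
    fin_cases i
    · show |(b.2 - a.2) * a.1 - (b.1 - a.1) * a.2| ≤ _
      rw [abs_le]; constructor <;> nlinarith
    · show |-(b.2 - a.2)| ≤ _
      rw [abs_le]; constructor <;> linarith
    · show |b.1 - a.1| ≤ _
      rw [abs_le]; constructor <;> linarith
    · show |(0 : ℝ)| ≤ _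
      rw [abs_zero]; positivity
  have hLB : |rnLB a b i| ≤ 2 * A ^ 2 := by
    fin_cases i
    · show |a.1 * b.1 + a.2 * b.2| ≤ _
      rw [abs_le]; constructor <;> linarith
    · show |-(a.1 + b.1)| ≤ _
      rw [abs_le]; constructor <;> linarith
    · show |-(a.2 + b.2)| ≤ _
      rw [abs_le]; constructor <;> linarith
    · show |(1 : ℝ)| ≤ _
      rw [abs_one]; linarith
  have hM2 : |rnM2 a b i| ≤ 4 * A ^ 2 := by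
    fin_cases i
    · show |-((b.1 - a.1) * a.1 + (b.2 - a.2) * a.2)| ≤ _
      rw [abs_le]; constructor <;> nlinarith
    · show |b.1 - a.1| ≤ _
      rw [abs_le]; constructor <;> linarith
    · show |b.2 - a.2| ≤ _
      rw [abs_le]; constructor <;> linarith
    · show |(0 : ℝ)| ≤ _
      rw [abs_zero]; positivity
  have hM1 : |rnM1 i| ≤ 1 := by
    fin_cases i
    · show |(1 : ℝ)| ≤ _
      rw [abs_one]
    · show |(0 : ℝ)| ≤ _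
      rw [abs_zero]; norm_num
    · show |(0 : ℝ)| ≤ _
      rw [abs_zero]; norm_num
    · show |(0 : ℝ)| ≤ _
      rw [abs_zero]; norm_num
  have hF : |rnF1 a b c i| + |rnF2 a b c i| ≤ 6 * A ^ 2 := by
    unfold rnF1 rnF2
    split_ifs <;> linarith
  have n1 := abs_nonneg (rnF1 a b c i)
  have n2 := abs_nonneg (rnF2 a b c i)
  refine ⟨by linarith, by linarith, by linarith, by linarith, by linarith, by linarith, ?_⟩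
  show |rnF2 a b c i - rnSl a b c * rnF1 a b c i| ≤ _
  have s1 : |rnSl a b c * rnF1 a b c i| ≤ 1 * |rnF1 a b c i| := by
    rw [abs_mul]
    exact mul_le_mul_of_nonneg_right (rn_geo_sl_le a b c) n1
  have := abs_sub (rnF2 a b c i) (rnSl a b c * rnF1 a b c i)
  linarith

theorem rn_geo_dot_le {B X : ℝ} {φ x : Fin 4 → ℝ} (hφ : ∀ i, |φ i| ≤ B) (hx : ∀ i, |x i| ≤ X) :
    |rnDot φ x| ≤ 4 * B * X := by
  have hB : 0 ≤ B := (abs_nonneg _).trans (hφ 0)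
  have pr : ∀ i, |φ i * x i| ≤ B * X := by
    intro i
    rw [abs_mul]
    exact mul_le_mul (hφ i) (hx i) (abs_nonneg _) hB
  unfold rnDot
  have p0 := abs_le.1 (pr 0)
  have p1 := abs_le.1 (pr 1)
  have p2 := abs_le.1 (pr 2)
  have p3 := abs_le.1 (pr 3)
  rw [abs_le]
  constructor <;> linarith

/-! ## GE2: two directions determine the point -/

/-- normal form of the intercept functional around the first pin -/
theorem rn_geo_form (a b c : ℝ × ℝ) : ∃ p u1 u2 : ℝ,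
    (∀ z : ℝ × ℝ, rnDot (rnNu a b c) (rnE z)
      = p * ((z.1 - a.1) ^ 2 + (z.2 - a.2) ^ 2) + (z.1 - a.1) * u1 + (z.2 - a.2) * u2) ∧
    u1 ^ 2 + u2 ^ 2 = ((b.1 - a.1) ^ 2 + (b.2 - a.2) ^ 2) * (1 + rnSl a b c ^ 2) := by
  by_cases h : rnBit a b c
  · refine ⟨1, -(b.1 - a.1) + rnSl a b c * (b.2 - a.2), -(b.2 - a.2) - rnSl a b c * (b.1 - a.1), fun z => ?_, by ring⟩
    rw [rn_geo_nu_dot]
    unfold rnF1 rnF2
    rw [if_pos h, if_pos h, rn_geo_dotA, rn_geo_dotB]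
    simp only [rnAl, rnBe]
    ring
  · refine ⟨-rnSl a b c, -(b.2 - a.2) + rnSl a b c * (b.1 - a.1), (b.1 - a.1) + rnSl a b c * (b.2 - a.2), fun z => ?_, by ring⟩
    rw [rn_geo_nu_dot]
    unfold rnF1 rnF2
    rw [if_neg h, if_neg h, rn_geo_dotA, rn_geo_dotB]
    simp only [rnAl, rnBe]
    ring

/-- a point with the same chart and a close slope almost lies on the circle -/
theorem rn_geo_close {η : ℝ} (a b c c' : ℝ × ℝ) (hbit : rnBit a b c ↔ rnBit a b c') (hs : |rnSl a b c - rnSl a b c'| ≤ η) :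
    rnDot (rnNu a b c) (rnE c') ^ 2
      ≤ η ^ 2 * (((c'.1 - a.1) ^ 2 + (c'.2 - a.2) ^ 2) * ((c'.1 - b.1) ^ 2 + (c'.2 - b.2) ^ 2)) := by
  have f1 : rnF1 a b c = rnF1 a b c' := by
    unfold rnF1
    by_cases h : rnBit a b c
    · rw [if_pos h, if_pos (hbit.1 h)]
    · rw [if_neg h, if_neg fun h' => h (hbit.2 h')]
  have f2 : rnF2 a b c = rnF2 a b c' := by
    unfold rnF2
    by_cases h : rnBit a b c
    · rw [if_pos h, if_pos (hbit.1 h)]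
    · rw [if_neg h, if_neg fun h' => h (hbit.2 h')]
  have z0 := rn_geo_nu_c a b c'
  rw [rn_geo_nu_dot] at z0
  have e : rnDot (rnNu a b c) (rnE c') = -(rnSl a b c - rnSl a b c') * rnDot (rnF1 a b c') (rnE c') := by
    rw [rn_geo_nu_dot, f1, f2]
    linear_combination z0
  have hF : rnDot (rnF1 a b c') (rnE c') ^ 2
      ≤ ((c'.1 - a.1) ^ 2 + (c'.2 - a.2) ^ 2) * ((c'.1 - b.1) ^ 2 + (c'.2 - b.2) ^ 2) := by
    rw [← rn_geo_lagr]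
    unfold rnF1
    split_ifs
    · rw [rn_geo_dotA]; nlinarith [sq_nonneg (rnBe a b c')]
    · rw [rn_geo_dotB]; nlinarith [sq_nonneg (rnAl a b c')]
  have hs2 : (rnSl a b c - rnSl a b c') ^ 2 ≤ η ^ 2 := by
    rw [← sq_abs]
    exact pow_le_pow_left₀ (abs_nonneg _) hs 2
  rw [e, mul_pow, neg_sq]
  exact mul_le_mul hs2 hF (sq_nonneg _) (sq_nonneg _)

/-- Cramer's rule in the plane, as an identity -/
theorem rn_geo_cramer (d1 d2 u1 u2 v1 v2 : ℝ) :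
    (u1 * v2 - u2 * v1) ^ 2 * (d1 ^ 2 + d2 ^ 2)
      = ((d1 * u1 + d2 * u2) * v2 - (d1 * v1 + d2 * v2) * u2) ^ 2 + ((d1 * v1 + d2 * v2) * u1 - (d1 * u1 + d2 * u2) * v1) ^ 2 := by
  ring

/-- the core of the secant lemma: two circles through `0` and `γ`, the second one through `β'` -/
theorem rn_geo_core {g1 g2 h1 h2 b1 b2 p u1 u2 p' v1 v2 : ℝ} (hs : 0 < g1 ^ 2 + g2 ^ 2)
    (e1 : p * (g1 ^ 2 + g2 ^ 2) + g1 * u1 + g2 * u2 = 0) (e2 : p' * (g1 ^ 2 + g2 ^ 2) + g1 * v1 + g2 * v2 = 0)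
    (e3 : p' * (b1 ^ 2 + b2 ^ 2) + b1 * v1 + b2 * v2 = 0) :
    (h1 ^ 2 + h2 ^ 2) * ((g1 - h1) ^ 2 + (g2 - h2) ^ 2) * (p * (b1 ^ 2 + b2 ^ 2) + b1 * u1 + b2 * u2) ^ 2 * (v1 ^ 2 + v2 ^ 2)
      ≤ 2 * ((p * (h1 ^ 2 + h2 ^ 2) + h1 * u1 + h2 * u2) ^ 2 * (v1 ^ 2 + v2 ^ 2)
          + (p' * (h1 ^ 2 + h2 ^ 2) + h1 * v1 + h2 * v2) ^ 2 * (u1 ^ 2 + u2 ^ 2))
        * ((b1 ^ 2 + b2 ^ 2) * ((g1 - b1) ^ 2 + (g2 - b2) ^ 2)) := by
  obtain ⟨s, hsd⟩ : ∃ s : ℝ, s = g1 ^ 2 + g2 ^ 2 := ⟨_, rfl⟩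
  obtain ⟨s', hs'd⟩ : ∃ s' : ℝ, s' = h1 ^ 2 + h2 ^ 2 := ⟨_, rfl⟩
  obtain ⟨B, hBd⟩ : ∃ B : ℝ, B = b1 ^ 2 + b2 ^ 2 := ⟨_, rfl⟩
  obtain ⟨D, hDd⟩ : ∃ D : ℝ, D = u1 * v2 - u2 * v1 := ⟨_, rfl⟩
  obtain ⟨N, hNd⟩ : ∃ N : ℝ, N = p * s' + h1 * u1 + h2 * u2 := ⟨_, rfl⟩
  obtain ⟨N', hN'd⟩ : ∃ N' : ℝ, N' = p' * s' + h1 * v1 + h2 * v2 := ⟨_, rfl⟩
  obtain ⟨Nb, hNbd⟩ : ∃ Nb : ℝ, Nb = p * B + b1 * u1 + b2 * u2 := ⟨_, rfl⟩
  obtain ⟨G, hGd⟩ : ∃ G : ℝ, G = (g1 - h1) ^ 2 + (g2 - h2) ^ 2 := ⟨_, rfl⟩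
  obtain ⟨K, hKd⟩ : ∃ K : ℝ, K = (g1 - b1) ^ 2 + (g2 - b2) ^ 2 := ⟨_, rfl⟩
  obtain ⟨U, hUd⟩ : ∃ U : ℝ, U = u1 ^ 2 + u2 ^ 2 := ⟨_, rfl⟩
  obtain ⟨V, hVd⟩ : ∃ V : ℝ, V = v1 ^ 2 + v2 ^ 2 := ⟨_, rfl⟩
  rw [← hsd] at hs e1 e2
  rw [← hBd] at e3
  rw [← hs'd, ← hBd, ← hNd, ← hN'd, ← hNbd, ← hGd, ← hKd, ← hUd, ← hVd]
  -- first secant
  have c1 := rn_geo_cramer (s' * g1 - s * h1) (s' * g2 - s * h2) u1 u2 v1 v2
  have d1 : (s' * g1 - s * h1) * u1 + (s' * g2 - s * h2) * u2 = -(s * N) := by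
    rw [hNd]; linear_combination s' * e1
  have d2 : (s' * g1 - s * h1) * v1 + (s' * g2 - s * h2) * v2 = -(s * N') := by
    rw [hN'd]; linear_combination s' * e2
  have d3 : (s' * g1 - s * h1) ^ 2 + (s' * g2 - s * h2) ^ 2 = s * s' * G := by
    rw [hGd]
    have : (s' * g1 - s * h1) ^ 2 + (s' * g2 - s * h2) ^ 2
        = s' ^ 2 * (g1 ^ 2 + g2 ^ 2) - 2 * s * s' * (g1 * h1 + g2 * h2) + s ^ 2 * (h1 ^ 2 + h2 ^ 2) := by ring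
    rw [this, ← hsd, ← hs'd]
    have e : (g1 - h1) ^ 2 + (g2 - h2) ^ 2 = (g1 ^ 2 + g2 ^ 2) - 2 * (g1 * h1 + g2 * h2) + (h1 ^ 2 + h2 ^ 2) := by ring
    rw [e, ← hsd, ← hs'd]
    ring
  rw [d1, d2, d3, ← hDd] at c1
  have E1 : D ^ 2 * (s' * G) ≤ 2 * s * (N ^ 2 * V + N' ^ 2 * U) := by
    have k1 : D ^ 2 * (s * s' * G) ≤ 2 * s ^ 2 * (N ^ 2 * V + N' ^ 2 * U) := by
      rw [c1, hUd, hVd]
      nlinarith [sq_nonneg (s * N * v2 + s * N' * u2), sq_nonneg (s * N' * u1 + s * N * v1)]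
    have k2 : s * (D ^ 2 * (s' * G)) ≤ s * (2 * s * (N ^ 2 * V + N' ^ 2 * U)) := by
      calc s * (D ^ 2 * (s' * G)) = D ^ 2 * (s * s' * G) := by ring
        _ ≤ 2 * s ^ 2 * (N ^ 2 * V + N' ^ 2 * U) := k1
        _ = s * (2 * s * (N ^ 2 * V + N' ^ 2 * U)) := by ring
    exact le_of_mul_le_mul_left k2 hs
  -- second secant
  have c2 := rn_geo_cramer (B * g1 - s * b1) (B * g2 - s * b2) u1 u2 v1 v2
  have f1 : (B * g1 - s * b1) * u1 + (B * g2 - s * b2) * u2 = -(s * Nb) := by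
    rw [hNbd]; linear_combination B * e1
  have f2 : (B * g1 - s * b1) * v1 + (B * g2 - s * b2) * v2 = 0 := by
    linear_combination B * e2 - s * e3
  have f3 : (B * g1 - s * b1) ^ 2 + (B * g2 - s * b2) ^ 2 = s * B * K := by
    rw [hKd]
    have : (B * g1 - s * b1) ^ 2 + (B * g2 - s * b2) ^ 2
        = B ^ 2 * (g1 ^ 2 + g2 ^ 2) - 2 * s * B * (g1 * b1 + g2 * b2) + s ^ 2 * (b1 ^ 2 + b2 ^ 2) := by ring
    rw [this, ← hsd, ← hBd]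
    have e : (g1 - b1) ^ 2 + (g2 - b2) ^ 2 = (g1 ^ 2 + g2 ^ 2) - 2 * (g1 * b1 + g2 * b2) + (b1 ^ 2 + b2 ^ 2) := by ring
    rw [e, ← hsd, ← hBd]
    ring
  rw [f1, f2, f3, ← hDd] at c2
  have E2 : D ^ 2 * (B * K) = s * (Nb ^ 2 * V) := by
    have k1 : s * (D ^ 2 * (B * K)) = s * (s * (Nb ^ 2 * V)) := by
      calc s * (D ^ 2 * (B * K)) = D ^ 2 * (s * B * K) := by ring
        _ = _ := c2
        _ = s * (s * (Nb ^ 2 * V)) := by rw [hVd]; ring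
    exact mul_left_cancel₀ hs.ne' k1
  have hBK : 0 ≤ B * K := by rw [hBd, hKd]; positivity
  have k3 : s * (s' * G * Nb ^ 2 * V) ≤ s * (2 * (N ^ 2 * V + N' ^ 2 * U) * (B * K)) := by
    calc s * (s' * G * Nb ^ 2 * V) = (s' * G) * (s * (Nb ^ 2 * V)) := by ring
      _ = (D ^ 2 * (s' * G)) * (B * K) := by rw [← E2]; ring
      _ ≤ (2 * s * (N ^ 2 * V + N' ^ 2 * U)) * (B * K) := mul_le_mul_of_nonneg_right E1 hBK
      _ = s * (2 * (N ^ 2 * V + N' ^ 2 * U) * (B * K)) := by ring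
  exact le_of_mul_le_mul_left k3 hs

/-- the arithmetic of the secant lemma -/
theorem rn_geo_fin {A η ϖ₂ s' G Nb N N' B B' K Kb Kb' W W' : ℝ} (hA : 1 ≤ A) (hϖ₂ : 0 < ϖ₂) (hs' : 0 < s')
    (hB' : 0 < B') (hG : 0 ≤ G) (hB0 : 0 ≤ B) (hB : B ≤ 8 * A ^ 2) (hB'8 : B' ≤ 8 * A ^ 2) (hK0 : 0 ≤ K) (hK : K ≤ 8 * A ^ 2)
    (hKb : Kb ≤ 8 * A ^ 2) (hKb' : Kb' ≤ 8 * A ^ 2)
    (hW1 : 1 ≤ W) (hW : W ≤ 2) (hW'1 : 1 ≤ W') (hW' : W' ≤ 2)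
    (n1 : N ^ 2 ≤ η ^ 2 * (s' * Kb)) (n2 : N' ^ 2 ≤ η ^ 2 * (s' * Kb')) (htr : ϖ₂ ≤ |Nb|)
    (core : s' * G * Nb ^ 2 * (B' * W') ≤ 2 * (N ^ 2 * (B' * W') + N' ^ 2 * (B * W)) * (B' * K)) :
    G * ϖ₂ ^ 2 ≤ 4096 * η ^ 2 * A ^ 6 := by
  have hA2 : 0 ≤ 8 * A ^ 2 := by positivity
  have k1 : N ^ 2 * (B' * W') ≤ η ^ 2 * (s' * Kb) * (B' * W') := mul_le_mul_of_nonneg_right n1 (by positivity)
  have k2 : N' ^ 2 * (B * W) ≤ η ^ 2 * (s' * Kb') * (B * W) := mul_le_mul_of_nonneg_right n2 (by positivity)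
  have k3 : 2 * (N ^ 2 * (B' * W') + N' ^ 2 * (B * W)) * (B' * K)
      ≤ 2 * (η ^ 2 * (s' * Kb) * (B' * W') + η ^ 2 * (s' * Kb') * (B * W)) * (B' * K) :=
    mul_le_mul_of_nonneg_right (by linarith) (by positivity)
  have k4 : (s' * B') * (G * Nb ^ 2 * W') ≤ (s' * B') * (2 * η ^ 2 * ((Kb * B' * W' + Kb' * B * W) * K)) := by
    calc (s' * B') * (G * Nb ^ 2 * W') = s' * G * Nb ^ 2 * (B' * W') := by ring
      _ ≤ _ := core.trans k3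
      _ = (s' * B') * (2 * η ^ 2 * ((Kb * B' * W' + Kb' * B * W) * K)) := by ring
  have k5 : G * Nb ^ 2 * W' ≤ 2 * η ^ 2 * ((Kb * B' * W' + Kb' * B * W) * K) := le_of_mul_le_mul_left k4 (by positivity)
  have m1 : Kb * B' * W' ≤ 8 * A ^ 2 * (8 * A ^ 2) * 2 :=
    mul_le_mul (mul_le_mul hKb hB'8 hB'.le hA2) hW' (by linarith) (by positivity)
  have m2 : Kb' * B * W ≤ 8 * A ^ 2 * (8 * A ^ 2) * 2 :=
    mul_le_mul (mul_le_mul hKb' hB hB0 hA2) hW (by linarith) (by positivity)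
  have m3 : (Kb * B' * W' + Kb' * B * W) * K ≤ (8 * A ^ 2 * (8 * A ^ 2) * 2 + 8 * A ^ 2 * (8 * A ^ 2) * 2) * (8 * A ^ 2) :=
    mul_le_mul (by linarith) hK hK0 (by positivity)
  have m4 : 2 * η ^ 2 * ((Kb * B' * W' + Kb' * B * W) * K)
      ≤ 2 * η ^ 2 * ((8 * A ^ 2 * (8 * A ^ 2) * 2 + 8 * A ^ 2 * (8 * A ^ 2) * 2) * (8 * A ^ 2)) :=
    mul_le_mul_of_nonneg_left m3 (by positivity)
  have t1 : ϖ₂ ^ 2 ≤ Nb ^ 2 := by
    rw [← sq_abs Nb]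
    exact pow_le_pow_left₀ hϖ₂.le htr 2
  have t2 : G * ϖ₂ ^ 2 ≤ G * Nb ^ 2 := mul_le_mul_of_nonneg_left t1 hG
  have t3 : G * Nb ^ 2 * 1 ≤ G * Nb ^ 2 * W' := mul_le_mul_of_nonneg_left hW'1 (by positivity)
  have e : 2 * η ^ 2 * ((8 * A ^ 2 * (8 * A ^ 2) * 2 + 8 * A ^ 2 * (8 * A ^ 2) * 2) * (8 * A ^ 2)) = 4096 * η ^ 2 * A ^ 6 := by ring
  linarith

/-- squared distance of two bounded points -/
theorem rn_geo_dist {A : ℝ} {x y : ℝ × ℝ} (hx : RnB A x) (hy : RnB A y) : (x.1 - y.1) ^ 2 + (x.2 - y.2) ^ 2 ≤ 8 * A ^ 2 := by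
  obtain ⟨x1, x2⟩ := hx
  obtain ⟨y1, y2⟩ := hy
  have x1' := abs_le.1 x1
  have x2' := abs_le.1 x2
  have y1' := abs_le.1 y1
  have y2' := abs_le.1 y2
  have a1 : (x.1 - y.1) ^ 2 ≤ (2 * A) ^ 2 := sq_le_sq' (by linarith) (by linarith)
  have a2 : (x.2 - y.2) ^ 2 ≤ (2 * A) ^ 2 := sq_le_sq' (by linarith) (by linarith)
  nlinarith

/-- LEAF GE2. **the secant lemma** (header).  `c, c'` have the same charts and `η`-close slopes with respect to `(a,b)` and `(a,b')`. -/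
theorem rn_geo_secant {A ϖ ϖ₂ η : ℝ} (hA : 1 ≤ A) (hϖ : 0 < ϖ) (hϖ₂ : 0 < ϖ₂) (hη : 0 ≤ η) {a b b' c c' : ℝ × ℝ}
    (ha : RnB A a) (hb : RnB A b) (hb' : RnB A b') (hc : RnB A c) (hc' : RnB A c')
    (hbit : rnBit a b c ↔ rnBit a b c') (hbit' : rnBit a b' c ↔ rnBit a b' c')
    (hs : |rnSl a b c - rnSl a b c'| ≤ η) (hs' : |rnSl a b' c - rnSl a b' c'| ≤ η)
    (hca : ϖ ≤ |c.1 - a.1|) (hc'a : ϖ ≤ |c'.1 - a.1|) (hb'a : ϖ ≤ |b'.1 - a.1|)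
    (htr : ϖ₂ ≤ |rnDot (rnNu a b c) (rnE b')|) :
    |c.1 - c'.1| ≤ 200 * A ^ 4 * η / (ϖ * ϖ₂) ∧ |c.2 - c'.2| ≤ 200 * A ^ 4 * η / (ϖ * ϖ₂) := by
  have pos : ∀ x y : ℝ, ϖ ≤ |x| → 0 < x ^ 2 + y ^ 2 := by
    intro x y hx
    have : 0 < |x| := lt_of_lt_of_le hϖ hx
    have h2 : 0 < x ^ 2 := by rw [← sq_abs]; positivity
    exact add_pos_of_pos_of_nonneg h2 (sq_nonneg y)
  have sl : ∀ σ : ℝ, |σ| ≤ 1 → 1 ≤ 1 + σ ^ 2 ∧ 1 + σ ^ 2 ≤ 2 := by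
    intro σ hσ
    have : σ ^ 2 ≤ 1 ^ 2 := by rw [← sq_abs]; exact pow_le_pow_left₀ (abs_nonneg _) hσ 2
    have h0 := sq_nonneg σ
    constructor <;> linarith
  have hϖA : ϖ ≤ 2 * A := by
    have h1 := abs_le.1 hc.1
    have h2 := abs_le.1 ha.1
    refine hca.trans (abs_le.2 ⟨by linarith, by linarith⟩)
  have fin : (((c.1 - a.1) - (c'.1 - a.1)) ^ 2 + ((c.2 - a.2) - (c'.2 - a.2)) ^ 2) * ϖ₂ ^ 2 ≤ 4096 * η ^ 2 * A ^ 6 := by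
    obtain ⟨p, u1, u2, hu, hU⟩ := rn_geo_form a b c
    obtain ⟨p', v1, v2, hv, hV⟩ := rn_geo_form a b' c
    have e1 := hu c
    rw [rn_geo_nu_c] at e1
    have e2 := hv c
    rw [rn_geo_nu_c] at e2
    have e3 := hv b'
    rw [rn_geo_nu_b] at e3
    have n1 := rn_geo_close a b c c' hbit hs
    rw [hu c'] at n1
    have n2 := rn_geo_close a b' c c' hbit' hs'
    rw [hv c'] at n2
    rw [hu b'] at htr
    have core := rn_geo_core (h1 := c'.1 - a.1) (h2 := c'.2 - a.2) (pos _ (c.2 - a.2) hca) e1.symm e2.symm e3.symm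
    rw [hU, hV] at core
    have kk : ((c.1 - a.1) - (b'.1 - a.1)) ^ 2 + ((c.2 - a.2) - (b'.2 - a.2)) ^ 2 = (c.1 - b'.1) ^ 2 + (c.2 - b'.2) ^ 2 := by ring
    exact rn_geo_fin hA hϖ₂ (pos _ (c'.2 - a.2) hc'a) (pos _ (b'.2 - a.2) hb'a) (by positivity) (by positivity)
      (rn_geo_dist hb ha) (rn_geo_dist hb' ha) (by positivity) (by rw [kk]; exact rn_geo_dist hc hb') (rn_geo_dist hc' hb)
      (rn_geo_dist hc' hb') (sl _ (rn_geo_sl_le a b c)).1 (sl _ (rn_geo_sl_le a b c)).2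
      (sl _ (rn_geo_sl_le a b' c)).1 (sl _ (rn_geo_sl_le a b' c)).2 n1 n2 htr core
  have key : ∀ x : ℝ, x ^ 2 ≤ ((c.1 - a.1) - (c'.1 - a.1)) ^ 2 + ((c.2 - a.2) - (c'.2 - a.2)) ^ 2 →
      |x| ≤ 200 * A ^ 4 * η / (ϖ * ϖ₂) := by
    intro x hx
    have g1 : x ^ 2 * ϖ₂ ^ 2 ≤ 4096 * η ^ 2 * A ^ 6 := (mul_le_mul_of_nonneg_right hx (by positivity)).trans fin
    have g2 : (|x| * ϖ₂) ^ 2 ≤ (64 * η * A ^ 3) ^ 2 := by
      rw [mul_pow, sq_abs]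
      calc x ^ 2 * ϖ₂ ^ 2 ≤ 4096 * η ^ 2 * A ^ 6 := g1
        _ = (64 * η * A ^ 3) ^ 2 := by ring
    have g3 : |x| * ϖ₂ ≤ 64 * η * A ^ 3 :=
      (pow_le_pow_iff_left₀ (by positivity) (by positivity) (two_ne_zero)).1 g2
    rw [le_div_iff₀ (by positivity)]
    have g4 : ϖ * (|x| * ϖ₂) ≤ 2 * A * (64 * η * A ^ 3) := mul_le_mul hϖA g3 (by positivity) (by positivity)
    have g5 : 0 ≤ A ^ 4 * η := by positivity
    calc |x| * (ϖ * ϖ₂) = ϖ * (|x| * ϖ₂) := by ring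
      _ ≤ 2 * A * (64 * η * A ^ 3) := g4
      _ = 128 * (A ^ 4 * η) := by ring
      _ ≤ 200 * A ^ 4 * η := by linarith
  constructor
  · apply key
    have : (c.1 - c'.1) ^ 2 = ((c.1 - a.1) - (c'.1 - a.1)) ^ 2 := by ring
    rw [this]
    exact le_add_of_nonneg_right (sq_nonneg _)
  · apply key
    have : (c.2 - c'.2) ^ 2 = ((c.2 - a.2) - (c'.2 - a.2)) ^ 2 := by ring
    rw [this]
    exact le_add_of_nonneg_left (sq_nonneg _)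

/-! ## GE3: the slope is Lipschitz in a chart -/

theorem rn_ge3_quot {p q p' q' M d w : ℝ} (hw : 0 < w) (hq : w ≤ q ^ 2) (hq' : w ≤ q' ^ 2) (hp : |p| ≤ M) (hqM : |q| ≤ M)
    (hdp : |p' - p| ≤ d) (hdq : |q' - q| ≤ d) : |p / q - p' / q'| ≤ 2 * M * d / w := by
  have hq0 : q ≠ 0 := by
    intro h
    rw [h] at hq
    norm_num at hq
    linarith
  have hq0' : q' ≠ 0 := by
    intro h
    rw [h] at hq'
    norm_num at hq'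
    linarith
  have hM : 0 ≤ M := (abs_nonneg _).trans hp
  have hd : 0 ≤ d := (abs_nonneg _).trans hdp
  have e : p / q - p' / q' = (p * (q' - q) - (p' - p) * q) / (q * q') := by
    field_simp
    ring
  have hnum : |p * (q' - q) - (p' - p) * q| ≤ 2 * M * d := by
    have a1 : |p * (q' - q)| ≤ M * d := by
      rw [abs_mul]
      exact mul_le_mul hp hdq (abs_nonneg _) hM
    have a2 : |(p' - p) * q| ≤ d * M := by
      rw [abs_mul]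
      exact mul_le_mul hdp hqM (abs_nonneg _) hd
    have a3 := abs_sub (p * (q' - q)) ((p' - p) * q)
    linarith
  have hden : w ≤ |q * q'| := by
    have h1 : w ^ 2 ≤ (q * q') ^ 2 := by
      rw [mul_pow, sq w]
      exact mul_le_mul hq hq' hw.le (sq_nonneg _)
    have h2 := sq_le_sq.1 h1
    rwa [abs_of_pos hw] at h2
  rw [e, abs_div]
  exact div_le_div₀ (by positivity) hnum hw hden

theorem rn_ge3_low {ϖ : ℝ} (hϖ : 0 < ϖ) {a b c : ℝ × ℝ} (hca : ϖ ≤ |c.1 - a.1|) (hcb : ϖ ≤ |c.1 - b.1|) :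
    ϖ ^ 4 ≤ rnAl a b c ^ 2 + rnBe a b c ^ 2 := by
  rw [rn_geo_lagr]
  have h1 : ϖ ^ 2 ≤ (c.1 - a.1) ^ 2 := by
    rw [← sq_abs (c.1 - a.1)]
    exact pow_le_pow_left₀ hϖ.le hca 2
  have h2 : ϖ ^ 2 ≤ (c.1 - b.1) ^ 2 := by
    rw [← sq_abs (c.1 - b.1)]
    exact pow_le_pow_left₀ hϖ.le hcb 2
  calc ϖ ^ 4 = ϖ ^ 2 * ϖ ^ 2 := by ring
    _ ≤ ((c.1 - a.1) ^ 2 + (c.2 - a.2) ^ 2) * ((c.1 - b.1) ^ 2 + (c.2 - b.2) ^ 2) :=
        mul_le_mul (by nlinarith [sq_nonneg (c.2 - a.2)]) (by nlinarith [sq_nonneg (c.2 - b.2)]) (by positivity) (by positivity)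

theorem rn_ge3_mul {x y X Y : ℝ} (hx : |x| ≤ X) (hy : |y| ≤ Y) : |x * y| ≤ X * Y := by
  rw [abs_mul]
  exact mul_le_mul hx hy (abs_nonneg _) ((abs_nonneg _).trans hx)

theorem rn_ge3_sub {x y A : ℝ} (hx : |x| ≤ A) (hy : |y| ≤ A) : |x - y| ≤ 2 * A := by
  have := abs_sub x y
  linarith

theorem rn_ge3_bd {A : ℝ} {a b c : ℝ × ℝ} (ha : RnB A a) (hb : RnB A b) (hc : RnB A c) :
    |rnAl a b c| ≤ 8 * A ^ 2 ∧ |rnBe a b c| ≤ 8 * A ^ 2 := by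
  unfold rnAl rnBe
  have m1 := rn_ge3_mul (rn_ge3_sub hb.1 ha.1) (rn_ge3_sub hc.2 ha.2)
  have m2 := rn_ge3_mul (rn_ge3_sub hb.2 ha.2) (rn_ge3_sub hc.1 ha.1)
  have m3 := rn_ge3_mul (rn_ge3_sub hc.1 ha.1) (rn_ge3_sub hc.1 hb.1)
  have m4 := rn_ge3_mul (rn_ge3_sub hc.2 ha.2) (rn_ge3_sub hc.2 hb.2)
  have s1 := abs_sub ((b.1 - a.1) * (c.2 - a.2)) ((b.2 - a.2) * (c.1 - a.1))
  have s2 := abs_add_le ((c.1 - a.1) * (c.1 - b.1)) ((c.2 - a.2) * (c.2 - b.2))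
  constructor <;> nlinarith

theorem rn_ge3_diff {A η : ℝ} (hA : 1 ≤ A) (hη : 0 ≤ η) {a b c c' : ℝ × ℝ} (ha : RnB A a) (hb : RnB A b) (hc : RnB A c)
    (hc' : RnB A c') (h1 : |c.1 - c'.1| ≤ η) (h2 : |c.2 - c'.2| ≤ η) :
    |rnAl a b c' - rnAl a b c| ≤ 8 * A * η ∧ |rnBe a b c' - rnBe a b c| ≤ 8 * A * η := by
  have hAη : 0 ≤ A * η := by positivity
  constructor
  · have e : rnAl a b c' - rnAl a b c = (b.2 - a.2) * (c.1 - c'.1) - (b.1 - a.1) * (c.2 - c'.2) := by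
      unfold rnAl
      ring
    have m1 := rn_ge3_mul (rn_ge3_sub hb.2 ha.2) h1
    have m2 := rn_ge3_mul (rn_ge3_sub hb.1 ha.1) h2
    have s1 := abs_sub ((b.2 - a.2) * (c.1 - c'.1)) ((b.1 - a.1) * (c.2 - c'.2))
    rw [e]
    nlinarith
  · have e : rnBe a b c' - rnBe a b c = -(((c'.1 - b.1) + (c.1 - a.1)) * (c.1 - c'.1) + ((c'.2 - b.2) + (c.2 - a.2)) * (c.2 - c'.2)) := by
      unfold rnBe
      ring
    have t1 : |(c'.1 - b.1) + (c.1 - a.1)| ≤ 4 * A := by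
      have := abs_add_le (c'.1 - b.1) (c.1 - a.1)
      linarith [rn_ge3_sub hc'.1 hb.1, rn_ge3_sub hc.1 ha.1]
    have t2 : |(c'.2 - b.2) + (c.2 - a.2)| ≤ 4 * A := by
      have := abs_add_le (c'.2 - b.2) (c.2 - a.2)
      linarith [rn_ge3_sub hc'.2 hb.2, rn_ge3_sub hc.2 ha.2]
    have m1 := rn_ge3_mul t1 h1
    have m2 := rn_ge3_mul t2 h2
    have s1 := abs_add_le (((c'.1 - b.1) + (c.1 - a.1)) * (c.1 - c'.1)) (((c'.2 - b.2) + (c.2 - a.2)) * (c.2 - c'.2))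
    rw [e, abs_neg]
    nlinarith

/-- LEAF GE3.  `σ - σ' = (Be Al' - Be' Al)/(Al Al')`, `Al² ≥ (Al² + Be²)/2 ≥ ϖ⁴/2`, `|Al' - Al| ≤ 4 A η`, `|Be' - Be| ≤ 8 A η`, `|Al|, |Be| ≤ 8 A²`. -/
theorem rn_geo_lip {A ϖ η : ℝ} (hA : 1 ≤ A) (hϖ : 0 < ϖ) (hη : 0 ≤ η) {a b c c' : ℝ × ℝ}
    (ha : RnB A a) (hb : RnB A b) (hc : RnB A c) (hc' : RnB A c') (hbit : rnBit a b c ↔ rnBit a b c')
    (hca : ϖ ≤ |c.1 - a.1|) (hcb : ϖ ≤ |c.1 - b.1|) (hc'a : ϖ ≤ |c'.1 - a.1|) (hc'b : ϖ ≤ |c'.1 - b.1|)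
    (h1 : |c.1 - c'.1| ≤ η) (h2 : |c.2 - c'.2| ≤ η) :
    |rnSl a b c - rnSl a b c'| ≤ 400 * A ^ 3 * η / ϖ ^ 4 := by
  obtain ⟨bA, bB⟩ := rn_ge3_bd ha hb hc
  obtain ⟨dA, dB⟩ := rn_ge3_diff hA hη ha hb hc hc' h1 h2
  have l := rn_ge3_low hϖ hca hcb
  have l' := rn_ge3_low hϖ hc'a hc'b
  have hw : 0 < ϖ ^ 4 / 2 := by positivity
  have fin : 2 * (8 * A ^ 2) * (8 * A * η) / (ϖ ^ 4 / 2) ≤ 400 * A ^ 3 * η / ϖ ^ 4 := by
    rw [div_le_div_iff₀ hw (by positivity)]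
    have : 0 ≤ A ^ 3 * η * ϖ ^ 4 := by positivity
    nlinarith
  unfold rnSl
  by_cases hb1 : rnBit a b c
  · have hb2 := hbit.1 hb1
    rw [if_pos hb1, if_pos hb2]
    have s1 : rnBe a b c ^ 2 ≤ rnAl a b c ^ 2 := sq_le_sq.2 hb1
    have s2 : rnBe a b c' ^ 2 ≤ rnAl a b c' ^ 2 := sq_le_sq.2 hb2
    exact (rn_ge3_quot hw (by linarith) (by linarith) bB bA dB dA).trans fin
  · have hb2 : ¬ rnBit a b c' := fun h => hb1 (hbit.2 h)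
    rw [if_neg hb1, if_neg hb2]
    have s1 : rnAl a b c ^ 2 ≤ rnBe a b c ^ 2 := sq_le_sq.2 (le_of_lt (not_le.1 hb1))
    have s2 : rnAl a b c' ^ 2 ≤ rnBe a b c' ^ 2 := sq_le_sq.2 (le_of_lt (not_le.1 hb2))
    exact (rn_ge3_quot hw (by linarith) (by linarith) bA bB dA dB).trans fin

/-! ## GE4: the plane through three pins -/

/-- helper of `rn_geo_plane`: the raw normal is not small (pure real algebra) -/
theorem rn_aux_plane_norm {A ϖ a1 a2 b1 b2 Al Be : ℝ} (hA : 1 ≤ A) (hϖ : 0 < ϖ) (ha1 : |a1| ≤ A) (ha2 : |a2| ≤ A)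
    (hb1 : |b1| ≤ A) (hb2 : |b2| ≤ A) (hba : ϖ ≤ |b1 - a1|) (hX : ϖ ^ 4 ≤ Al ^ 2 + Be ^ 2) :
    ϖ ^ 6 ≤ 32 * A ^ 2 * ((-(Be * (b2 - a2)) + Al * (a1 + b1)) ^ 2 + (Be * (b1 - a1) + Al * (a2 + b2)) ^ 2 + Al ^ 2) := by
  obtain ⟨N1, hN1⟩ : ∃ N1 : ℝ, N1 = -(Be * (b2 - a2)) + Al * (a1 + b1) := ⟨_, rfl⟩
  obtain ⟨N2, hN2⟩ : ∃ N2 : ℝ, N2 = Be * (b1 - a1) + Al * (a2 + b2) := ⟨_, rfl⟩
  rw [← hN1, ← hN2]
  obtain ⟨p1, p2⟩ := abs_le.1 ha1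
  obtain ⟨p3, p4⟩ := abs_le.1 ha2
  obtain ⟨p5, p6⟩ := abs_le.1 hb1
  obtain ⟨p7, p8⟩ := abs_le.1 hb2
  have hu : ϖ ^ 2 ≤ (b1 - a1) ^ 2 := by
    rw [← sq_abs (b1 - a1)]
    exact pow_le_pow_left₀ hϖ.le hba 2
  have sqb : ∀ x : ℝ, -(2 * A) ≤ x → x ≤ 2 * A → x ^ 2 ≤ 4 * A ^ 2 := by
    intro x h1 h2
    have : x ^ 2 ≤ (2 * A) ^ 2 := sq_le_sq' h1 h2
    calc x ^ 2 ≤ (2 * A) ^ 2 := this
      _ = 4 * A ^ 2 := by ring
  have hu4 : (b1 - a1) ^ 2 ≤ 4 * A ^ 2 := sqb _ (by linarith) (by linarith)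
  have hm1 : (a1 + b1) ^ 2 ≤ 4 * A ^ 2 := sqb _ (by linarith) (by linarith)
  have hm2 : (a2 + b2) ^ 2 ≤ 4 * A ^ 2 := sqb _ (by linarith) (by linarith)
  have hA2 : 1 ≤ A ^ 2 := one_le_pow₀ hA
  have key : Be ^ 2 * ((b1 - a1) ^ 2 + (b2 - a2) ^ 2) ≤ 2 * (N1 ^ 2 + N2 ^ 2) + 2 * (Al ^ 2 * ((a1 + b1) ^ 2 + (a2 + b2) ^ 2)) := by
    have e : 2 * (N1 ^ 2 + N2 ^ 2) + 2 * (Al ^ 2 * ((a1 + b1) ^ 2 + (a2 + b2) ^ 2)) - Be ^ 2 * ((b1 - a1) ^ 2 + (b2 - a2) ^ 2)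
        = (N1 + Al * (a1 + b1)) ^ 2 + (N2 + Al * (a2 + b2)) ^ 2 := by
      rw [hN1, hN2]; ring
    have h1 := sq_nonneg (N1 + Al * (a1 + b1))
    have h2 := sq_nonneg (N2 + Al * (a2 + b2))
    linarith
  have k1 : Be ^ 2 * ϖ ^ 2 ≤ Be ^ 2 * ((b1 - a1) ^ 2 + (b2 - a2) ^ 2) :=
    mul_le_mul_of_nonneg_left (by linarith [sq_nonneg (b2 - a2)]) (sq_nonneg Be)
  have k2 : Al ^ 2 * ((a1 + b1) ^ 2 + (a2 + b2) ^ 2) ≤ Al ^ 2 * (8 * A ^ 2) :=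
    mul_le_mul_of_nonneg_left (by linarith) (sq_nonneg Al)
  have k3 : 2 * (N1 ^ 2 + N2 ^ 2) ≤ 32 * A ^ 2 * (N1 ^ 2 + N2 ^ 2) := by
    have h0 : 0 ≤ N1 ^ 2 + N2 ^ 2 := by positivity
    have h1 : (2 : ℝ) ≤ 32 * A ^ 2 := by linarith
    exact mul_le_mul_of_nonneg_right h1 h0
  have k4 : Al ^ 2 * ϖ ^ 2 ≤ Al ^ 2 * (16 * A ^ 2) :=
    mul_le_mul_of_nonneg_left (by linarith) (sq_nonneg Al)
  have k5 : ϖ ^ 6 ≤ ϖ ^ 2 * (Al ^ 2 + Be ^ 2) := by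
    have := mul_le_mul_of_nonneg_left hX (sq_nonneg ϖ)
    calc ϖ ^ 6 = ϖ ^ 2 * ϖ ^ 4 := by ring
      _ ≤ _ := this
  linarith

/-- helper of `rn_geo_plane`: bounds of `Al`, `Be` -/
theorem rn_aux_plane_bd {A : ℝ} (hA : 1 ≤ A) {a b c : ℝ × ℝ} (ha : RnB A a) (hb : RnB A b) (hc : RnB A c) :
    |rnAl a b c| ≤ 8 * A ^ 2 ∧ |rnBe a b c| ≤ 8 * A ^ 2 := by
  obtain ⟨p1, p2⟩ := abs_le.1 ha.1
  obtain ⟨p3, p4⟩ := abs_le.1 ha.2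
  obtain ⟨p5, p6⟩ := abs_le.1 hb.1
  obtain ⟨p7, p8⟩ := abs_le.1 hb.2
  obtain ⟨p9, p10⟩ := abs_le.1 hc.1
  obtain ⟨p11, p12⟩ := abs_le.1 hc.2
  have m : ∀ x y : ℝ, |x| ≤ 2 * A → |y| ≤ 2 * A → |x * y| ≤ 4 * A ^ 2 := by
    intro x y hx hy
    rw [abs_mul]
    calc |x| * |y| ≤ (2 * A) * (2 * A) := mul_le_mul hx hy (abs_nonneg _) (by linarith)
      _ = 4 * A ^ 2 := by ring
  have d : ∀ x y : ℝ, -A ≤ x → x ≤ A → -A ≤ y → y ≤ A → |x - y| ≤ 2 * A := by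
    intro x y h1 h2 h3 h4
    rw [abs_le]; constructor <;> linarith
  constructor
  · unfold rnAl
    refine (abs_sub _ _).trans ?_
    have := m _ _ (d b.1 a.1 p5 p6 p1 p2) (d c.2 a.2 p11 p12 p3 p4)
    have := m _ _ (d b.2 a.2 p7 p8 p3 p4) (d c.1 a.1 p9 p10 p1 p2)
    linarith
  · unfold rnBe
    refine (abs_add_le _ _).trans ?_
    have := m _ _ (d c.1 a.1 p9 p10 p1 p2) (d c.1 b.1 p9 p10 p5 p6)
    have := m _ _ (d c.2 a.2 p11 p12 p3 p4) (d c.2 b.2 p11 p12 p7 p8)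
    linarith

/-- helper of `rn_geo_plane`: `Al² + Be² ≥ ϖ⁴` -/
theorem rn_aux_plane_X {ϖ : ℝ} (hϖ : 0 < ϖ) {a b c : ℝ × ℝ} (hca : ϖ ≤ |c.1 - a.1|) (hcb : ϖ ≤ |c.1 - b.1|) :
    ϖ ^ 4 ≤ rnAl a b c ^ 2 + rnBe a b c ^ 2 := by
  rw [rn_geo_lagr]
  have h1 : ϖ ^ 2 ≤ (c.1 - a.1) ^ 2 := by
    rw [← sq_abs (c.1 - a.1)]
    exact pow_le_pow_left₀ hϖ.le hca 2
  have h2 : ϖ ^ 2 ≤ (c.1 - b.1) ^ 2 := by
    rw [← sq_abs (c.1 - b.1)]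
    exact pow_le_pow_left₀ hϖ.le hcb 2
  calc ϖ ^ 4 = ϖ ^ 2 * ϖ ^ 2 := by ring
    _ ≤ ((c.1 - a.1) ^ 2 + (c.2 - a.2) ^ 2) * ((c.1 - b.1) ^ 2 + (c.2 - b.2) ^ 2) :=
        mul_le_mul (by nlinarith [sq_nonneg (c.2 - a.2)]) (by nlinarith [sq_nonneg (c.2 - b.2)]) (sq_nonneg _)
          (by positivity)

/-- helper of `rn_geo_plane`: `|ν_{abc}(rnE z)| max(|Al c|, |Be c|) = |Be z Al c - Al z Be c|` -/
theorem rn_aux_plane_nu {A ϖ : ℝ} (hA : 1 ≤ A) (hϖ : 0 < ϖ) {a b c : ℝ × ℝ} (ha : RnB A a) (hb : RnB A b) (hc : RnB A c)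
    (hca : ϖ ≤ |c.1 - a.1|) (hcb : ϖ ≤ |c.1 - b.1|) (z : ℝ × ℝ) :
    |rnBe a b z * rnAl a b c - rnAl a b z * rnBe a b c| ≤ 8 * A ^ 2 * |rnDot (rnNu a b c) (rnE z)| := by
  obtain ⟨hAl, hBe⟩ := rn_aux_plane_bd hA ha hb hc
  have hX := rn_aux_plane_X hϖ hca hcb
  have hX0 : 0 < rnAl a b c ^ 2 + rnBe a b c ^ 2 := lt_of_lt_of_le (by positivity) hX
  rw [rn_geo_nu_dot]
  by_cases hbit : rnBit a b c
  · have h0 : rnAl a b c ≠ 0 := by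
      intro h0
      have h1 : |rnBe a b c| ≤ |rnAl a b c| := hbit
      rw [h0, abs_zero] at h1
      have h2 : rnBe a b c = 0 := abs_eq_zero.1 (le_antisymm h1 (abs_nonneg _))
      rw [h0, h2] at hX0
      simp at hX0
    simp only [rnF1, rnF2, rnSl, if_pos hbit, rn_geo_dotA, rn_geo_dotB]
    have e : rnBe a b z * rnAl a b c - rnAl a b z * rnBe a b c
        = rnAl a b c * (rnBe a b z - rnBe a b c / rnAl a b c * rnAl a b z) := by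
      field_simp
    rw [e, abs_mul]
    exact mul_le_mul_of_nonneg_right hAl (abs_nonneg _)
  · have h0 : rnBe a b c ≠ 0 := by
      intro h0
      apply hbit
      unfold rnBit
      rw [h0, abs_zero]
      exact abs_nonneg _
    simp only [rnF1, rnF2, rnSl, if_neg hbit, rn_geo_dotA, rn_geo_dotB]
    have e : rnBe a b z * rnAl a b c - rnAl a b z * rnBe a b c
        = -(rnBe a b c * (rnAl a b z - rnAl a b c / rnBe a b c * rnBe a b z)) := by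
      field_simp
      ring
    rw [e, abs_neg, abs_mul]
    exact mul_le_mul_of_nonneg_right hBe (abs_nonneg _)

/-- LEAF GE4.  `G(c) = Be(b') Al(c) - Al(b') Be(c) = n₀ + n · V(c)`, `n = (Be(b') J(b-a) + Al(b') (a+b), - Al(b'))`, `|n|² ≥ ϖ⁶/(72 A²)`
(cases `Al(b')² ≥ X/2` or not, `X = Al(b')² + Be(b')² ≥ ϖ⁴`);   `|ν_{abc}(rnE b')| = |G(c)| / max |Al(c)| |Be(c)| ≥ |G(c)|/(8 A²)`. -/
theorem rn_geo_plane {A ϖ : ℝ} (hA : 1 ≤ A) (hϖ : 0 < ϖ) {a b b' : ℝ × ℝ} (ha : RnB A a) (hb : RnB A b) (hb' : RnB A b')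
    (hba : ϖ ≤ |b.1 - a.1|) (hb'a : ϖ ≤ |b'.1 - a.1|) (hb'b : ϖ ≤ |b'.1 - b.1|) :
    ∃ (n : ℝ × ℝ × ℝ) (c₀ : ℝ), n.1 ^ 2 + n.2.1 ^ 2 + n.2.2 ^ 2 = 1 ∧
      ∀ c : ℝ × ℝ, RnB A c → ϖ ≤ |c.1 - a.1| → ϖ ≤ |c.1 - b.1| →
        ϖ < |n.1 * c.1 + n.2.1 * c.2 + n.2.2 * (c.1 ^ 2 + c.2 ^ 2) - c₀| →
        ϖ ^ 4 / (72 * A ^ 3) < |rnDot (rnNu a b c) (rnE b')| := by
  have hA0 : 0 < A := by linarith
  set Al : ℝ := rnAl a b b' with hAl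
  set Be : ℝ := rnBe a b b' with hBe
  set N1 : ℝ := -(Be * (b.2 - a.2)) + Al * (a.1 + b.1) with hN1
  set N2 : ℝ := Be * (b.1 - a.1) + Al * (a.2 + b.2) with hN2
  set N0 : ℝ := Be * ((b.2 - a.2) * a.1 - (b.1 - a.1) * a.2) - Al * (a.1 * b.1 + a.2 * b.2) with hN0
  set Q : ℝ := N1 ^ 2 + N2 ^ 2 + Al ^ 2 with hQ
  have hQge : ϖ ^ 6 ≤ 32 * A ^ 2 * Q :=
    rn_aux_plane_norm hA hϖ ha.1 ha.2 hb.1 hb.2 hba (rn_aux_plane_X hϖ hb'a hb'b)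
  have hQ0 : 0 < Q := by
    by_contra hcon
    have h1 : 32 * A ^ 2 * Q ≤ 0 := mul_nonpos_of_nonneg_of_nonpos (by positivity) (not_lt.1 hcon)
    have h2 : 0 < ϖ ^ 6 := by positivity
    linarith
  set r : ℝ := Real.sqrt Q with hr
  have hr0 : 0 < r := Real.sqrt_pos.2 hQ0
  have hr2 : r ^ 2 = Q := Real.sq_sqrt hQ0.le
  have hrge : ϖ ^ 3 / (6 * A) ≤ r := by
    rw [hr]
    refine Real.le_sqrt_of_sq_le ?_
    rw [div_pow, div_le_iff₀ (by positivity)]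
    have : (ϖ ^ 3) ^ 2 = ϖ ^ 6 := by ring
    rw [this]
    nlinarith
  refine ⟨(N1 / r, N2 / r, -Al / r), -N0 / r, ?_, ?_⟩
  · simp only
    rw [div_pow, div_pow, div_pow, hr2, ← add_div, ← add_div, neg_sq]
    exact div_self hQ0.ne'
  intro c hc hca hcb hlt
  simp only at hlt
  have e : N1 / r * c.1 + N2 / r * c.2 + -Al / r * (c.1 ^ 2 + c.2 ^ 2) - -N0 / r
      = (Be * rnAl a b c - Al * rnBe a b c) / r := by
    rw [hN1, hN2, hN0]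
    unfold rnAl rnBe
    field_simp
    ring
  rw [e, abs_div, abs_of_pos hr0, lt_div_iff₀ hr0] at hlt
  have hnu := rn_aux_plane_nu hA hϖ ha hb hc hca hcb b'
  rw [← hAl, ← hBe] at hnu
  have h1 : ϖ * (ϖ ^ 3 / (6 * A)) ≤ ϖ * r := mul_le_mul_of_nonneg_left hrge hϖ.le
  have h2 : ϖ * (ϖ ^ 3 / (6 * A)) < 8 * A ^ 2 * |rnDot (rnNu a b c) (rnE b')| := by linarith
  have h3 : ϖ ^ 4 / (72 * A ^ 3) ≤ ϖ * (ϖ ^ 3 / (6 * A)) / (8 * A ^ 2) := by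
    have e2 : ϖ * (ϖ ^ 3 / (6 * A)) / (8 * A ^ 2) = ϖ ^ 4 / (48 * A ^ 3) := by
      field_simp
      ring
    rw [e2]
    exact div_le_div_of_nonneg_left (by positivity) (by positivity) (by nlinarith [pow_pos hA0 3])
  refine lt_of_le_of_lt h3 ?_
  rw [div_lt_iff₀ (by positivity)]
  linarith

end Claimed.Agent.R256
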