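import Claimed.Agent.R256.Rnd.Defs
import Claimed.Agent.R255.Ent.Star
import Claimed.Agent.R256.LT.Kit

/-!
# Row 256, unit RND (08B), OUT file 2: the pins      (architect helper38)

`n` conditionally independent copies of the sample given the two names `(C, C')`  (08 l.1160-1185).   Built on `R255/Ent/Star.lean` (`starS`, `ent_star_map_pair`, `ent_star_free`).
 * `q.Pt` values of `(C, C')`;  `q.Om n = q.Pt × (Fin n → q.Ω)`;  `q.S n` the law;  the pin `x` is `fun y => y.2 x`.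
 * `q.nC, q.nC'` the names, `q.pO` the common point (a function of `y.1` EVERYWHERE, not only on the support);
 * `q.oth x` all pins but `x`;   `q.zs J` the angular variables of the pins in `J`.
FACTS  PN1 marginals, PN2 shared names, PN3 conditional independence (`FLaw.CI`), PN4 slabs, PN5 scores of one pin are not changed by the other pins, IN0-IN3 information bounds
 (`I(L_≠i ; Y_i, θ_i | C) ≤ ∑ I(L_j ; C' | C)` of the text), SL1-SL3 facts on the single law.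
Toolkit: `R255/Ent/Basic` (`ent_map_*`, `ent_ci_*`, `ent_miC_chain`, `ent_miC_mono`, `ent_miC_comm`, `ent_surC_congr`), `R256/LT/Kit` (`ltk_*`).
LEAVES: L-256-RN-PN1 (`rn_pin_map`, `rn_pin_same`, `rn_pin_supp`, `rn_pin_O`), PN3 (`rn_pin_ci`), PN4 (`rn_pin_slab`), PN5 (`rn_pin_sur`),
 IN0 (`rn_pin_info`, `rn_pin_info_own`), IN1 (`rn_pin_info_zs`, `rn_pin_info_ts`, `rn_pin_info_fp`), SL (`rn_ok_time0`, `rn_ok_mi`, `rn_ok_ang2`, `rn_grid_stat`, `rn_nval_close`).
-/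

set_option autoImplicit false

namespace Claimed.Agent.R256

open Claimed.Agent.R255 Claimed.Agent.R255.FLaw
open Classical

namespace RnQ

variable (q : RnQ)

/-- the values of the pair of names -/
def Pt : Type := Set.range (pair q.C q.C')

noncomputable instance ptFin : Fintype q.Pt := @Fintype.ofFinite _ (Set.finite_range (pair q.C q.C')).to_subtype

/-- the value -/
def ptVal (p : q.Pt) : q.α × q.β := Subtype.val p

/-- the class of a sample -/
def ptOf (ω : q.Ω) : q.Pt := rgf (pair q.C q.C') ω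

/-- a representative sample -/
noncomputable def ptRep (p : q.Pt) : q.Ω := Classical.choose (Subtype.property p)

/-- sample space of `n` pins -/
abbrev Om (n : ℕ) : Type := q.Pt × (Fin n → q.Ω)

/-- the law of (names, sample) -/
noncomputable def pl : FLaw (q.Pt × q.Ω) := q.P.map (fun ω => (q.ptOf ω, ω))

/-- `n` conditionally independent copies of the sample given the names -/
noncomputable def S (n : ℕ) : FLaw (q.Om n) := q.pl.starS n

variable {n : ℕ}

def nC (y : q.Om n) : q.α := (q.ptVal y.1).1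

def nC' (y : q.Om n) : q.β := (q.ptVal y.1).2

/-- the common point -/
noncomputable def pO (y : q.Om n) : Fin 4 → ℝ := q.O (q.ptRep y.1)

/-- all pins but `x` -/
def oth (x : Fin n) (y : q.Om n) : Fin n → Option q.Ω := fun i => if i = x then none else some (y.2 i)

/-- the angular variables of the pins in `J` -/
def zs (J : Finset (Fin n)) (y : q.Om n) : Fin n → Option (ℝ × ℝ) := fun i => if i ∈ J then some (q.Z (y.2 i)) else none

end RnQ

variable (q : RnQ) {n : ℕ}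

/-! ## PN1, PN2 -/

theorem rn_aux_pin_pair (x : Fin n) : (q.S n).map (fun y => (y.1, y.2 x)) = q.pl :=
  ent_star_map_pair q.pl n x

/-- LEAF PN1. every pin is a copy of the sample (`ent_star_map_pair`, then the second marginal of `q.pl`) -/
theorem rn_pin_map (x : Fin n) : (q.S n).map (fun y => y.2 x) = q.P := by
  refine ent_law_ext _ _ fun ω => ?_
  show (q.S n).pr (fun y => y.2 x = ω) = q.P.p ω
  have h1 : (q.S n).pr (fun y => y.2 x = ω) = ((q.S n).map (fun y => (y.1, y.2 x))).pr (fun z => z.2 = ω) :=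
    (ent_map_pr (q.S n) (fun y => (y.1, y.2 x)) (fun z => z.2 = ω)).symm
  rw [h1, rn_aux_pin_pair]
  have h2 : q.pl.pr (fun z => z.2 = ω) = q.P.pr (fun ω' => ω' = ω) :=
    ent_map_pr q.P (fun ω => (q.ptOf ω, ω)) (fun z => z.2 = ω)
  rw [h2]
  exact ent_fib_id q.P ω

theorem rn_aux_pin_pt (x : Fin n) {y : q.Om n} (hy : (q.S n).p y ≠ 0) : q.ptOf (y.2 x) = y.1 := by
  have h1 := ent_map_supp (q.S n) (fun y => (y.1, y.2 x)) hy
  rw [rn_aux_pin_pair] at h1
  have h2 : q.pl.p (y.1, y.2 x) = q.P.pr (fun ω => (q.ptOf ω, ω) = (y.1, y.2 x)) := rfl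
  rw [h2] at h1
  have h3 : 0 < q.P.pr (fun ω => (q.ptOf ω, ω) = (y.1, y.2 x)) := lt_of_le_of_ne (ent_pr_nonneg _ _) (Ne.symm h1)
  obtain ⟨ω, hω, -⟩ := (ent_pr_pos_iff q.P _).1 h3
  have e1 : q.ptOf ω = y.1 := congrArg Prod.fst hω
  have e2 : ω = y.2 x := congrArg Prod.snd hω
  rw [← e2, e1]

/-- LEAF PN1. on the support all pins carry the names `y.1` -/
theorem rn_pin_same (x : Fin n) {y : q.Om n} (hy : (q.S n).p y ≠ 0) : q.C (y.2 x) = q.nC y ∧ q.C' (y.2 x) = q.nC' y := by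
  have h := rn_aux_pin_pt q x hy
  unfold RnQ.nC RnQ.nC'
  rw [← h]
  exact ⟨rfl, rfl⟩

theorem rn_pin_supp (x : Fin n) {y : q.Om n} (hy : (q.S n).p y ≠ 0) : q.P.p (y.2 x) ≠ 0 := by
  have h1 := ent_map_supp (q.S n) (fun y => y.2 x) hy
  rwa [rn_pin_map] at h1

/-- LEAF PN1. the common point -/
theorem rn_pin_O (hofun : ∀ ω ω', q.C ω = q.C ω' → q.C' ω = q.C' ω' → q.O ω = q.O ω') (x : Fin n) {y : q.Om n}
    (hy : (q.S n).p y ≠ 0) : q.O (y.2 x) = q.pO y := by
  obtain ⟨h1, h2⟩ := rn_pin_same q x hy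
  have h3 : pair q.C q.C' (q.ptRep y.1) = q.ptVal y.1 := Classical.choose_spec (Subtype.property y.1)
  unfold RnQ.pO
  refine hofun _ _ ?_ ?_
  · rw [h1]; exact (congrArg Prod.fst h3).symm
  · rw [h2]; exact (congrArg Prod.snd h3).symm

/-! ## PN3 - PN5 -/

theorem rn_aux_oth_iff (x : Fin n) (y y' : q.Om n) : q.oth x y' = q.oth x y ↔ ∀ i, i ≠ x → y'.2 i = y.2 i := by
  constructor
  · intro h i hi
    have h1 := congrFun h i
    unfold RnQ.oth at h1
    rw [if_neg hi, if_neg hi] at h1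
    exact Option.some.inj h1
  · intro h
    funext i
    unfold RnQ.oth
    by_cases hi : i = x
    · rw [if_pos hi, if_pos hi]
    · rw [if_neg hi, if_neg hi, h i hi]

/-- LEAF PN3. **conditional independence** of one pin and the others given the names (product formula of `starS`; `ent_star_free` with `J = {x}ᶜ`, or directly) -/
theorem rn_pin_ci (x : Fin n) : (q.S n).CI (fun y => y.2 x) (q.oth x) Prod.fst := by
  intro u v z
  by_cases hex : ∃ y : q.Om n, y.2 x = u ∧ q.oth x y = v ∧ y.1 = z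
  · obtain ⟨y, rfl, rfl, rfl⟩ := hex
    have hA : (q.S n).pr (fun y' => y'.2 x = y.2 x ∧ q.oth x y' = q.oth x y ∧ y'.1 = y.1) = (q.S n).p y := by
      rw [← ent_fib_id (q.S n) y]
      refine ent_pr_congr _ fun y' _ => ?_
      constructor
      · rintro ⟨h1, h2, h3⟩
        refine Prod.ext h3 (funext fun i => ?_)
        by_cases hi : i = x
        · rw [hi]; exact h1
        · exact (rn_aux_oth_iff q x y y').1 h2 i hi
      · intro h
        have h' : y' = y := h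
        rw [h']
        exact ⟨rfl, rfl, rfl⟩
    have hB : (q.S n).pr (fun y' => y'.1 = y.1) = (q.pl.map Prod.fst).p y.1 := by
      have : ((q.S n).map Prod.fst).p y.1 = (q.S n).pr (fun y' => y'.1 = y.1) := rfl
      rw [← this]
      show ((q.pl.starS n).map Prod.fst).p y.1 = _
      rw [ent_star_map_fst]
    have hC : (q.S n).pr (fun y' => y'.2 x = y.2 x ∧ y'.1 = y.1) = q.pl.p (y.1, y.2 x) := by
      have h1 : ((q.S n).map (fun y => (y.1, y.2 x))).p (y.1, y.2 x)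
          = (q.S n).pr (fun y' => (y'.1, y'.2 x) = (y.1, y.2 x)) := rfl
      rw [← rn_aux_pin_pair q x, h1]
      refine ent_pr_congr _ fun y' _ => ?_
      simp only [Prod.mk.injEq]
      exact and_comm
    have hD : (q.S n).pr (fun y' => q.oth x y' = q.oth x y ∧ y'.1 = y.1)
        = (q.pl.map Prod.fst).p y.1 * ((∏ j ∈ Finset.univ.erase x, q.pl.kq y.1 (y.2 j))
            * ∏ _j ∈ (Finset.univ.erase x)ᶜ, ∑ b, q.pl.kq y.1 b) := by
      rw [← ent_aux_star_fib q.pl (Finset.univ.erase x) (fun _ _ => ()) y]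
      refine ent_pr_congr _ fun y' _ => ?_
      rw [rn_aux_oth_iff]
      constructor
      · rintro ⟨h1, h2⟩
        have h3 : (fun j : (Finset.univ.erase x : Finset (Fin n)) => y'.2 j.1)
            = fun j : (Finset.univ.erase x : Finset (Fin n)) => y.2 j.1 :=
          funext fun j => h1 j.1 (Finset.ne_of_mem_erase j.2)
        show (y'.1, ((fun j : (Finset.univ.erase x : Finset (Fin n)) => y'.2 j.1), ()))
          = (y.1, ((fun j : (Finset.univ.erase x : Finset (Fin n)) => y.2 j.1), ()))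
        rw [h2, h3]
      · intro h
        have h' : (y'.1, ((fun j : (Finset.univ.erase x : Finset (Fin n)) => y'.2 j.1), ()))
          = (y.1, ((fun j : (Finset.univ.erase x : Finset (Fin n)) => y.2 j.1), ())) := h
        have h2 : y'.1 = y.1 := (Prod.mk.inj h').1
        have h3 : (fun j : (Finset.univ.erase x : Finset (Fin n)) => y'.2 j.1)
            = fun j : (Finset.univ.erase x : Finset (Fin n)) => y.2 j.1 :=
          (Prod.mk.inj (Prod.mk.inj h').2).1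
        refine ⟨fun i hi => ?_, h2⟩
        exact congrFun h3 (⟨i, Finset.mem_erase.2 ⟨hi, Finset.mem_univ i⟩⟩ : (Finset.univ.erase x : Finset (Fin n)))
    rw [hA, hB, hC, hD]
    have hp : (q.S n).p y = (q.pl.map Prod.fst).p y.1 * ∏ i, q.pl.kq y.1 (y.2 i) := rfl
    rw [hp, ← ent_kq_mul, ← Finset.mul_prod_erase Finset.univ _ (Finset.mem_univ x)]
    by_cases hμ : (q.pl.map Prod.fst).p y.1 = 0
    · rw [hμ]; simp
    · simp only [ent_kq_sum q.pl hμ, Finset.prod_const_one, mul_one]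
      ring
  · have hA : (q.S n).pr (fun y' => y'.2 x = u ∧ q.oth x y' = v ∧ y'.1 = z) = 0 :=
      ent_pr_eq_zero _ fun y' _ h => hex ⟨y', h⟩
    rw [hA, zero_mul]
    by_cases h1 : ∃ y1 : q.Om n, y1.2 x = u ∧ y1.1 = z
    · by_cases h2 : ∃ y2 : q.Om n, q.oth x y2 = v ∧ y2.1 = z
      · exfalso
        obtain ⟨y2, h3, h4⟩ := h2
        refine hex ⟨(z, Function.update y2.2 x u), ?_, ?_, rfl⟩
        · simp
        · rw [← h3, rn_aux_oth_iff]
          intro i hi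
          simp [Function.update_of_ne hi]
      · have : (q.S n).pr (fun y' => q.oth x y' = v ∧ y'.1 = z) = 0 := ent_pr_eq_zero _ fun y' _ h => h2 ⟨y', h⟩
        rw [this, mul_zero]
    · have : (q.S n).pr (fun y' => y'.2 x = u ∧ y'.1 = z) = 0 := ent_pr_eq_zero _ fun y' _ h => h1 ⟨y', h⟩
      rw [this, zero_mul]

/-- functions (kernel form) of conditionally independent observations -/
theorem rn_aux_ci_ker {Ω : Type} [Fintype Ω] {α β γ α' β' : Type} (P : FLaw Ω) (U : Ω → α) (V : Ω → β) (Z : Ω → γ)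
    (h : P.CI U V Z) (U' : Ω → α') (V' : Ω → β')
    (hU : ∀ ω ω', U ω = U ω' → Z ω = Z ω' → U' ω = U' ω')
    (hV : ∀ ω ω', V ω = V ω' → Z ω = Z ω' → V' ω = V' ω') : P.CI U' V' Z := by
  rw [ent_ci_iff] at h ⊢
  have h1 : P.miC U' V' Z ≤ P.miC U' V Z := ent_miC_mono P _ V _ Z fun ω ω' _ _ h5 h6 => hV ω ω' h5 h6
  have h2 : P.miC V U' Z ≤ P.miC V U Z := ent_miC_mono P _ U _ Z fun ω ω' _ _ h5 h6 => hU ω ω' h5 h6
  rw [ent_miC_comm P _ V Z] at h1
  rw [ent_miC_comm P V U Z, h] at h2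
  exact le_antisymm (h1.trans h2) (ent_miC_nonneg P _ _ _)

/-- an event of one pin and the names -/
theorem rn_aux_pin_pr (x : Fin n) (B : q.Ω → Prop) (z : q.Pt) :
    (q.S n).pr (fun y => B (y.2 x) ∧ y.1 = z) = q.P.pr (fun ω => B ω ∧ q.ptOf ω = z) := by
  have h1 : q.P.pr (fun ω => B ω ∧ q.ptOf ω = z) = (q.S n).pr (fun y => B (y.2 x) ∧ q.ptOf (y.2 x) = z) := by
    have := ent_map_pr (q.S n) (fun y => y.2 x) (fun ω => B ω ∧ q.ptOf ω = z)
    rw [rn_pin_map] at this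
    exact this
  rw [h1]
  refine ent_pr_congr _ fun y hy => ?_
  rw [rn_aux_pin_pt q x hy]

/-- LEAF PN4. **slabs chosen by the other pins.**   `hslab` is the field `slab` of `RnQ.Ok` (`w = M^(-es r)`).
Condition on `(y.1, oth x)`: by `rn_pin_ci` the conditional law of the pin is `P(· | C, C')`; typical names: mass `≤ τ`; atypical names: total mass `≤ τ`. -/
theorem rn_pin_slab {τ w : ℝ}
    (hslab : q.P.pr (fun ω => ∃ (n : ℝ × ℝ × ℝ) (c : ℝ), n.1 ^ 2 + n.2.1 ^ 2 + n.2.2 ^ 2 = 1 ∧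
      τ * q.P.fib (pair q.C q.C') ω < q.slabMass n c w ω) ≤ τ)
    (x : Fin n) (nn : q.Om n → ℝ × ℝ × ℝ) (cc : q.Om n → ℝ)
    (hfun : ∀ y y', q.oth x y = q.oth x y' → nn y = nn y' ∧ cc y = cc y')
    (hunit : ∀ y, (nn y).1 ^ 2 + (nn y).2.1 ^ 2 + (nn y).2.2 ^ 2 = 1) :
    (q.S n).pr (fun y => |(nn y).1 * (q.Z (y.2 x)).1 + (nn y).2.1 * (q.Z (y.2 x)).2
        + (nn y).2.2 * ((q.Z (y.2 x)).1 ^ 2 + (q.Z (y.2 x)).2 ^ 2) - cc y| ≤ w) ≤ 2 * τ := by
  have hτ : 0 ≤ τ := (ent_pr_nonneg _ _).trans hslab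
  obtain ⟨Bad, hBad⟩ : ∃ Bad : q.Ω → Prop, Bad = fun ω => ∃ (n : ℝ × ℝ × ℝ) (c : ℝ), n.1 ^ 2 + n.2.1 ^ 2 + n.2.2 ^ 2 = 1 ∧
      τ * q.P.fib (pair q.C q.C') ω < q.slabMass n c w ω := ⟨_, rfl⟩
  rw [← hBad] at hslab
  obtain ⟨Bx, hBx⟩ : ∃ Bx : (ℝ × ℝ × ℝ) → ℝ → q.Ω → Prop, Bx = fun m c ω =>
      |m.1 * (q.Z ω).1 + m.2.1 * (q.Z ω).2 + m.2.2 * ((q.Z ω).1 ^ 2 + (q.Z ω).2 ^ 2) - c| ≤ w := ⟨_, rfl⟩
  have hE : (q.S n).pr (fun y => |(nn y).1 * (q.Z (y.2 x)).1 + (nn y).2.1 * (q.Z (y.2 x)).2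
        + (nn y).2.2 * ((q.Z (y.2 x)).1 ^ 2 + (q.Z (y.2 x)).2 ^ 2) - cc y| ≤ w)
      = (q.S n).pr (fun y => Bx (nn y) (cc y) (y.2 x)) := by rw [hBx]
  rw [hE, ent_pr_split (q.S n) _ (fun y => Bad (y.2 x))]
  have h2 : (q.S n).pr (fun y => Bx (nn y) (cc y) (y.2 x) ∧ Bad (y.2 x)) ≤ τ := by
    refine le_trans (ent_pr_mono _ fun y _ h => h.2) ?_
    have := ent_map_pr (q.S n) (fun y => y.2 x) Bad
    rw [rn_pin_map] at this
    rw [← this]
    exact hslab
  have h3 : (q.S n).pr (fun y => Bx (nn y) (cc y) (y.2 x) ∧ ¬ Bad (y.2 x)) ≤ τ := by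
    rw [ent_pr_tower (q.S n) (pair (q.oth x) Prod.fst)]
    refine le_trans (ent_ev_mono (q.S n) (g := fun _ => τ) fun y hy => ?_) (le_of_eq (ent_ev_const _ _))
    have hpos := ent_fib_pos (q.S n) (pair (q.oth x) Prod.fst) hy
    rw [ent_cfib_pr _ _ hpos, div_le_iff₀ hpos]
    -- freeze the slab
    have e1 : (q.S n).pr (fun y' => (Bx (nn y') (cc y') (y'.2 x) ∧ ¬ Bad (y'.2 x))
          ∧ pair (q.oth x) Prod.fst y' = pair (q.oth x) Prod.fst y)
        = (q.S n).pr (fun y' => (Bx (nn y) (cc y) (y'.2 x) ∧ ¬ Bad (y'.2 x)) = True ∧ q.oth x y' = q.oth x y ∧ y'.1 = y.1) := by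
      refine ent_pr_congr _ fun y' _ => ?_
      simp only [FLaw.pair, Prod.mk.injEq, eq_iff_iff, iff_true]
      constructor
      · rintro ⟨h4, h5, h6⟩
        obtain ⟨h7, h8⟩ := hfun y' y h5
        rw [h7, h8] at h4
        exact ⟨h4, h5, h6⟩
      · rintro ⟨h4, h5, h6⟩
        obtain ⟨h7, h8⟩ := hfun y' y h5
        rw [← h7, ← h8] at h4
        exact ⟨h4, h5, h6⟩
    rw [e1]
    have hci : (q.S n).CI (fun y' => (Bx (nn y) (cc y) (y'.2 x) ∧ ¬ Bad (y'.2 x))) (q.oth x) Prod.fst :=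
      rn_aux_ci_ker (q.S n) _ _ _ (rn_pin_ci q x) _ _ (fun ω ω' h _ => by
        have h' : ω.2 x = ω'.2 x := h
        simp only [h']) (fun ω ω' h _ => h)
    have h4 := hci True (q.oth x y) y.1
    have hz : 0 < (q.S n).pr (fun y' => y'.1 = y.1) := ent_fib_pos (q.S n) Prod.fst hy
    have e2 : (q.S n).fib (pair (q.oth x) Prod.fst) y = (q.S n).pr (fun y' => q.oth x y' = q.oth x y ∧ y'.1 = y.1) :=
      ent_fib_pair _ _ _ _
    rw [e2]
    have h5 : (q.S n).pr (fun y' => (Bx (nn y) (cc y) (y'.2 x) ∧ ¬ Bad (y'.2 x)) = True ∧ y'.1 = y.1)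
        ≤ τ * (q.S n).pr (fun y' => y'.1 = y.1) := by
      have e3 : (q.S n).pr (fun y' => (Bx (nn y) (cc y) (y'.2 x) ∧ ¬ Bad (y'.2 x)) = True ∧ y'.1 = y.1)
          = q.P.pr (fun ω => (Bx (nn y) (cc y) ω ∧ ¬ Bad ω) ∧ q.ptOf ω = y.1) := by
        rw [← rn_aux_pin_pr q x]
        refine ent_pr_congr _ fun y' _ => ?_
        simp only [eq_iff_iff, iff_true]
      have e4 : (q.S n).pr (fun y' => y'.1 = y.1) = q.P.pr (fun ω => q.ptOf ω = y.1) := by
        have := rn_aux_pin_pr q x (fun _ => True) y.1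
        simpa using this
      rw [e3, e4]
      by_cases hex : ∃ ω0, (Bx (nn y) (cc y) ω0 ∧ ¬ Bad ω0) ∧ q.ptOf ω0 = y.1
      · obtain ⟨ω0, ⟨-, hb⟩, hp⟩ := hex
        have h6 : q.slabMass (nn y) (cc y) w ω0 ≤ τ * q.P.fib (pair q.C q.C') ω0 := by
          by_contra hcon
          exact hb (by rw [hBad]; exact ⟨nn y, cc y, hunit y, not_le.1 hcon⟩)
        have e5 : q.P.fib (pair q.C q.C') ω0 = q.P.pr (fun ω => q.ptOf ω = y.1) := by
          refine ent_pr_congr _ fun ω _ => ?_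
          rw [← hp]
          constructor
          · intro h; exact Subtype.ext h
          · intro h; exact congrArg Subtype.val h
        rw [← e5]
        refine le_trans (ent_pr_mono _ fun ω _ h => ?_) h6
        obtain ⟨⟨h7, -⟩, h8⟩ := h
        rw [← hp] at h8
        have h9 : pair q.C q.C' ω = pair q.C q.C' ω0 := congrArg Subtype.val h8
        rw [hBx] at h7
        exact ⟨congrArg Prod.fst h9, congrArg Prod.snd h9, h7⟩
      · rw [ent_pr_eq_zero _ fun ω _ h => hex ⟨ω, h⟩]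
        exact mul_nonneg hτ (ent_pr_nonneg _ _)
    have h6 : (q.S n).pr (fun y' => (Bx (nn y) (cc y) (y'.2 x) ∧ ¬ Bad (y'.2 x)) = True ∧ q.oth x y' = q.oth x y ∧ y'.1 = y.1)
          * (q.S n).pr (fun y' => y'.1 = y.1)
        ≤ (τ * (q.S n).pr (fun y' => q.oth x y' = q.oth x y ∧ y'.1 = y.1)) * (q.S n).pr (fun y' => y'.1 = y.1) := by
      rw [h4]
      calc _ ≤ (τ * (q.S n).pr (fun y' => y'.1 = y.1)) * (q.S n).pr (fun y' => q.oth x y' = q.oth x y ∧ y'.1 = y.1) :=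
            mul_le_mul_of_nonneg_right h5 (ent_pr_nonneg _ _)
        _ = _ := by ring
    exact le_of_mul_le_mul_right h6 hz
  linarith

/-- LEAF PN5. **the conditional law of a pin is unchanged by the other pins** (`rn_pin_ci`, `ent_ci_comp`, `ent_ci_fib`, `rn_pin_map`, `ent_map_fib`) -/
theorem rn_pin_sur (x : Fin n) {α' β' γ' : Type} (X : q.Ω → α') (Y : q.Ω → β') (V : q.Om n → γ')
    (hV : ∀ y y', q.oth x y = q.oth x y' → V y = V y') {y : q.Om n} (hy : (q.S n).p y ≠ 0) :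
    (q.S n).surC (fun y => X (y.2 x)) (pair (fun y => Y (y.2 x)) (pair V Prod.fst)) y
      = q.P.surC X (pair Y (pair q.C q.C')) (y.2 x) := by
  have hR : q.P.surC X (pair Y (pair q.C q.C')) (y.2 x)
      = (q.S n).surC (fun y => X (y.2 x)) (fun y => pair Y (pair q.C q.C') (y.2 x)) y := by
    have := ent_map_surC (q.S n) (fun y => y.2 x) X (pair Y (pair q.C q.C')) y
    rw [rn_pin_map] at this
    exact this
  have hR2 : (q.S n).surC (fun y => X (y.2 x)) (fun y => pair Y (pair q.C q.C') (y.2 x)) y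
      = (q.S n).surC (fun y => X (y.2 x)) (pair (fun y => Y (y.2 x)) Prod.fst) y := by
    refine ent_surC_congr (q.S n) _ _ _ _ y (fun ω' hω' => ?_) (fun ω' _ _ => Iff.rfl)
    have e1 := rn_aux_pin_pt q x hω'
    have e2 := rn_aux_pin_pt q x hy
    simp only [FLaw.pair, Prod.mk.injEq]
    constructor
    · rintro ⟨h1, h2, h3⟩
      refine ⟨h1, ?_⟩
      rw [← e1, ← e2]
      exact Subtype.ext (Prod.ext h2 h3)
    · rintro ⟨h1, h2⟩
      rw [← e1, ← e2] at h2
      have h3 : pair q.C q.C' (ω'.2 x) = pair q.C q.C' (y.2 x) := congrArg Subtype.val h2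
      exact ⟨h1, congrArg Prod.fst h3, congrArg Prod.snd h3⟩
  rw [hR, hR2]
  have hci := rn_pin_ci q x
  have c1 : (q.S n).CI (pair (fun y => X (y.2 x)) (fun y => Y (y.2 x))) V Prod.fst :=
    rn_aux_ci_ker (q.S n) _ _ _ hci _ _ (fun ω ω' h _ => by
      have h' : ω.2 x = ω'.2 x := h
      simp only [FLaw.pair, h']) (fun ω ω' h _ => hV ω ω' h)
  have c2 : (q.S n).CI (fun y => Y (y.2 x)) V Prod.fst :=
    rn_aux_ci_ker (q.S n) _ _ _ hci _ _ (fun ω ω' h _ => by
      have h' : ω.2 x = ω'.2 x := h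
      simp only [h']) (fun ω ω' h _ => hV ω ω' h)
  have f1 := ent_ci_fib (q.S n) _ _ _ c1 y
  have f2 := ent_ci_fib (q.S n) _ _ _ c2 y
  have g1 : (q.S n).fib (pair (fun y => X (y.2 x)) (pair (fun y => Y (y.2 x)) (pair V Prod.fst))) y
      = (q.S n).fib (pair (pair (pair (fun y => X (y.2 x)) (fun y => Y (y.2 x))) V) Prod.fst) y := by
    refine ent_pr_congr _ fun ω' _ => ?_
    simp only [FLaw.pair, Prod.mk.injEq]
    tauto
  have g2 : (q.S n).fib (pair (fun y => Y (y.2 x)) (pair V Prod.fst)) y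
      = (q.S n).fib (pair (pair (fun y => Y (y.2 x)) V) Prod.fst) y := by
    refine ent_pr_congr _ fun ω' _ => ?_
    simp only [FLaw.pair, Prod.mk.injEq]
    tauto
  have g3 : (q.S n).fib (pair (fun y => X (y.2 x)) (pair (fun y => Y (y.2 x)) Prod.fst)) y
      = (q.S n).fib (pair (pair (fun y => X (y.2 x)) (fun y => Y (y.2 x))) Prod.fst) y := by
    refine ent_pr_congr _ fun ω' _ => ?_
    simp only [FLaw.pair, Prod.mk.injEq]
    tauto
  unfold FLaw.surC
  rw [g1, g2, g3]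
  have p1 := ent_fib_pos (q.S n) (pair (pair (pair (fun y => X (y.2 x)) (fun y => Y (y.2 x))) V) Prod.fst) hy
  have p2 := ent_fib_pos (q.S n) (pair (pair (fun y => Y (y.2 x)) V) Prod.fst) hy
  have p3 := ent_fib_pos (q.S n) (pair (pair (fun y => X (y.2 x)) (fun y => Y (y.2 x))) Prod.fst) hy
  have p4 := ent_fib_pos (q.S n) (pair (fun y => Y (y.2 x)) Prod.fst) hy
  have p5 := ent_fib_pos (q.S n) (pair V Prod.fst) hy
  have p6 := ent_fib_pos (q.S n) Prod.fst hy
  congr 2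
  rw [div_eq_div_iff p2.ne' p4.ne']
  have : ((q.S n).fib (pair (pair (pair (fun y => X (y.2 x)) (fun y => Y (y.2 x))) V) Prod.fst) y
      * (q.S n).fib (pair (fun y => Y (y.2 x)) Prod.fst) y) * ((q.S n).fib Prod.fst y * (q.S n).fib (pair V Prod.fst) y)
      = ((q.S n).fib (pair (pair (fun y => X (y.2 x)) (fun y => Y (y.2 x))) Prod.fst) y
      * (q.S n).fib (pair (pair (fun y => Y (y.2 x)) V) Prod.fst) y) * ((q.S n).fib Prod.fst y * (q.S n).fib (pair V Prod.fst) y) := by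
    calc _ = ((q.S n).fib (pair (pair (pair (fun y => X (y.2 x)) (fun y => Y (y.2 x))) V) Prod.fst) y * (q.S n).fib Prod.fst y)
          * ((q.S n).fib (pair (fun y => Y (y.2 x)) Prod.fst) y * (q.S n).fib (pair V Prod.fst) y) := by ring
      _ = _ := by rw [f1, ← f2]; ring
  exact mul_right_cancel₀ (mul_pos p6 p5).ne' this

/-! ## information bounds -/

/-- conditional mutual information depends only on the kernels of the three observations -/
theorem rn_in_congr {Ω : Type} [Fintype Ω] {α α' β β' γ γ' : Type} (P : FLaw Ω) (X : Ω → α) (X' : Ω → α') (Y : Ω → β)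
    (Y' : Ω → β') (Z : Ω → γ) (Z' : Ω → γ')
    (hX : ∀ ω ω', P.p ω ≠ 0 → P.p ω' ≠ 0 → (X ω = X ω' ↔ X' ω = X' ω'))
    (hY : ∀ ω ω', P.p ω ≠ 0 → P.p ω' ≠ 0 → (Y ω = Y ω' ↔ Y' ω = Y' ω'))
    (hZ : ∀ ω ω', P.p ω ≠ 0 → P.p ω' ≠ 0 → (Z ω = Z ω' ↔ Z' ω = Z' ω')) : P.miC X Y Z = P.miC X' Y' Z' := by
  unfold FLaw.miC
  have h1 : P.ent (pair X Z) = P.ent (pair X' Z') := by
    refine ent_congr_ker P _ _ fun ω ω' h3 h4 => ?_
    simp only [FLaw.pair, Prod.mk.injEq]
    rw [hX ω ω' h3 h4, hZ ω ω' h3 h4]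
  have h2 : P.ent (pair Y Z) = P.ent (pair Y' Z') := by
    refine ent_congr_ker P _ _ fun ω ω' h3 h4 => ?_
    simp only [FLaw.pair, Prod.mk.injEq]
    rw [hY ω ω' h3 h4, hZ ω ω' h3 h4]
  have h3 : P.ent (pair (pair X Y) Z) = P.ent (pair (pair X' Y') Z') := by
    refine ent_congr_ker P _ _ fun ω ω' h3 h4 => ?_
    simp only [FLaw.pair, Prod.mk.injEq]
    rw [hX ω ω' h3 h4, hY ω ω' h3 h4, hZ ω ω' h3 h4]
  rw [h1, h2, h3, ent_congr_ker P Z Z' hZ]

/-- the two names determine the class -/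
theorem rn_in_names (y y' : q.Om n) : pair q.nC' q.nC y = pair q.nC' q.nC y' ↔ y.1 = y'.1 := by
  constructor
  · intro h
    have h1 : (q.ptVal y.1).2 = (q.ptVal y'.1).2 := congrArg Prod.fst h
    have h2 : (q.ptVal y.1).1 = (q.ptVal y'.1).1 := congrArg Prod.snd h
    exact Subtype.ext (Prod.ext h2 h1)
  · intro h
    unfold FLaw.pair RnQ.nC RnQ.nC'
    rw [h]

/-- one pin and a function of the others are independent given the names -/
theorem rn_in_zero (x : Fin n) {α' γ' : Type} (X : q.Ω → α') (V : q.Om n → γ')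
    (hV : ∀ y y', q.oth x y = q.oth x y' → V y = V y') :
    (q.S n).miC (fun y => X (y.2 x)) V (pair q.nC' q.nC) = 0 := by
  have h0 : (q.S n).miC (fun y => y.2 x) (q.oth x) Prod.fst = 0 := (ent_ci_iff _ _ _ _).1 (rn_pin_ci q x)
  have h1 : (q.S n).miC (fun y => X (y.2 x)) V (pair q.nC' q.nC) = (q.S n).miC (fun y => X (y.2 x)) V Prod.fst :=
    rn_in_congr _ _ _ _ _ _ _ (fun _ _ _ _ => Iff.rfl) (fun _ _ _ _ => Iff.rfl) (fun y y' _ _ => rn_in_names q y y')
  have h2 : (q.S n).miC (fun y => X (y.2 x)) V Prod.fst ≤ (q.S n).miC (fun y => X (y.2 x)) (q.oth x) Prod.fst :=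
    ent_miC_mono _ _ _ _ _ fun y y' _ _ h _ => hV y y' h
  have h3 : (q.S n).miC (q.oth x) (fun y => X (y.2 x)) Prod.fst ≤ (q.S n).miC (q.oth x) (fun y => y.2 x) Prod.fst :=
    ent_miC_mono _ _ _ _ _ fun y y' _ _ h _ => by
      show X (y.2 x) = X (y'.2 x)
      rw [show y.2 x = y'.2 x from h]
  rw [ent_miC_comm _ (q.oth x) (fun y => X (y.2 x)), ent_miC_comm _ (q.oth x) (fun y => y.2 x), h0] at h3
  rw [h1]
  exact le_antisymm (h2.trans h3) (ent_miC_nonneg _ _ _ _)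

/-- LEAF IN0.  `I(C'; X_x | V, C) ≤ I((C',V); X_x | C) = I(C'; X_x | C) + I(V; X_x | C', C)`, the last term vanishes. -/
theorem rn_pin_info (x : Fin n) {α' γ' : Type} (X : q.Ω → α') (V : q.Om n → γ')
    (hV : ∀ y y', q.oth x y = q.oth x y' → V y = V y') :
    (q.S n).miC q.nC' (fun y => X (y.2 x)) (pair V q.nC) ≤ q.P.miC q.C' X q.C := by
  have c1 := ent_miC_chain (q.S n) (fun y => X (y.2 x)) q.nC' V q.nC
  have c2 := ent_miC_chain (q.S n) (fun y => X (y.2 x)) V q.nC' q.nC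
  have c3 : (q.S n).miC (fun y => X (y.2 x)) (pair q.nC' V) q.nC = (q.S n).miC (fun y => X (y.2 x)) (pair V q.nC') q.nC :=
    rn_in_congr _ _ _ _ _ _ _ (fun _ _ _ _ => Iff.rfl) (fun y y' _ _ => by
      simp only [FLaw.pair, Prod.mk.injEq]
      exact and_comm) (fun _ _ _ _ => Iff.rfl)
  have c4 := rn_in_zero q x X V hV
  have c5 := ent_miC_nonneg (q.S n) (fun y => X (y.2 x)) V q.nC
  have c6 : (q.S n).miC (fun y => X (y.2 x)) q.nC' q.nC = q.P.miC q.C' X q.C := by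
    have e1 : q.P.miC q.C' X q.C
        = (q.S n).miC (fun y => q.C' (y.2 x)) (fun y => X (y.2 x)) (fun y => q.C (y.2 x)) := by
      rw [← ent_map_miC (q.S n) (fun y => y.2 x) q.C' X q.C, rn_pin_map]
    rw [e1, ent_miC_comm]
    refine rn_in_congr _ _ _ _ _ _ _ (fun y y' hy hy' => ?_) (fun _ _ _ _ => Iff.rfl) (fun y y' hy hy' => ?_)
    · rw [(rn_pin_same q x hy).2, (rn_pin_same q x hy').2]
    · rw [(rn_pin_same q x hy).1, (rn_pin_same q x hy').1]
  rw [ent_miC_comm]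
  linarith

/-- LEAF IN0.  `I(W_x; V | C) ≤ I((W_x, C'); V | C) = I(C'; V | C) + I(W_x; V | C', C)`. -/
theorem rn_pin_info_own (x : Fin n) {α' γ' : Type} (W : q.Ω → α') (V : q.Om n → γ')
    (hV : ∀ y y', q.oth x y = q.oth x y' → V y = V y') :
    (q.S n).miC (fun y => W (y.2 x)) V q.nC ≤ (q.S n).miC q.nC' V q.nC := by
  have c1 := ent_miC_chain (q.S n) V (fun y => W (y.2 x)) q.nC' q.nC
  have c2 : (q.S n).miC V (fun y => W (y.2 x)) q.nC ≤ (q.S n).miC V (pair (fun y => W (y.2 x)) q.nC') q.nC :=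
    ent_miC_mono _ _ _ _ _ fun y y' _ _ h _ => congrArg Prod.fst h
  have c3 := rn_in_zero q x W V hV
  rw [ent_miC_comm] at c3
  rw [ent_miC_comm _ (fun y => W (y.2 x)) V, ent_miC_comm _ q.nC' V]
  linarith

theorem rn_in_zs_oth (a : Fin n) (J : Finset (Fin n)) (ha : a ∉ J) (y y' : q.Om n) (h : q.oth a y = q.oth a y') :
    q.zs J y = q.zs J y' := by
  funext i
  unfold RnQ.zs
  by_cases hi : i ∈ J
  · have hia : i ≠ a := fun h0 => ha (h0 ▸ hi)
    rw [if_pos hi, if_pos hi, (rn_aux_oth_iff q a y' y).1 h i hia]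
  · rw [if_neg hi, if_neg hi]

theorem rn_in_zs_insert (a : Fin n) (J : Finset (Fin n)) (y y' : q.Om n) :
    q.zs (insert a J) y = q.zs (insert a J) y' ↔ (q.Z (y.2 a) = q.Z (y'.2 a) ∧ q.zs J y = q.zs J y') := by
  constructor
  · intro h
    refine ⟨?_, ?_⟩
    · have h1 := congrFun h a
      unfold RnQ.zs at h1
      rw [if_pos (Finset.mem_insert_self a J), if_pos (Finset.mem_insert_self a J)] at h1
      exact Option.some.inj h1
    · funext i
      have h1 := congrFun h i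
      unfold RnQ.zs at h1 ⊢
      by_cases hi : i ∈ J
      · rw [if_pos (Finset.mem_insert_of_mem hi), if_pos (Finset.mem_insert_of_mem hi)] at h1
        rw [if_pos hi, if_pos hi]
        exact h1
      · rw [if_neg hi, if_neg hi]
  · rintro ⟨h1, h2⟩
    funext i
    have h3 := congrFun h2 i
    unfold RnQ.zs at h3 ⊢
    by_cases hi : i ∈ J
    · rw [if_pos hi, if_pos hi] at h3
      rw [if_pos (Finset.mem_insert_of_mem hi), if_pos (Finset.mem_insert_of_mem hi)]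
      exact h3
    · by_cases hia : i = a
      · rw [hia, if_pos (Finset.mem_insert_self a J), if_pos (Finset.mem_insert_self a J), h1]
      · have : i ∉ insert a J := fun h0 => (Finset.mem_insert.1 h0).elim hia hi
        rw [if_neg this, if_neg this]

/-- LEAF IN1.  induction on `J` (`Finset.induction_on`): `I(C'; (Z_y, zs J) | C) = I(C'; zs J | C) + I(C'; Z_y | zs J, C)`, `rn_pin_info`. -/
theorem rn_pin_info_zs (J : Finset (Fin n)) :
    (q.S n).miC q.nC' (q.zs J) q.nC ≤ J.card * q.P.miC q.C' q.Z q.C := by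
  induction J using Finset.induction_on with
  | empty =>
    simp only [Finset.card_empty, Nat.cast_zero, zero_mul]
    refine (ent_miC_le_right _ _ _ _).trans (le_of_eq ?_)
    exact ent_entC_eq_zero _ _ _ fun y y' _ _ _ => rfl
  | insert a J ha ih =>
    have c1 := ent_miC_chain (q.S n) q.nC' (fun y => q.Z (y.2 a)) (q.zs J) q.nC
    have c2 := rn_pin_info q a q.Z (q.zs J) (rn_in_zs_oth q a J ha)
    have c3 : (q.S n).miC q.nC' (q.zs (insert a J)) q.nC
        = (q.S n).miC q.nC' (pair (fun y => q.Z (y.2 a)) (q.zs J)) q.nC :=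
      rn_in_congr _ _ _ _ _ _ _ (fun _ _ _ _ => Iff.rfl) (fun y y' _ _ => by
        rw [rn_in_zs_insert]
        simp only [FLaw.pair, Prod.mk.injEq]) (fun _ _ _ _ => Iff.rfl)
    rw [Finset.card_insert_of_notMem ha]
    push_cast
    linarith

/-- LEAF IN1.  the form used for the time scores: `Y` determines `Z`, so `(zs univ, Y_x) ≅ (zs (univ.erase x), Y_x)`;
`I(F_x; zs | Y_x, C) ≤ I((F_x, Y_x); zs (erase x) | C) ≤ I(C'; zs (erase x) | C) ≤ n I₀`. -/
theorem rn_pin_info_ts (x : Fin n) {α' β' : Type} (F : q.Ω → α') (Y : q.Ω → β')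
    (hY : ∀ ω ω', Y ω = Y ω' → q.Z ω = q.Z ω') :
    (q.S n).miC (fun y => F (y.2 x)) (q.zs Finset.univ) (pair (fun y => Y (y.2 x)) q.nC)
      ≤ n * q.P.miC q.C' q.Z q.C := by
  have hu : (Finset.univ : Finset (Fin n)) = insert x (Finset.univ.erase x) :=
    (Finset.insert_erase (Finset.mem_univ x)).symm
  have c1 : (q.S n).miC (fun y => F (y.2 x)) (q.zs Finset.univ) (pair (fun y => Y (y.2 x)) q.nC)
      ≤ (q.S n).miC (fun y => F (y.2 x)) (q.zs (Finset.univ.erase x)) (pair (fun y => Y (y.2 x)) q.nC) :=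
    ent_miC_mono _ _ _ _ _ fun y y' _ _ h1 h2 => by
      rw [hu, rn_in_zs_insert]
      exact ⟨hY _ _ (congrArg Prod.fst h2), h1⟩
  have c2 := ent_miC_chain (q.S n) (q.zs (Finset.univ.erase x)) (fun y => F (y.2 x)) (fun y => Y (y.2 x)) q.nC
  have c3 := ent_miC_nonneg (q.S n) (q.zs (Finset.univ.erase x)) (fun y => Y (y.2 x)) q.nC
  have c4 := rn_pin_info_own q x (pair F Y) (q.zs (Finset.univ.erase x))
    (rn_in_zs_oth q x _ (Finset.notMem_erase x _))
  have c5 := rn_pin_info_zs q (Finset.univ.erase x)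
  have c6 : ((Finset.univ.erase x : Finset (Fin n)).card : ℝ) ≤ n := by
    have := Finset.card_le_univ (Finset.univ.erase x : Finset (Fin n))
    rw [Fintype.card_fin] at this
    exact_mod_cast this
  have c7 := ent_miC_nonneg q.P q.C' q.Z q.C
  have c8 : ((Finset.univ.erase x : Finset (Fin n)).card : ℝ) * q.P.miC q.C' q.Z q.C ≤ n * q.P.miC q.C' q.Z q.C :=
    mul_le_mul_of_nonneg_right c6 c7
  have c9 : (q.S n).miC (fun y => pair F Y (y.2 x)) (q.zs (Finset.univ.erase x)) q.nC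
      = (q.S n).miC (q.zs (Finset.univ.erase x)) (pair (fun y => F (y.2 x)) (fun y => Y (y.2 x))) q.nC :=
    ent_miC_comm _ _ _ _
  rw [ent_miC_comm _ (q.zs (Finset.univ.erase x)) (fun y => F (y.2 x))] at c2
  linarith

/-- LEAF IN1.  the form (F3) of FP: `B` (the chart) is a function of all angular variables.
`I((C',D); zs | D) = I(C'; zs | B, E) ≤ I(C'; (B, zs) | E) = I(C'; Z_k | zs (erase k), C) ≤ I₀`, `E = (C, zs (erase k))`, `D = (E, B)`. -/
theorem rn_pin_info_fp (k : Fin n) {β' : Type} (B : q.Om n → β')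
    (hB : ∀ y y', q.zs Finset.univ y = q.zs Finset.univ y' → B y = B y') :
    (q.S n).miC (pair q.nC' (pair (pair q.nC (q.zs (Finset.univ.erase k))) B)) (q.zs Finset.univ)
        (pair (pair q.nC (q.zs (Finset.univ.erase k))) B)
      ≤ q.P.miC q.C' q.Z q.C := by
  have hu : (Finset.univ : Finset (Fin n)) = insert k (Finset.univ.erase k) :=
    (Finset.insert_erase (Finset.mem_univ k)).symm
  have s1 : (q.S n).miC (q.zs Finset.univ) (pair q.nC' (pair (pair q.nC (q.zs (Finset.univ.erase k))) B))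
        (pair (pair q.nC (q.zs (Finset.univ.erase k))) B)
      ≤ (q.S n).miC (q.zs Finset.univ) q.nC' (pair (pair q.nC (q.zs (Finset.univ.erase k))) B) :=
    ent_miC_mono _ _ _ _ _ fun y y' _ _ h1 h2 => Prod.ext h1 h2
  have s2 : (q.S n).miC (q.zs Finset.univ) q.nC' (pair (pair q.nC (q.zs (Finset.univ.erase k))) B)
      = (q.S n).miC q.nC' (q.zs Finset.univ) (pair B (pair q.nC (q.zs (Finset.univ.erase k)))) := by
    rw [ent_miC_comm]
    exact rn_in_congr _ _ _ _ _ _ _ (fun _ _ _ _ => Iff.rfl) (fun _ _ _ _ => Iff.rfl) (fun y y' _ _ => by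
      simp only [FLaw.pair, Prod.mk.injEq]
      tauto)
  have s3 := ent_miC_chain (q.S n) q.nC' (q.zs Finset.univ) B (pair q.nC (q.zs (Finset.univ.erase k)))
  have s3' := ent_miC_nonneg (q.S n) q.nC' B (pair q.nC (q.zs (Finset.univ.erase k)))
  have s4 : (q.S n).miC q.nC' (pair (q.zs Finset.univ) B) (pair q.nC (q.zs (Finset.univ.erase k)))
      ≤ (q.S n).miC q.nC' (fun y => q.Z (y.2 k)) (pair q.nC (q.zs (Finset.univ.erase k))) :=
    ent_miC_mono _ _ _ _ _ fun y y' _ _ h1 h2 => by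
      have h3 : q.zs Finset.univ y = q.zs Finset.univ y' := by
        rw [hu, rn_in_zs_insert]
        exact ⟨h1, congrArg Prod.snd h2⟩
      exact Prod.ext h3 (hB y y' h3)
  have s5 : (q.S n).miC q.nC' (fun y => q.Z (y.2 k)) (pair q.nC (q.zs (Finset.univ.erase k)))
      = (q.S n).miC q.nC' (fun y => q.Z (y.2 k)) (pair (q.zs (Finset.univ.erase k)) q.nC) :=
    rn_in_congr _ _ _ _ _ _ _ (fun _ _ _ _ => Iff.rfl) (fun _ _ _ _ => Iff.rfl) (fun y y' _ _ => by
      simp only [FLaw.pair, Prod.mk.injEq]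
      exact and_comm)
  have s6 := rn_pin_info q k q.Z (q.zs (Finset.univ.erase k)) (rn_in_zs_oth q k _ (Finset.notMem_erase k _))
  rw [ent_miC_comm]
  linarith

/-! ## the single law -/

/-- helper: nested cells in the base `M ≥ 1` -/
theorem rn_aux_cell_div {M : ℕ} (hM : 1 ≤ M) {k k' : ℕ} (hk : k ≤ k') (x : ℝ) :
    rnCell M k x = rnCell M k' x / ((M ^ (k' - k) : ℕ) : ℤ) := by
  unfold rnCell
  have hM0 : (0 : ℝ) < M := by exact_mod_cast hM
  have e : x * (M : ℝ) ^ k = x * (M : ℝ) ^ k' / ((M ^ (k' - k) : ℕ) : ℝ) := by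
    push_cast
    rw [eq_div_iff (by positivity), mul_assoc, ← pow_add, Nat.add_sub_cancel' hk]
  rw [e, Int.floor_div_natCast]

theorem rn_aux_cell_nest {M : ℕ} (hM : 1 ≤ M) {k k' : ℕ} (hk : k ≤ k') {x y : ℝ} (h : rnCell M k' x = rnCell M k' y) :
    rnCell M k x = rnCell M k y := by
  rw [rn_aux_cell_div hM hk x, rn_aux_cell_div hM hk y, h]

theorem rn_aux_cell2_nest {M : ℕ} (hM : 1 ≤ M) {k k' : ℕ} (hk : k ≤ k') {x y : ℝ × ℝ} (h : rnCell2 M k' x = rnCell2 M k' y) :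
    rnCell2 M k x = rnCell2 M k y := by
  unfold rnCell2 at *
  rw [Prod.mk.injEq] at h ⊢
  exact ⟨rn_aux_cell_nest hM hk h.1, rn_aux_cell_nest hM hk h.2⟩

/-- LEAF SL.  `time` with `k = 0`; `θ_k` determines `θ_0`, so `sur(θ_k | Y) = sur(θ_0 | Y) + sur(θ_k | θ_0, Y) ≥ sur(θ_k | θ_0, Y)` on the support. -/
theorem rn_ok_time0 {M r K : ℕ} {A d τ es oT dv st : ℝ} {jj : ℕ → ℝ} (h : q.Ok M r K A d τ es oT dv st jj)
    (hM : 1 ≤ M) (k : ℕ) (hk : k ≤ r) :
    q.P.pr (fun ω => q.P.surC (q.tc M k) (pair q.C (q.Yc M (K * r))) ω < (d * k - τ) * Real.log M) ≤ τ := by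
  have h0 := h.time 0 k (Nat.zero_le k) hk
  simp only [Nat.cast_zero, sub_zero] at h0
  refine le_trans (ent_pr_mono q.P fun ω hω hs => ?_) h0
  refine lt_of_le_of_lt ?_ hs
  have c1 := ent_surC_chain q.P (q.tc M 0) (q.tc M k) (pair q.C (q.Yc M (K * r))) hω
  have c2 := ent_surC_nonneg q.P (q.tc M 0) (pair q.C (q.Yc M (K * r))) hω
  have c3 : q.P.surC (pair (q.tc M 0) (q.tc M k)) (pair q.C (q.Yc M (K * r))) ω
      = q.P.surC (q.tc M k) (pair q.C (q.Yc M (K * r))) ω := by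
    refine ent_surC_congr q.P _ _ _ _ ω (fun ω' _ => Iff.rfl) (fun ω' _ _ => ?_)
    simp only [pair, Prod.mk.injEq]
    exact ⟨fun a => a.2, fun a => ⟨rn_aux_cell_nest hM (Nat.zero_le k) a, a⟩⟩
  linarith

/-- LEAF SL.  nested cells + chain rule + data processing -/
theorem rn_ok_mi {M : ℕ} (hM : 1 ≤ M) (k k' R : ℕ) (hk : k ≤ k') (hk' : k' ≤ R) :
    q.P.miC (q.Zc M k') q.C' (pair (q.Zc M k) q.C) ≤ q.P.miC (q.Zc M R) q.C' q.C := by
  rw [ent_miC_comm q.P (q.Zc M k') q.C' _, ent_miC_comm q.P (q.Zc M R) q.C' _]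
  have c1 := ent_miC_chain q.P q.C' (q.Zc M k') (q.Zc M k) q.C
  have c2 := ent_miC_nonneg q.P q.C' (q.Zc M k) q.C
  have c3 : q.P.miC q.C' (pair (q.Zc M k') (q.Zc M k)) q.C ≤ q.P.miC q.C' (q.Zc M R) q.C := by
    refine ent_miC_mono q.P _ _ _ _ fun ω ω' _ _ a _ => ?_
    simp only [pair, Prod.mk.injEq]
    exact ⟨rn_aux_cell2_nest hM hk' a, rn_aux_cell2_nest hM (hk.trans hk') a⟩
  linarith

/-- LEAF SL.  (rt-product-angular): the angular scores survive conditioning on `C'` (`ltk_info_tail`, `rn_ok_mi`, `stat`, `ang`) -/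
theorem rn_ok_ang2 {M r K : ℕ} {A d τ es oT dv st ε : ℝ} {jj : ℕ → ℝ} (h : q.Ok M r K A d τ es oT dv st jj)
    (hM : 2 ≤ M) (hK : 1 ≤ K) (hε : 0 < ε) (k k' : ℕ) (hk : k ≤ k') (hk' : k' ≤ r) :
    q.P.pr (fun ω => q.P.surC (q.Zc M k') (pair (q.Zc M k) (pair q.C q.C')) ω < (jj k' - jj k - τ - ε) * Real.log M)
      ≤ τ + ((st + τ) * Real.log M + 1) / (ε * Real.log M) := by
  have hlog : 0 < Real.log M := Real.log_pos (by exact_mod_cast (by omega : 1 < M))
  have ht : 0 < ε * Real.log M := mul_pos hε hlog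
  have e1 := h.ang k k' hk hk'
  have e2 := ltk_info_tail q.P (q.Zc M k') (pair (q.Zc M k) q.C) q.C' ht
  have hkr : k' ≤ K * r := hk'.trans (Nat.le_mul_of_pos_left r hK)
  have e3 := (rn_ok_mi q (by omega : 1 ≤ M) k k' (K * r) hk hkr).trans h.stat
  have e2' := e2.trans (div_le_div_of_nonneg_right (add_le_add e3 le_rfl) ht.le)
  refine le_trans (le_trans (ent_pr_mono q.P fun ω hω hs => ?_) (ent_pr_or_le q.P _ _)) (add_le_add e1 e2')
  have cg : q.P.surC (q.Zc M k') (pair (q.Zc M k) (pair q.C q.C')) ω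
      = q.P.surC (q.Zc M k') (pair q.C' (pair (q.Zc M k) q.C)) ω := by
    refine ent_surC_congr q.P _ _ _ _ ω (fun ω' _ => ?_) (fun ω' _ _ => Iff.rfl)
    simp only [pair, Prod.mk.injEq]
    tauto
  by_contra hcon
  push Not at hcon
  obtain ⟨c1, c2⟩ := hcon
  rw [cg] at hs
  nlinarith

/-- LEAF SL.  if `Z` is determined by its fine cell, (stat) reads `I(C'; Z | C) ≤ (st + τ) log M` -/
theorem rn_grid_stat {M r K : ℕ} {A d τ es oT dv st : ℝ} {jj : ℕ → ℝ} (h : q.Ok M r K A d τ es oT dv st jj)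
    (hgrid : ∀ ω ω', q.Zc M (K * r) ω = q.Zc M (K * r) ω' → q.Z ω = q.Z ω') :
    q.P.miC q.C' q.Z q.C ≤ (st + τ) * Real.log M := by
  refine le_trans ?_ h.stat
  rw [ent_miC_comm q.P (q.Zc M (K * r)) q.C' q.C]
  exact ent_miC_mono q.P _ _ _ _ fun ω ω' _ _ a _ => hgrid ω ω' a

/-- LEAF SL.  `ltk_nval_close` for an arbitrary scale `s > 0` (copy its proof) -/
theorem rn_nval_close {Ω : Type} [Fintype Ω] {α : Type} (P : FLaw Ω) (G : Ω → Prop) (A : Ω → α) (v : Ω → ℝ) {s R : ℝ}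
    (hs : 0 < s) (hR : 0 ≤ R)
    (h : ∀ ω ω', P.p ω ≠ 0 → P.p ω' ≠ 0 → G ω → G ω' → A ω = A ω' → |v ω - v ω'| ≤ R) :
    P.NVal G (fun ω => ⌊v ω * s⌋) A (R * s + 2) := by
  intro ω₀
  by_cases hex : ∃ ω, P.p ω ≠ 0 ∧ G ω ∧ A ω = A ω₀
  · obtain ⟨ω₁, hω₁, hmin⟩ := Finset.exists_min_image
      (Finset.univ.filter fun ω => P.p ω ≠ 0 ∧ G ω ∧ A ω = A ω₀) v
      (by obtain ⟨ω, hω⟩ := hex; exact ⟨ω, Finset.mem_filter.2 ⟨Finset.mem_univ _, hω⟩⟩)
    obtain ⟨-, hp₁, hG₁, hA₁⟩ := Finset.mem_filter.1 hω₁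
    refine ⟨Finset.Icc ⌊v ω₁ * s⌋ ⌊(v ω₁ + R) * s⌋, ?_, ?_⟩
    · rw [Int.card_Icc]
      have hle : ⌊v ω₁ * s⌋ ≤ ⌊(v ω₁ + R) * s⌋ :=
        Int.floor_le_floor (mul_le_mul_of_nonneg_right (by linarith) hs.le)
      have h0 : 0 ≤ ⌊(v ω₁ + R) * s⌋ + 1 - ⌊v ω₁ * s⌋ := by omega
      have e : (((⌊(v ω₁ + R) * s⌋ + 1 - ⌊v ω₁ * s⌋).toNat : ℕ) : ℝ)
          = ((⌊(v ω₁ + R) * s⌋ + 1 - ⌊v ω₁ * s⌋ : ℤ) : ℝ) := by
        exact_mod_cast congrArg (fun z : ℤ => (z : ℝ)) (Int.toNat_of_nonneg h0)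
      rw [e]
      push_cast
      have h1 := Int.floor_le ((v ω₁ + R) * s)
      have h2 := Int.lt_floor_add_one (v ω₁ * s)
      nlinarith
    · intro ω hp hG hA
      have hm : v ω₁ ≤ v ω := hmin ω (Finset.mem_filter.2 ⟨Finset.mem_univ _, hp, hG, hA⟩)
      have hd := h ω ω₁ hp hp₁ hG hG₁ (hA.trans hA₁.symm)
      have hu : v ω ≤ v ω₁ + R := by
        have := (abs_le.1 hd).2
        linarith
      rw [Finset.mem_Icc]
      exact ⟨Int.floor_le_floor (mul_le_mul_of_nonneg_right hm hs.le),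
        Int.floor_le_floor (mul_le_mul_of_nonneg_right hu hs.le)⟩
  · refine ⟨∅, ?_, ?_⟩
    · rw [Finset.card_empty, Nat.cast_zero]
      positivity
    · intro ω hp hG hA
      exact absurd ⟨ω, hp, hG, hA⟩ hex

end Claimed.Agent.R256
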