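import Claimed.Agent.R256.Rnd.OutGeo
import Claimed.Agent.R256.Rnd.OutPin

/-!
# Row 256, unit RND (08B), OUT file 3: the time step, the transverse event, the chain      (architect helper38)

`q.fc M j φ` = cell of depth `j` of `φ · O`, `φ` a functional that depends only on the angular variables of the pins;  `q.dp = (C, all Z)` the conditioning data `D⁺`;  `q.pY M R x` the fine line of the pin `x`.
GRID hypothesis `hgrid`: `Z` is determined by its fine cell (`rn_ok_grid` in `OutMain.lean` reduces to this case).  Then `Z_x` is a function of `q.pY M (K r) x` and of `q.dp`.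
 * `rn_ls`       a functional that kills `rnE Z_x` is predicted by `(Y#_x, D⁺)` up to `11 A B + 2` cells                 ((rt-incidence-point) eliminates the time)
 * `rn_ts_list`  if `|φ · rnE Z_x| ≥ κ ≥ M^-lo` the cell of depth `j` of `φ · O` and `(Y#_x, D⁺)` determine `θ_x` at depth `j - lo` up to `11 A B + 3` cells
 * `rn_ts`       **the time step**:  `sur (φ·O)_j | V, D⁺) ≥ (d (j - lo) - τ - 6 ε) log M`  typically, for every `V` listed by `(Y#_x, D⁺)`          (08 l.1205-1230, l.1318-1330, l.1352-1372: ONE lemma)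
     `ltk_lp` (adjoin `Y#_x`), `ltk_transfer` (`T = fc`, `U = θ`-cell, `Y = (Y#,V,D⁺)`, `Y' = (Y#,D⁺)`), `ltk_info_tail` + `rn_pin_info_ts` + `rn_grid_stat` (drop the other pins), `rn_ok_time0` + `ent_map_surC` + `rn_pin_map`.
 * `rn_ts_ent`   entropy form (`ltk_ent_ge`)
 * `q.Tr`, `rn_tr_prob`  the transverse event (`rn_pin_slab`, `rn_geo_plane`)
 * `rn_out_chain`  `H(O_r | C) ≥ H(O_r | D⁺) ≥ ∑ H(φ_i·O | later ones, D⁺) - 4 log (4 B + 2)`.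
LEAVES: L-256-RN-TS1 (`rn_ls`, `rn_ts_list`), TS2 (`rn_ts`, `rn_ts_ent`), TR (`rn_tr_prob`, `rn_tr_speed`), CHN (`rn_out_chain`).
-/

set_option autoImplicit false

namespace Claimed.Agent.R256

open Claimed.Agent.R255 Claimed.Agent.R255.FLaw
open Classical

namespace RnQ

variable (q : RnQ) {n : ℕ}

/-- cell of depth `j` of the functional `φ` at the common point -/
noncomputable def fc (M j : ℕ) (φ : q.Om n → Fin 4 → ℝ) : q.Om n → ℤ := fun y => rnCell M j (rnDot (φ y) (q.pO y))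

/-- the conditioning data `D⁺ = (C, all angular variables)` -/
def dp : q.Om n → q.α × (Fin n → Option (ℝ × ℝ)) := pair q.nC (q.zs Finset.univ)

/-- the line of the pin `x` at depth `R` -/
noncomputable def pY (M R : ℕ) (x : Fin n) : q.Om n → (ℤ × ℤ) × (ℤ × ℤ × ℤ) := fun y => q.Yc M R (y.2 x)

/-- **the transverse event**: first coordinates `ϖ`-separated; the intercept functional of `(i0, j, k0)` does not kill the pin `l` -/
def Tr (ϖ ϖ₂ : ℝ) (i0 k0 : Fin n) (y : q.Om n) : Prop :=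
  (∀ x x' : Fin n, x ≠ x' → ϖ < |(q.Z (y.2 x)).1 - (q.Z (y.2 x')).1|) ∧
  (∀ j l : Fin n, j ≠ l → j ≠ i0 → j ≠ k0 → l ≠ i0 → l ≠ k0 →
    ϖ₂ < |rnDot (rnNu (q.Z (y.2 i0)) (q.Z (y.2 j)) (q.Z (y.2 k0))) (rnE (q.Z (y.2 l)))|)

end RnQ

/-- the common lower bound of all speeds and inverse Lipschitz constants on the transverse event -/
noncomputable def rnKap (A ϖ : ℝ) : ℝ := ϖ ^ 6 / (10 ^ 5 * A ^ 8)

variable (q : RnQ) {n : ℕ}

theorem rn_aux_cell_close {M k : ℕ} (hM : 1 ≤ M) {a b : ℝ} (h : rnCell M k a = rnCell M k b) :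
    |a - b| ≤ 1 / (M : ℝ) ^ k := by
  have hp : (0 : ℝ) < (M : ℝ) ^ k := by
    have : (0 : ℝ) < M := by exact_mod_cast hM
    positivity
  have h1 : |a * (M : ℝ) ^ k - b * (M : ℝ) ^ k| < 1 := Int.abs_sub_lt_one_of_floor_eq_floor h
  rw [le_div_iff₀ hp]
  have h2 : |a - b| * (M : ℝ) ^ k = |a * (M : ℝ) ^ k - b * (M : ℝ) ^ k| := by
    rw [← sub_mul, abs_mul, abs_of_pos hp]
  rw [h2]
  exact h1.le

theorem rn_aux_dot_diff {φ O O' : Fin 4 → ℝ} {W W' : ℝ × ℝ × ℝ} {Z : ℝ × ℝ} {θ θ' B a δ : ℝ}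
    (hφ : ∀ i, |φ i| ≤ B) (hO : ∀ i, |O i - (rnW W i + θ * rnE Z i)| ≤ a)
    (hO' : ∀ i, |O' i - (rnW W' i + θ' * rnE Z i)| ≤ a)
    (hW1 : |W.1 - W'.1| ≤ δ) (hW2 : |W.2.1 - W'.2.1| ≤ δ) (hW3 : |W.2.2 - W'.2.2| ≤ δ) :
    |(rnDot φ O - rnDot φ O') - (θ - θ') * rnDot φ (rnE Z)| ≤ 3 * B * δ + 8 * B * a := by
  have t1 := abs_le.1 (rn_ge3_mul (hφ 1) hW1)
  have t2 := abs_le.1 (rn_ge3_mul (hφ 2) hW2)
  have t3 := abs_le.1 (rn_ge3_mul (hφ 3) hW3)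
  have s0 := abs_le.1 (rn_ge3_mul (hφ 0) (hO 0))
  have s1 := abs_le.1 (rn_ge3_mul (hφ 1) (hO 1))
  have s2 := abs_le.1 (rn_ge3_mul (hφ 2) (hO 2))
  have s3 := abs_le.1 (rn_ge3_mul (hφ 3) (hO 3))
  have u0 := abs_le.1 (rn_ge3_mul (hφ 0) (hO' 0))
  have u1 := abs_le.1 (rn_ge3_mul (hφ 1) (hO' 1))
  have u2 := abs_le.1 (rn_ge3_mul (hφ 2) (hO' 2))
  have u3 := abs_le.1 (rn_ge3_mul (hφ 3) (hO' 3))
  have w0 : ∀ W : ℝ × ℝ × ℝ, rnW W 0 = 0 := fun _ => rfl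
  have w1 : ∀ W : ℝ × ℝ × ℝ, rnW W 1 = W.1 := fun _ => rfl
  have w2 : ∀ W : ℝ × ℝ × ℝ, rnW W 2 = W.2.1 := fun _ => rfl
  have w3 : ∀ W : ℝ × ℝ × ℝ, rnW W 3 = W.2.2 := fun _ => rfl
  rw [w0] at s0 u0
  rw [w1] at s1 u1
  rw [w2] at s2 u2
  rw [w3] at s3 u3
  unfold rnDot
  rw [abs_le]
  constructor <;> linarith [t1.1, t1.2, t2.1, t2.2, t3.1, t3.2, s0.1, s0.2, s1.1, s1.2, s2.1, s2.2, s3.1, s3.2,
    u0.1, u0.2, u1.1, u1.2, u2.1, u2.2, u3.1, u3.2]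

/-- two points of the support with the same fine line of the pin `x` and the same `D⁺` -/
theorem rn_aux_inc_diff {M r K : ℕ} {A B d τ es oT dv st : ℝ} {jj : ℕ → ℝ} (h : q.Ok M r K A d τ es oT dv st jj)
    (hM : 1 ≤ M) (hA : 1 ≤ A) (hB : 0 ≤ B) (x : Fin n) (φ : q.Om n → Fin 4 → ℝ)
    (hφ : ∀ y y', q.zs Finset.univ y = q.zs Finset.univ y' → φ y = φ y') (hφb : ∀ y i, |φ y i| ≤ B)
    {y y' : q.Om n} (hy : (q.S n).p y ≠ 0) (hy' : (q.S n).p y' ≠ 0)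
    (he : pair (q.pY M (K * r) x) q.dp y = pair (q.pY M (K * r) x) q.dp y') :
    |(rnDot (φ y) (q.pO y) - rnDot (φ y') (q.pO y')) - (q.th (y.2 x) - q.th (y'.2 x)) * rnDot (φ y) (rnE (q.Z (y.2 x)))|
      ≤ 11 * A * B / (M : ℝ) ^ (K * r) := by
  have hp : (0 : ℝ) < (M : ℝ) ^ (K * r) := by
    have : (0 : ℝ) < M := by exact_mod_cast hM
    positivity
  have e1 : q.Yc M (K * r) (y.2 x) = q.Yc M (K * r) (y'.2 x) := congrArg Prod.fst he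
  have e2 : q.dp y = q.dp y' := congrArg Prod.snd he
  have e3 : q.zs Finset.univ y = q.zs Finset.univ y' := congrArg Prod.snd e2
  have e4 : q.Z (y.2 x) = q.Z (y'.2 x) := by
    have := congrFun e3 x
    unfold RnQ.zs at this
    rw [if_pos (Finset.mem_univ x), if_pos (Finset.mem_univ x)] at this
    exact Option.some.inj this
  have e5 : q.Wc M (K * r) (y.2 x) = q.Wc M (K * r) (y'.2 x) := congrArg Prod.snd e1
  have c1 : rnCell M (K * r) (q.W (y.2 x)).1 = rnCell M (K * r) (q.W (y'.2 x)).1 := congrArg Prod.fst e5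
  have c2 : rnCell M (K * r) (q.W (y.2 x)).2.1 = rnCell M (K * r) (q.W (y'.2 x)).2.1 :=
    congrArg (fun t => t.2.1) e5
  have c3 : rnCell M (K * r) (q.W (y.2 x)).2.2 = rnCell M (K * r) (q.W (y'.2 x)).2.2 :=
    congrArg (fun t => t.2.2) e5
  rw [← hφ y y' e3, ← rn_pin_O q h.ofun x hy, ← rn_pin_O q h.ofun x hy']
  have i1 := h.inc (y.2 x)
  have i2 := h.inc (y'.2 x)
  rw [← e4] at i2
  refine (rn_aux_dot_diff (hφb y) i1 i2 (rn_aux_cell_close hM c1) (rn_aux_cell_close hM c2)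
    (rn_aux_cell_close hM c3)).trans ?_
  have : 3 * B * (1 / (M : ℝ) ^ (K * r)) + 8 * B * (A / (M : ℝ) ^ (K * r)) = (3 * B + 8 * A * B) / (M : ℝ) ^ (K * r) := by
    field_simp
  rw [this]
  refine div_le_div_of_nonneg_right ?_ hp.le
  nlinarith

/-- LEAF TS1.  `ψ·O - ψ·O' = ψ·(0, W - W') + ψ·(err - err')`, `|·| ≤ (3 B + 8 A B)/M^(K r)`  (`inc`, `rn_pin_O`, `rn_pin_same`; same fine cell: `|W_i - W_i'| ≤ 1/M^(K r)`);  `rn_nval_close`, `ltk_nval_mono`. -/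
theorem rn_ls {M r K j : ℕ} {A B d τ es oT dv st : ℝ} {jj : ℕ → ℝ} (h : q.Ok M r K A d τ es oT dv st jj)
    (hM : 1 ≤ M) (hA : 1 ≤ A) (hB : 0 ≤ B) (x : Fin n) (ψ : q.Om n → Fin 4 → ℝ)
    (hψ : ∀ y y', q.zs Finset.univ y = q.zs Finset.univ y' → ψ y = ψ y') (hψb : ∀ y i, |ψ y i| ≤ B)
    (hkill : ∀ y, rnDot (ψ y) (rnE (q.Z (y.2 x))) = 0) (hj : j ≤ K * r) :
    (q.S n).NVal (fun _ => True) (q.fc M j ψ) (pair (q.pY M (K * r) x) q.dp) (11 * A * B + 2) := by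
  have hM0 : (1 : ℝ) ≤ M := by exact_mod_cast hM
  have hp : (0 : ℝ) < (M : ℝ) ^ (K * r) := by positivity
  have hs : (0 : ℝ) < (M : ℝ) ^ j := by positivity
  have hAB : 0 ≤ 11 * A * B := by positivity
  have h1 := rn_nval_close (q.S n) (fun _ => True) (pair (q.pY M (K * r) x) q.dp)
    (fun y => rnDot (ψ y) (q.pO y)) (s := (M : ℝ) ^ j) (R := 11 * A * B / (M : ℝ) ^ (K * r)) hs (by positivity)
    (fun y y' hy hy' _ _ he => by
      have := rn_aux_inc_diff q h hM hA hB x ψ hψ hψb hy hy' he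
      rwa [hkill y, mul_zero, sub_zero] at this)
  refine ltk_nval_mono (q.S n) h1 (fun _ h => h) (fun _ _ h => h) ⟨id, fun _ => rfl⟩ ?_
  have h2 : (M : ℝ) ^ j ≤ (M : ℝ) ^ (K * r) := pow_le_pow_right₀ hM0 hj
  have h3 : 11 * A * B / (M : ℝ) ^ (K * r) * (M : ℝ) ^ j ≤ 11 * A * B := by
    rw [div_mul_eq_mul_div, div_le_iff₀ hp]
    exact mul_le_mul_of_nonneg_left h2 hAB
  linarith

/-- LEAF TS1.  `(θ - θ') φ·rnE Z = (φ·O - φ·O') - φ·(0, W - W') - φ·(err - err')`  (`Z = Z'` exactly: same `D⁺`). -/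
theorem rn_ts_list {M r K j lo : ℕ} {A B d τ es oT dv st κ : ℝ} {jj : ℕ → ℝ} (h : q.Ok M r K A d τ es oT dv st jj)
    (hM : 1 ≤ M) (hK : 1 ≤ K) (hA : 1 ≤ A) (hB : 0 ≤ B) (x : Fin n) (φ : q.Om n → Fin 4 → ℝ)
    (hφ : ∀ y y', q.zs Finset.univ y = q.zs Finset.univ y' → φ y = φ y') (hφb : ∀ y i, |φ y i| ≤ B)
    (G : q.Om n → Prop) (hκ : 0 < κ) (hsp : ∀ y, G y → κ ≤ |rnDot (φ y) (rnE (q.Z (y.2 x)))|)
    (hlo : 1 / (M : ℝ) ^ lo ≤ κ) (hj : lo ≤ j) (hjr : j ≤ r) :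
    (q.S n).NVal G (fun y => q.tc M (j - lo) (y.2 x)) (pair (q.fc M j φ) (pair (q.pY M (K * r) x) q.dp))
      (11 * A * B + 3) := by
  have hM0 : (1 : ℝ) ≤ M := by exact_mod_cast hM
  have hp : (0 : ℝ) < (M : ℝ) ^ (K * r) := by positivity
  have hpj : (0 : ℝ) < (M : ℝ) ^ j := by positivity
  have hpl : (0 : ℝ) < (M : ℝ) ^ lo := by positivity
  have hs : (0 : ℝ) < (M : ℝ) ^ (j - lo) := by positivity
  have hAB : 0 ≤ 11 * A * B := by positivity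
  have hjK : j ≤ K * r := hjr.trans (Nat.le_mul_of_pos_left r hK)
  have h1 := rn_nval_close (q.S n) G (pair (q.fc M j φ) (pair (q.pY M (K * r) x) q.dp))
    (fun y => q.th (y.2 x)) (s := (M : ℝ) ^ (j - lo)) (R := (11 * A * B + 1) / (M : ℝ) ^ (j - lo)) hs (by positivity)
    (fun y y' hy hy' hG _ he => by
      have he1 : q.fc M j φ y = q.fc M j φ y' := congrArg Prod.fst he
      have he2 : pair (q.pY M (K * r) x) q.dp y = pair (q.pY M (K * r) x) q.dp y' := congrArg Prod.snd he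
      have a1 := rn_aux_inc_diff q h hM hA hB x φ hφ hφb hy hy' he2
      have a2 : |rnDot (φ y) (q.pO y) - rnDot (φ y') (q.pO y')| ≤ 1 / (M : ℝ) ^ j := rn_aux_cell_close hM he1
      have a3 := hsp y hG
      have a4 : 11 * A * B / (M : ℝ) ^ (K * r) ≤ 11 * A * B / (M : ℝ) ^ j :=
        div_le_div_of_nonneg_left hAB hpj (pow_le_pow_right₀ hM0 hjK)
      have a5 : |(q.th (y.2 x) - q.th (y'.2 x)) * rnDot (φ y) (rnE (q.Z (y.2 x)))| ≤ (11 * A * B + 1) / (M : ℝ) ^ j := by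
        have b1 := abs_le.1 a1
        have b2 := abs_le.1 a2
        have b3 : (11 * A * B + 1) / (M : ℝ) ^ j = 11 * A * B / (M : ℝ) ^ j + 1 / (M : ℝ) ^ j := by ring
        rw [b3, abs_le]
        constructor <;> linarith [b1.1, b1.2, b2.1, b2.2]
      rw [abs_mul] at a5
      have a6 : |q.th (y.2 x) - q.th (y'.2 x)| * (1 / (M : ℝ) ^ lo) ≤ (11 * A * B + 1) / (M : ℝ) ^ j :=
        le_trans (mul_le_mul_of_nonneg_left (hlo.trans a3) (abs_nonneg _)) a5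
      have a7 : (M : ℝ) ^ j = (M : ℝ) ^ (j - lo) * (M : ℝ) ^ lo := by
        rw [← pow_add, Nat.sub_add_cancel hj]
      show |q.th (y.2 x) - q.th (y'.2 x)| ≤ _
      rw [le_div_iff₀ hs]
      rw [a7, le_div_iff₀ (mul_pos hs hpl)] at a6
      have a8 : |q.th (y.2 x) - q.th (y'.2 x)| * (1 / (M : ℝ) ^ lo) * ((M : ℝ) ^ (j - lo) * (M : ℝ) ^ lo)
          = |q.th (y.2 x) - q.th (y'.2 x)| * (M : ℝ) ^ (j - lo) := by
        field_simp
      rwa [a8] at a6)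
  refine ltk_nval_mono (q.S n) h1 (fun _ h => h) (fun _ _ h => h) ⟨id, fun _ => rfl⟩ ?_
  have h3 : (11 * A * B + 1) / (M : ℝ) ^ (j - lo) * (M : ℝ) ^ (j - lo) = 11 * A * B + 1 := by
    field_simp
  linarith

/-- adjoin to the read label a function of the reader -/
theorem rn_aux_nval_pair {Ω : Type} [Fintype Ω] {α β γ : Type} (P : FLaw Ω) (G : Ω → Prop) (V : Ω → β) (A : Ω → α) (D : Ω → γ)
    {N : ℝ} (h : P.NVal G V A N) (hD : ∀ ω ω', A ω = A ω' → D ω = D ω') : P.NVal G (pair V D) A N := by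
  intro ω₀
  obtain ⟨S, hS, hmem⟩ := h ω₀
  refine ⟨S.image (fun v => (v, D ω₀)), ?_, ?_⟩
  · have h1 : ((S.image (fun v => (v, D ω₀))).card : ℝ) ≤ (S.card : ℝ) := by exact_mod_cast Finset.card_image_le
    exact h1.trans hS
  · intro ω hp hG hA
    refine Finset.mem_image.2 ⟨V ω, hmem ω hp hG hA, ?_⟩
    show (V ω, D ω₀) = (V ω, D ω)
    rw [hD ω ω₀ hA]

/-- LEAF TS2.  **the time step** (header). -/
theorem rn_ts {M r K j lo : ℕ} {A B d τ es oT dv st κ ε NV : ℝ} {jj : ℕ → ℝ} (h : q.Ok M r K A d τ es oT dv st jj)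
    (hgrid : ∀ ω ω', q.Zc M (K * r) ω = q.Zc M (K * r) ω' → q.Z ω = q.Z ω')
    (hM : 2 ≤ M) (hK : 1 ≤ K) (hA : 1 ≤ A) (hB : 0 ≤ B) (x : Fin n) (φ : q.Om n → Fin 4 → ℝ)
    (hφ : ∀ y y', q.zs Finset.univ y = q.zs Finset.univ y' → φ y = φ y') (hφb : ∀ y i, |φ y i| ≤ B)
    (G : q.Om n → Prop) (hκ : 0 < κ) (hsp : ∀ y, G y → κ ≤ |rnDot (φ y) (rnE (q.Z (y.2 x)))|)
    (hlo : 1 / (M : ℝ) ^ lo ≤ κ) (hj : lo ≤ j) (hjr : j ≤ r)
    {γ : Type} (V : q.Om n → γ) (hNV : 1 ≤ NV) (hV : (q.S n).NVal G V (pair (q.pY M (K * r) x) q.dp) NV)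
    (hε : 0 < ε) (hlog : Real.log NV + Real.log (11 * A * B + 3) ≤ ε * Real.log M) :
    (q.S n).pr (fun y => (q.S n).surC (q.fc M j φ) (pair V q.dp) y < (d * ((j : ℝ) - lo) - τ - 6 * ε) * Real.log M)
      ≤ 4 * Real.exp (-(ε * Real.log M)) + (n * ((st + τ) * Real.log M) + 1) / (ε * Real.log M) + τ
        + (q.S n).pr (fun y => ¬ G y) := by
  have hM1 : 1 ≤ M := by omega
  have hMr : (2 : ℝ) ≤ M := by exact_mod_cast hM
  have hL : 0 < Real.log M := Real.log_pos (by linarith)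
  have ht : 0 < ε * Real.log M := mul_pos hε hL
  have hAB : 0 ≤ 11 * A * B := by positivity
  -- the transfer
  have b1 := ltk_transfer (q.S n) G (q.fc M j φ) (fun y => q.tc M (j - lo) (y.2 x)) (pair V q.dp)
    (pair (q.pY M (K * r) x) q.dp) (N₁ := NV) (N₂ := 11 * A * B + 3) (by linarith) (by linarith)
    (rn_aux_nval_pair (q.S n) G V _ q.dp hV fun ω ω' he => congrArg Prod.snd he)
    (rn_ts_list q h hM1 hK hA hB x φ hφ hφb G hκ hsp hlo hj hjr) (ε * Real.log M)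
  -- drop the other pins
  have b2 := ltk_info_tail (q.S n) (fun y => q.tc M (j - lo) (y.2 x)) (pair (q.pY M (K * r) x) q.nC) (q.zs Finset.univ) ht
  have b2' : (q.S n).miC (fun y => q.tc M (j - lo) (y.2 x)) (q.zs Finset.univ) (pair (q.pY M (K * r) x) q.nC)
      ≤ n * ((st + τ) * Real.log M) := by
    refine (rn_pin_info_ts q x (q.tc M (j - lo)) (q.Yc M (K * r)) fun ω ω' he => hgrid ω ω' (congrArg Prod.fst he)).trans ?_
    exact mul_le_mul_of_nonneg_left (rn_grid_stat q h hgrid) (Nat.cast_nonneg n)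
  have b2'' : (q.S n).pr (fun y => (q.S n).surC (fun y => q.tc M (j - lo) (y.2 x)) (pair (q.zs Finset.univ) (pair (q.pY M (K * r) x) q.nC)) y
        + ε * Real.log M < (q.S n).surC (fun y => q.tc M (j - lo) (y.2 x)) (pair (q.pY M (K * r) x) q.nC) y)
      ≤ (n * ((st + τ) * Real.log M) + 1) / (ε * Real.log M) :=
    b2.trans (div_le_div_of_nonneg_right (by linarith) ht.le)
  -- the single law
  have b3 := rn_ok_time0 q h hM1 (j - lo) ((Nat.sub_le j lo).trans hjr)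
  have b3' : (q.S n).pr (fun y => q.P.surC (q.tc M (j - lo)) (pair q.C (q.Yc M (K * r))) (y.2 x)
      < (d * ((j - lo : ℕ) : ℝ) - τ) * Real.log M) ≤ τ := by
    have := ent_map_pr (q.S n) (fun y => y.2 x) (fun ω => q.P.surC (q.tc M (j - lo)) (pair q.C (q.Yc M (K * r))) ω
      < (d * ((j - lo : ℕ) : ℝ) - τ) * Real.log M)
    rw [rn_pin_map] at this
    rw [← this]
    exact b3
  have hcast : ((j - lo : ℕ) : ℝ) = (j : ℝ) - lo := Nat.cast_sub hj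
  -- union bound
  have hsub : (q.S n).pr (fun y => (q.S n).surC (q.fc M j φ) (pair V q.dp) y < (d * ((j : ℝ) - lo) - τ - 6 * ε) * Real.log M)
      ≤ (q.S n).pr (fun y => (((G y ∧ (q.S n).surC (q.fc M j φ) (pair V q.dp) y
            < (q.S n).surC (fun y => q.tc M (j - lo) (y.2 x)) (pair (q.pY M (K * r) x) q.dp) y - Real.log NV
              - Real.log (11 * A * B + 3) - 3 * (ε * Real.log M))
          ∨ ((q.S n).surC (fun y => q.tc M (j - lo) (y.2 x)) (pair (q.zs Finset.univ) (pair (q.pY M (K * r) x) q.nC)) y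
        + ε * Real.log M < (q.S n).surC (fun y => q.tc M (j - lo) (y.2 x)) (pair (q.pY M (K * r) x) q.nC) y))
          ∨ (q.P.surC (q.tc M (j - lo)) (pair q.C (q.Yc M (K * r))) (y.2 x) < (d * ((j - lo : ℕ) : ℝ) - τ) * Real.log M))
          ∨ ¬ G y) := by
    refine ent_pr_mono _ fun y hy hlt => ?_
    by_contra hcon
    push Not at hcon
    obtain ⟨⟨⟨c1, c2⟩, c3⟩, c4⟩ := hcon
    have c1' := c1 c4
    have e1 : (q.S n).surC (fun y => q.tc M (j - lo) (y.2 x)) (pair (q.pY M (K * r) x) q.dp) y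
        = (q.S n).surC (fun y => q.tc M (j - lo) (y.2 x)) (pair (q.zs Finset.univ) (pair (q.pY M (K * r) x) q.nC)) y := by
      refine ent_surC_congr (q.S n) _ _ _ _ y (fun ω' _ => ?_) (fun ω' _ _ => Iff.rfl)
      simp only [FLaw.pair, RnQ.dp, Prod.mk.injEq]
      tauto
    have e2 : (q.S n).surC (fun y => q.tc M (j - lo) (y.2 x)) (pair (q.pY M (K * r) x) q.nC) y
        = q.P.surC (q.tc M (j - lo)) (pair q.C (q.Yc M (K * r))) (y.2 x) := by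
      have e3 := ent_map_surC (q.S n) (fun y => y.2 x) (q.tc M (j - lo)) (pair q.C (q.Yc M (K * r))) y
      rw [rn_pin_map] at e3
      rw [e3]
      refine ent_surC_congr (q.S n) _ _ _ _ y (fun ω' hω' => ?_) (fun ω' _ _ => Iff.rfl)
      simp only [FLaw.pair, RnQ.pY, Prod.mk.injEq]
      rw [(rn_pin_same q x hω').1, (rn_pin_same q x hy).1]
      tauto
    rw [hcast] at c3
    rw [e1] at c1'
    rw [e2] at c2
    nlinarith
  refine hsub.trans ?_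
  have u1 := ent_pr_or_le (q.S n) (fun y => (((G y ∧ (q.S n).surC (q.fc M j φ) (pair V q.dp) y
            < (q.S n).surC (fun y => q.tc M (j - lo) (y.2 x)) (pair (q.pY M (K * r) x) q.dp) y - Real.log NV
              - Real.log (11 * A * B + 3) - 3 * (ε * Real.log M))
          ∨ ((q.S n).surC (fun y => q.tc M (j - lo) (y.2 x)) (pair (q.zs Finset.univ) (pair (q.pY M (K * r) x) q.nC)) y
        + ε * Real.log M < (q.S n).surC (fun y => q.tc M (j - lo) (y.2 x)) (pair (q.pY M (K * r) x) q.nC) y))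
          ∨ (q.P.surC (q.tc M (j - lo)) (pair q.C (q.Yc M (K * r))) (y.2 x) < (d * ((j - lo : ℕ) : ℝ) - τ) * Real.log M)))
          (fun y => ¬ G y)
  have u2 := ent_pr_or_le (q.S n) (fun y => ((G y ∧ (q.S n).surC (q.fc M j φ) (pair V q.dp) y
            < (q.S n).surC (fun y => q.tc M (j - lo) (y.2 x)) (pair (q.pY M (K * r) x) q.dp) y - Real.log NV
              - Real.log (11 * A * B + 3) - 3 * (ε * Real.log M))
          ∨ ((q.S n).surC (fun y => q.tc M (j - lo) (y.2 x)) (pair (q.zs Finset.univ) (pair (q.pY M (K * r) x) q.nC)) y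
        + ε * Real.log M < (q.S n).surC (fun y => q.tc M (j - lo) (y.2 x)) (pair (q.pY M (K * r) x) q.nC) y)))
          (fun y => (q.P.surC (q.tc M (j - lo)) (pair q.C (q.Yc M (K * r))) (y.2 x) < (d * ((j - lo : ℕ) : ℝ) - τ) * Real.log M))
  have u3 := ent_pr_or_le (q.S n) (fun y => (G y ∧ (q.S n).surC (q.fc M j φ) (pair V q.dp) y
            < (q.S n).surC (fun y => q.tc M (j - lo) (y.2 x)) (pair (q.pY M (K * r) x) q.dp) y - Real.log NV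
              - Real.log (11 * A * B + 3) - 3 * (ε * Real.log M)))
          (fun y => ((q.S n).surC (fun y => q.tc M (j - lo) (y.2 x)) (pair (q.zs Finset.univ) (pair (q.pY M (K * r) x) q.nC)) y
        + ε * Real.log M < (q.S n).surC (fun y => q.tc M (j - lo) (y.2 x)) (pair (q.pY M (K * r) x) q.nC) y))
  have hexp := Real.exp_pos (-(ε * Real.log M))
  linarith

/-- LEAF TS2.  entropy form -/
theorem rn_ts_ent {M r K j lo : ℕ} {A B d τ es oT dv st κ ε NV : ℝ} {jj : ℕ → ℝ} (h : q.Ok M r K A d τ es oT dv st jj)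
    (hgrid : ∀ ω ω', q.Zc M (K * r) ω = q.Zc M (K * r) ω' → q.Z ω = q.Z ω')
    (hM : 2 ≤ M) (hK : 1 ≤ K) (hA : 1 ≤ A) (hB : 0 ≤ B) (x : Fin n) (φ : q.Om n → Fin 4 → ℝ)
    (hφ : ∀ y y', q.zs Finset.univ y = q.zs Finset.univ y' → φ y = φ y') (hφb : ∀ y i, |φ y i| ≤ B)
    (G : q.Om n → Prop) (hκ : 0 < κ) (hsp : ∀ y, G y → κ ≤ |rnDot (φ y) (rnE (q.Z (y.2 x)))|)
    (hlo : 1 / (M : ℝ) ^ lo ≤ κ) (hj : lo ≤ j) (hjr : j ≤ r)
    {γ : Type} (V : q.Om n → γ) (hNV : 1 ≤ NV) (hV : (q.S n).NVal G V (pair (q.pY M (K * r) x) q.dp) NV)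
    (hε : 0 < ε) (hlog : Real.log NV + Real.log (11 * A * B + 3) ≤ ε * Real.log M)
    (hpos : 0 ≤ d * ((j : ℝ) - lo) - τ - 6 * ε) :
    (d * ((j : ℝ) - lo) - τ - 6 * ε) * Real.log M *
        (1 - (4 * Real.exp (-(ε * Real.log M)) + (n * ((st + τ) * Real.log M) + 1) / (ε * Real.log M) + τ
          + (q.S n).pr (fun y => ¬ G y)))
      ≤ (q.S n).entC (q.fc M j φ) (pair V q.dp) := by
  have hMr : (2 : ℝ) ≤ M := by exact_mod_cast hM
  have hL : 0 < Real.log M := Real.log_pos (by linarith)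
  exact ltk_ent_ge (q.S n) _ _ (mul_nonneg hpos hL.le)
    (rn_ts q h hgrid hM hK hA hB x φ hφ hφb G hκ hsp hlo hj hjr V hNV hV hε hlog)

/-- LEAF TR.  **the transverse event is typical.**   `≤ n²` pairs `(x,x')`: slab with normal `(1,0,0)` through `Z_x'`;   `≤ n²` pairs `(j,l)`: on the separated event use the plane of `rn_geo_plane`
(selector: `Classical.choose` where `Z_i0, Z_j, Z_l` are separated, `((1,0,0),0)` elsewhere; it depends only on the pins `≠ k0`).   Each event has mass `≤ 2 τ` (`rn_pin_slab`). -/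
theorem rn_tr_prob {M r K : ℕ} {A d τ es oT dv st : ℝ} {jj : ℕ → ℝ} (h : q.Ok M r K A d τ es oT dv st jj)
    (hM : 1 ≤ M) (hA : 1 ≤ A) (i0 k0 : Fin n) (hik : i0 ≠ k0) :
    (q.S n).pr (fun y => ¬ q.Tr ((M : ℝ) ^ (-(es * r))) (((M : ℝ) ^ (-(es * r))) ^ 4 / (72 * A ^ 3)) i0 k0 y)
      ≤ 4 * (n : ℝ) ^ 2 * τ := by
  have hM0 : (0 : ℝ) < M := by exact_mod_cast hM
  obtain ⟨w, hw⟩ : ∃ w : ℝ, w = (M : ℝ) ^ (-(es * r)) := ⟨_, rfl⟩
  have hw0 : 0 < w := by rw [hw]; exact Real.rpow_pos_of_pos hM0 _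
  have hslab := h.slab
  rw [← hw] at hslab ⊢
  have hτ : 0 ≤ τ := (ent_pr_nonneg _ _).trans hslab
  -- the selector of the plane
  obtain ⟨Good, hGood⟩ : ∃ Good : (ℝ × ℝ) → (ℝ × ℝ) → (ℝ × ℝ) → (ℝ × ℝ × ℝ) × ℝ → Prop, Good = fun a b b' s =>
      s.1.1 ^ 2 + s.1.2.1 ^ 2 + s.1.2.2 ^ 2 = 1 ∧ ∀ c : ℝ × ℝ, RnB A c → w ≤ |c.1 - a.1| → w ≤ |c.1 - b.1| →
        w < |s.1.1 * c.1 + s.1.2.1 * c.2 + s.1.2.2 * (c.1 ^ 2 + c.2 ^ 2) - s.2| →
        w ^ 4 / (72 * A ^ 3) < |rnDot (rnNu a b c) (rnE b')| := ⟨_, rfl⟩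
  have hGiff : ∀ a b b' s, Good a b b' s ↔ (s.1.1 ^ 2 + s.1.2.1 ^ 2 + s.1.2.2 ^ 2 = 1 ∧ ∀ c : ℝ × ℝ, RnB A c →
        w ≤ |c.1 - a.1| → w ≤ |c.1 - b.1| →
        w < |s.1.1 * c.1 + s.1.2.1 * c.2 + s.1.2.2 * (c.1 ^ 2 + c.2 ^ 2) - s.2| →
        w ^ 4 / (72 * A ^ 3) < |rnDot (rnNu a b c) (rnE b')|) := by
    intro a b b' s
    rw [hGood]
  obtain ⟨sel, hsel⟩ : ∃ sel : (ℝ × ℝ) → (ℝ × ℝ) → (ℝ × ℝ) → (ℝ × ℝ × ℝ) × ℝ, sel = fun a b b' =>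
      if hx : ∃ s, Good a b b' s then Classical.choose hx else ((1, 0, 0), 0) := ⟨_, rfl⟩
  have hunit : ∀ a b b', (sel a b b').1.1 ^ 2 + (sel a b b').1.2.1 ^ 2 + (sel a b b').1.2.2 ^ 2 = 1 := by
    intro a b b'
    rw [hsel]
    by_cases hx : ∃ s, Good a b b' s
    · simp only [dif_pos hx]
      exact ((hGiff _ _ _ _).1 (Classical.choose_spec hx)).1
    · simp only [dif_neg hx]
      norm_num
  have hgood : ∀ a b b', RnB A a → RnB A b → RnB A b' → w ≤ |b.1 - a.1| → w ≤ |b'.1 - a.1| → w ≤ |b'.1 - b.1| →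
      Good a b b' (sel a b b') := by
    intro a b b' ha hb hb' h1 h2 h3
    have hx : ∃ s, Good a b b' s := by
      obtain ⟨m, c₀, hm, hc⟩ := rn_geo_plane hA hw0 ha hb hb' h1 h2 h3
      exact ⟨(m, c₀), (hGiff _ _ _ _).2 ⟨hm, hc⟩⟩
    rw [hsel]
    simp only [dif_pos hx]
    exact Classical.choose_spec hx
  obtain ⟨E1, hE1⟩ : ∃ E1 : Fin n × Fin n → q.Om n → Prop, E1 = fun p y =>
      p.1 ≠ p.2 ∧ |(q.Z (y.2 p.1)).1 - (q.Z (y.2 p.2)).1| ≤ w := ⟨_, rfl⟩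
  obtain ⟨E2, hE2⟩ : ∃ E2 : Fin n × Fin n → q.Om n → Prop, E2 = fun p y =>
      (p.1 ≠ k0 ∧ p.2 ≠ k0) ∧
        |(sel (q.Z (y.2 i0)) (q.Z (y.2 p.1)) (q.Z (y.2 p.2))).1.1 * (q.Z (y.2 k0)).1
          + (sel (q.Z (y.2 i0)) (q.Z (y.2 p.1)) (q.Z (y.2 p.2))).1.2.1 * (q.Z (y.2 k0)).2
          + (sel (q.Z (y.2 i0)) (q.Z (y.2 p.1)) (q.Z (y.2 p.2))).1.2.2 * ((q.Z (y.2 k0)).1 ^ 2 + (q.Z (y.2 k0)).2 ^ 2)
          - (sel (q.Z (y.2 i0)) (q.Z (y.2 p.1)) (q.Z (y.2 p.2))).2| ≤ w := ⟨_, rfl⟩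
  have b1 : ∀ p, (q.S n).pr (E1 p) ≤ 2 * τ := by
    intro p
    by_cases hp : p.1 = p.2
    · rw [ent_pr_eq_zero _ fun y _ hy => by rw [hE1] at hy; exact hy.1 hp]
      linarith
    · refine le_trans (ent_pr_mono _ fun y _ hy => ?_)
        (rn_pin_slab q hslab p.1 (fun _ => (1, 0, 0)) (fun y => (q.Z (y.2 p.2)).1) (fun y y' he => ⟨rfl, ?_⟩)
          (fun _ => by norm_num))
      · rw [hE1] at hy
        have e : (1 : ℝ) * (q.Z (y.2 p.1)).1 + 0 * (q.Z (y.2 p.1)).2 + 0 * ((q.Z (y.2 p.1)).1 ^ 2 + (q.Z (y.2 p.1)).2 ^ 2)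
            - (q.Z (y.2 p.2)).1 = (q.Z (y.2 p.1)).1 - (q.Z (y.2 p.2)).1 := by ring
        show |(1 : ℝ) * (q.Z (y.2 p.1)).1 + 0 * (q.Z (y.2 p.1)).2 + 0 * ((q.Z (y.2 p.1)).1 ^ 2 + (q.Z (y.2 p.1)).2 ^ 2)
            - (q.Z (y.2 p.2)).1| ≤ w
        rw [e]
        exact hy.2
      · show (q.Z (y.2 p.2)).1 = (q.Z (y'.2 p.2)).1
        rw [(rn_aux_oth_iff q p.1 y' y).1 he p.2 (fun hh => hp hh.symm)]
  have b2 : ∀ p, (q.S n).pr (E2 p) ≤ 2 * τ := by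
    intro p
    by_cases hp : p.1 ≠ k0 ∧ p.2 ≠ k0
    · refine le_trans (ent_pr_mono _ fun y _ hy => ?_)
        (rn_pin_slab q hslab k0 (fun y => (sel (q.Z (y.2 i0)) (q.Z (y.2 p.1)) (q.Z (y.2 p.2))).1)
          (fun y => (sel (q.Z (y.2 i0)) (q.Z (y.2 p.1)) (q.Z (y.2 p.2))).2) (fun y y' he => ?_)
          (fun y => hunit _ _ _))
      · rw [hE2] at hy
        exact hy.2
      · have e := (rn_aux_oth_iff q k0 y' y).1 he
        simp only [e i0 hik, e p.1 hp.1, e p.2 hp.2, and_self]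
    · rw [ent_pr_eq_zero _ fun y _ hy => by rw [hE2] at hy; exact hp hy.1]
      linarith
  have hsub : (q.S n).pr (fun y => ¬ q.Tr w (w ^ 4 / (72 * A ^ 3)) i0 k0 y)
      ≤ (q.S n).pr (fun y => (∃ p ∈ (Finset.univ : Finset (Fin n × Fin n)), E1 p y)
          ∨ (∃ p ∈ (Finset.univ : Finset (Fin n × Fin n)), E2 p y)) := by
    refine ent_pr_mono _ fun y _ hy => ?_
    by_contra hcon
    rw [not_or] at hcon
    obtain ⟨c1, c2⟩ := hcon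
    have s1 : ∀ x x' : Fin n, x ≠ x' → w < |(q.Z (y.2 x)).1 - (q.Z (y.2 x')).1| := by
      intro x x' hx
      by_contra hh
      refine c1 ⟨(x, x'), Finset.mem_univ _, ?_⟩
      rw [hE1]
      exact ⟨hx, not_lt.1 hh⟩
    refine hy ⟨s1, fun j l hjl hji hjk hli hlk => ?_⟩
    have g := hgood (q.Z (y.2 i0)) (q.Z (y.2 j)) (q.Z (y.2 l)) (h.bdZ _) (h.bdZ _) (h.bdZ _)
      (s1 j i0 hji).le (s1 l i0 hli).le (s1 l j hjl.symm).le
    refine ((hGiff _ _ _ _).1 g).2 (q.Z (y.2 k0)) (h.bdZ _) (s1 k0 i0 hik.symm).le (s1 k0 j hjk.symm).le ?_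
    by_contra hh
    refine c2 ⟨(j, l), Finset.mem_univ _, ?_⟩
    rw [hE2]
    exact ⟨⟨hjk, hlk⟩, not_lt.1 hh⟩
  refine hsub.trans ((ent_pr_or_le _ _ _).trans ?_)
  have u1 := (ent_pr_exists_le (q.S n) (Finset.univ : Finset (Fin n × Fin n)) E1).trans
    (Finset.sum_le_sum fun p _ => b1 p)
  have u2 := (ent_pr_exists_le (q.S n) (Finset.univ : Finset (Fin n × Fin n)) E2).trans
    (Finset.sum_le_sum fun p _ => b2 p)
  have hc : ∑ _p ∈ (Finset.univ : Finset (Fin n × Fin n)), 2 * τ = (n : ℝ) ^ 2 * (2 * τ) := by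
    rw [Finset.sum_const, Finset.card_univ, Fintype.card_prod, Fintype.card_fin, nsmul_eq_mul]
    push_cast
    ring
  rw [hc] at u1 u2
  linarith

/-- LEAF TR.  the four speeds on the transverse event (`rn_geo_f1_c`, `rn_geo_dotM2`, `rn_geo_dotM1`; `ϖ ≤ 1 ≤ A`) -/
theorem rn_tr_speed {A ϖ : ℝ} (hA : 1 ≤ A) (hϖ : 0 < ϖ) (hϖ1 : ϖ ≤ 1) {i0 k0 j l : Fin n} (hik : i0 ≠ k0) (hjl : j ≠ l)
    (hji : j ≠ i0) (hjk : j ≠ k0) (hli : l ≠ i0) (hlk : l ≠ k0) {y : q.Om n} (hy : q.Tr ϖ (ϖ ^ 4 / (72 * A ^ 3)) i0 k0 y) :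
    rnKap A ϖ ≤ |rnDot (rnNu (q.Z (y.2 i0)) (q.Z (y.2 j)) (q.Z (y.2 k0))) (rnE (q.Z (y.2 l)))| ∧
    rnKap A ϖ ≤ |rnDot (rnF1 (q.Z (y.2 i0)) (q.Z (y.2 j)) (q.Z (y.2 k0))) (rnE (q.Z (y.2 k0)))| ∧
    rnKap A ϖ ≤ |rnDot (rnM2 (q.Z (y.2 i0)) (q.Z (y.2 j))) (rnE (q.Z (y.2 j)))| ∧
    rnKap A ϖ ≤ |rnDot rnM1 (rnE (q.Z (y.2 i0)))| := by
  obtain ⟨s1, s2⟩ := hy
  have hA0 : 0 < A := by linarith
  have hA8 : (1 : ℝ) ≤ A ^ 8 := one_le_pow₀ hA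
  have hA3 : A ^ 3 ≤ A ^ 8 := pow_le_pow_right₀ hA (by norm_num)
  have p6_4 : ϖ ^ 6 ≤ ϖ ^ 4 := pow_le_pow_of_le_one hϖ.le hϖ1 (by norm_num)
  have p6_2 : ϖ ^ 6 ≤ ϖ ^ 2 := pow_le_pow_of_le_one hϖ.le hϖ1 (by norm_num)
  have p6_1 : ϖ ^ 6 ≤ 1 := pow_le_one₀ hϖ.le hϖ1
  have hk : ∀ t : ℝ, ϖ ^ 6 ≤ t → rnKap A ϖ ≤ t / 2 := by
    intro t ht
    unfold rnKap
    rw [div_le_iff₀ (by positivity)]
    have h6 : 0 < ϖ ^ 6 := by positivity
    nlinarith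
  refine ⟨?_, ?_, ?_, ?_⟩
  · refine le_trans ?_ (s2 j l hjl hji hjk hli hlk).le
    unfold rnKap
    rw [div_le_div_iff₀ (by positivity) (by positivity)]
    have h6 : 0 < ϖ ^ 6 := by positivity
    have h4 : 0 < ϖ ^ 4 := by positivity
    have hA3' : 0 < A ^ 3 := by positivity
    calc ϖ ^ 6 * (72 * A ^ 3) ≤ ϖ ^ 4 * (72 * A ^ 3) := mul_le_mul_of_nonneg_right p6_4 (by positivity)
      _ ≤ ϖ ^ 4 * (10 ^ 5 * A ^ 8) := mul_le_mul_of_nonneg_left (by nlinarith) h4.le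
  · have g := rn_geo_f1_c (q.Z (y.2 i0)) (q.Z (y.2 j)) (q.Z (y.2 k0))
    have a1 := s1 k0 i0 hik.symm
    have a2 := s1 k0 j hjk.symm
    have a1' : ϖ ^ 2 ≤ ((q.Z (y.2 k0)).1 - (q.Z (y.2 i0)).1) ^ 2 := by
      rw [← sq_abs ((q.Z (y.2 k0)).1 - (q.Z (y.2 i0)).1)]
      exact pow_le_pow_left₀ hϖ.le a1.le 2
    have a2' : ϖ ^ 2 ≤ ((q.Z (y.2 k0)).1 - (q.Z (y.2 j)).1) ^ 2 := by
      rw [← sq_abs ((q.Z (y.2 k0)).1 - (q.Z (y.2 j)).1)]
      exact pow_le_pow_left₀ hϖ.le a2.le 2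
    have a3 : ϖ ^ 2 * ϖ ^ 2 ≤ (((q.Z (y.2 k0)).1 - (q.Z (y.2 i0)).1) ^ 2 + ((q.Z (y.2 k0)).2 - (q.Z (y.2 i0)).2) ^ 2)
        * (((q.Z (y.2 k0)).1 - (q.Z (y.2 j)).1) ^ 2 + ((q.Z (y.2 k0)).2 - (q.Z (y.2 j)).2) ^ 2) :=
      mul_le_mul (by nlinarith [sq_nonneg ((q.Z (y.2 k0)).2 - (q.Z (y.2 i0)).2)])
        (by nlinarith [sq_nonneg ((q.Z (y.2 k0)).2 - (q.Z (y.2 j)).2)]) (by positivity) (by positivity)
    have a4 : (ϖ ^ 2 / 2) ^ 2 ≤ |rnDot (rnF1 (q.Z (y.2 i0)) (q.Z (y.2 j)) (q.Z (y.2 k0))) (rnE (q.Z (y.2 k0)))| ^ 2 := by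
      rw [sq_abs]
      nlinarith
    have a5 := abs_le_of_sq_le_sq' a4 (abs_nonneg _)
    have a6 : ϖ ^ 2 / 2 ≤ |rnDot (rnF1 (q.Z (y.2 i0)) (q.Z (y.2 j)) (q.Z (y.2 k0))) (rnE (q.Z (y.2 k0)))| := a5.2
    exact (hk _ p6_2).trans a6
  · rw [rn_geo_dotM2]
    have a1 := s1 j i0 hji
    have a1' : ϖ ^ 2 ≤ ((q.Z (y.2 j)).1 - (q.Z (y.2 i0)).1) ^ 2 := by
      rw [← sq_abs ((q.Z (y.2 j)).1 - (q.Z (y.2 i0)).1)]
      exact pow_le_pow_left₀ hϖ.le a1.le 2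
    have a2 : ϖ ^ 2 ≤ ((q.Z (y.2 j)).1 - (q.Z (y.2 i0)).1) * ((q.Z (y.2 j)).1 - (q.Z (y.2 i0)).1)
        + ((q.Z (y.2 j)).2 - (q.Z (y.2 i0)).2) * ((q.Z (y.2 j)).2 - (q.Z (y.2 i0)).2) := by
      nlinarith [sq_nonneg ((q.Z (y.2 j)).2 - (q.Z (y.2 i0)).2)]
    have a3 := (hk _ p6_2)
    have h2 : 0 < ϖ ^ 2 := by positivity
    exact le_trans (by linarith) (a2.trans (le_abs_self _))
  · rw [rn_geo_dotM1, abs_one]
    have := hk 1 p6_1
    linarith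

theorem rn_aux_entC_swap {Ω : Type} [Fintype Ω] {α β γ : Type} (P : FLaw Ω) (X : Ω → α) (Y : Ω → β) (Z : Ω → γ) :
    P.entC (pair X Y) Z = P.entC (pair Y X) Z := by
  refine ent_entC_congr P _ _ _ _ (fun _ _ _ _ => Iff.rfl) fun ω ω' _ _ _ => ?_
  simp only [FLaw.pair, Prod.mk.injEq]
  tauto

/-- a functional of the common point is listed by the cells of the point -/
theorem rn_aux_fc_list {M r : ℕ} {B : ℝ} (hM : 1 ≤ M) (hB : 0 ≤ B) (φ : q.Om n → Fin 4 → ℝ)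
    (hf : ∀ y y', q.zs Finset.univ y = q.zs Finset.univ y' → φ y = φ y') (hb : ∀ y i, |φ y i| ≤ B) :
    (q.S n).entC (q.fc M r φ) (pair (fun y => rnCell4 M r (q.pO y)) q.dp) ≤ Real.log (4 * B + 2) := by
  have hM0 : (1 : ℝ) ≤ M := by exact_mod_cast hM
  have hp : (0 : ℝ) < (M : ℝ) ^ r := by positivity
  have h1 := rn_nval_close (q.S n) (fun _ => True) (pair (fun y => rnCell4 M r (q.pO y)) q.dp)
    (fun y => rnDot (φ y) (q.pO y)) (s := (M : ℝ) ^ r) (R := 4 * B * (1 / (M : ℝ) ^ r)) hp (by positivity)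
    (fun y y' _ _ _ _ he => by
      have e1 : rnCell4 M r (q.pO y) = rnCell4 M r (q.pO y') := congrArg Prod.fst he
      have e2 : q.dp y = q.dp y' := congrArg Prod.snd he
      have e3 : q.zs Finset.univ y = q.zs Finset.univ y' := congrArg Prod.snd e2
      have e4 : rnDot (φ y) (q.pO y) - rnDot (φ y') (q.pO y') = rnDot (φ y) (fun i => q.pO y i - q.pO y' i) := by
        rw [← hf y y' e3]
        unfold rnDot
        ring
      show |rnDot (φ y) (q.pO y) - rnDot (φ y') (q.pO y')| ≤ _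
      rw [e4]
      exact rn_geo_dot_le (hb y) fun i => rn_aux_cell_close hM (congrFun e1 i))
  have h2 : 4 * B * (1 / (M : ℝ) ^ r) * (M : ℝ) ^ r + 2 = 4 * B + 2 := by
    field_simp
  rw [h2] at h1
  exact ent_entC_le_log_nval (q.S n) _ _ h1

/-- LEAF CHN.  **the chain.**   `P.entC (Oc r) C = S.entC (cells of pO) nC` (`rn_pin_map`, `ent_map_entC`, `rn_pin_O`, `rn_pin_same`, congruence on the support) `≥ S.entC (cells of pO) D⁺` (`ent_entC_anti`)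
`≥ S.entC (c1,c2,c3,c4) D⁺ - log ((4B+2)^4)`  (each `c_i` is listed by `(cells of pO, D⁺)`: `|φ·O - φ·O'| ≤ 4 B / M^r`, `rn_nval_close`, `ltk_nval_comp`, `ent_entC_le_log_nval`), chain rule `ent_entC_chain`, field `pt`. -/
theorem rn_out_chain {M r K : ℕ} {A B d τ es oT dv st B1 B2 B3 B4 : ℝ} {jj : ℕ → ℝ}
    (h : q.Ok M r K A d τ es oT dv st jj) (hM : 1 ≤ M) (hB : 0 ≤ B) (x0 : Fin n)
    (φ1 φ2 φ3 φ4 : q.Om n → Fin 4 → ℝ)
    (hf : ∀ y y', q.zs Finset.univ y = q.zs Finset.univ y' → φ1 y = φ1 y' ∧ φ2 y = φ2 y' ∧ φ3 y = φ3 y' ∧ φ4 y = φ4 y')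
    (hb : ∀ y i, |φ1 y i| ≤ B ∧ |φ2 y i| ≤ B ∧ |φ3 y i| ≤ B ∧ |φ4 y i| ≤ B)
    (h4 : B4 ≤ (q.S n).entC (q.fc M r φ4) q.dp)
    (h3 : B3 ≤ (q.S n).entC (q.fc M r φ3) (pair (q.fc M r φ4) q.dp))
    (h2 : B2 ≤ (q.S n).entC (q.fc M r φ2) (pair (pair (q.fc M r φ3) (q.fc M r φ4)) q.dp))
    (h1 : B1 ≤ (q.S n).entC (q.fc M r φ1) (pair (pair (q.fc M r φ2) (pair (q.fc M r φ3) (q.fc M r φ4))) q.dp)) :
    B1 + B2 + B3 + B4 - 4 * Real.log (4 * B + 2) ≤ (oT + τ) * Real.log M := by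
  obtain ⟨Oc', hOc'⟩ : ∃ Oc' : q.Om n → Fin 4 → ℤ, Oc' = fun y => rnCell4 M r (q.pO y) := ⟨_, rfl⟩
  -- (1) transfer to the pins
  have s1 : q.P.entC (q.Oc M r) q.C = (q.S n).entC Oc' q.nC := by
    have e := ent_map_entC (q.S n) (fun y => y.2 x0) (q.Oc M r) q.C
    rw [rn_pin_map] at e
    rw [e]
    refine ent_entC_congr (q.S n) _ _ _ _ (fun y y' hy hy' => ?_) (fun y y' hy hy' _ => ?_)
    · rw [(rn_pin_same q x0 hy).1, (rn_pin_same q x0 hy').1]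
    · rw [hOc']
      show rnCell4 M r (q.O (y.2 x0)) = rnCell4 M r (q.O (y'.2 x0)) ↔ _
      rw [rn_pin_O q h.ofun x0 hy, rn_pin_O q h.ofun x0 hy']
  -- (2) more conditioning
  have s2 : (q.S n).entC Oc' q.dp ≤ (q.S n).entC Oc' q.nC :=
    ent_entC_anti (q.S n) _ _ _ fun y y' _ _ he => (congrArg Prod.fst he : (q.dp y).1 = (q.dp y').1)
  -- (3) the four cells are listed
  have l1 := rn_aux_fc_list q (r := r) hM hB φ1 (fun y y' he => (hf y y' he).1) (fun y i => (hb y i).1)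
  have l2 := rn_aux_fc_list q (r := r) hM hB φ2 (fun y y' he => (hf y y' he).2.1) (fun y i => (hb y i).2.1)
  have l3 := rn_aux_fc_list q (r := r) hM hB φ3 (fun y y' he => (hf y y' he).2.2.1) (fun y i => (hb y i).2.2.1)
  have l4 := rn_aux_fc_list q (r := r) hM hB φ4 (fun y y' he => (hf y y' he).2.2.2) (fun y i => (hb y i).2.2.2)
  rw [← hOc'] at l1 l2 l3 l4
  obtain ⟨c1, hc1⟩ : ∃ c1, c1 = q.fc M r φ1 := ⟨_, rfl⟩
  obtain ⟨c2, hc2⟩ : ∃ c2, c2 = q.fc M r φ2 := ⟨_, rfl⟩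
  obtain ⟨c3, hc3⟩ : ∃ c3, c3 = q.fc M r φ3 := ⟨_, rfl⟩
  obtain ⟨c4, hc4⟩ : ∃ c4, c4 = q.fc M r φ4 := ⟨_, rfl⟩
  rw [← hc1] at h1 l1
  rw [← hc2] at h1 h2 l2
  rw [← hc3] at h1 h2 h3 l3
  rw [← hc4] at h1 h2 h3 h4 l4
  have u1 : (q.S n).entC (pair (pair c2 (pair c3 c4)) c1) (pair Oc' q.dp) ≤ 4 * Real.log (4 * B + 2) := by
    have a1 := ent_entC_pair_le_add (q.S n) (pair c2 (pair c3 c4)) c1 (pair Oc' q.dp)
    have a2 := ent_entC_pair_le_add (q.S n) c2 (pair c3 c4) (pair Oc' q.dp)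
    have a3 := ent_entC_pair_le_add (q.S n) c3 c4 (pair Oc' q.dp)
    linarith
  have u2 : (q.S n).entC (pair (pair c2 (pair c3 c4)) c1) q.dp
      ≤ (q.S n).entC Oc' q.dp + (q.S n).entC (pair (pair c2 (pair c3 c4)) c1) (pair Oc' q.dp) := by
    rw [← ent_entC_chain]
    exact ent_entC_mono (q.S n) _ _ _ fun y y' _ _ he _ => congrArg Prod.snd he
  -- (4) the chain rule
  have k1 := ent_entC_chain (q.S n) (pair c2 (pair c3 c4)) c1 q.dp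
  have k2 := ent_entC_chain (q.S n) (pair c3 c4) c2 q.dp
  have k3 := ent_entC_chain (q.S n) c4 c3 q.dp
  have w2 := rn_aux_entC_swap (q.S n) c2 (pair c3 c4) q.dp
  have w3 := rn_aux_entC_swap (q.S n) c3 c4 q.dp
  have hpt := h.pt
  linarith

end Claimed.Agent.R256
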