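import Claimed.Agent.R256.Rnd.Contract
import Claimed.Agent.R256.Rnd.Chain

/-!
# Row 256, unit RND (08B), file 4: from the arrays to the descent      (architect helper38)

One level: `S = r S'` (block, child), grid `n`, offset `off`.  Lattice point `(P, q)` ↦ grid point `(i, j) = (n - off - 2 S P, q S)`.
For the step starting at `(P, q)` :  `x = rnI (P+1) = i - 2S`,  `y = x + S`,  `i = y + S`.
 DIAGONAL  `E(x, j+S) - E(i, j) = [D x (j+S) - D x j] - [D y j - D x j] - [D i j - D y j] - 4 S + 2 pd S`;  (rv) at `x` cancels the second bracket, (round-out) at `y` bounds the third: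
   `≤ S [ g - m/2 + d - 1 + 3η/2 + χ/r + ξ + ε - 4Γ ]`, `g` = rate of the block at `y`, `m = min g 2`.         NO differentiability of `D` is used.
 HORIZONTAL `E(x, j) - E(i, j) = - [D i j - D y j] - [D y j - D x j] + 2 pd S`, (round-out) at `y` and at `x`.
Numerology of the proof of thm:round (08 l.1433-1471): `pd = 1 + 3d - 2Γ`, threshold `2 - 2d`.
LEAVES: L-256-RN-ST1 (`rn_lin_lower`, `rn_lin_block`), ST2 (`rn_step_diag`), ST3 (`rn_step_hor`), ST4 (`rn_in_dom`, `rn_step_crude_diag`, `rn_step_crude_hor`, `rn_step_mono`), ST5 (`rn_desc`, `rn_start`, `rn_endpt`).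
-/

set_option autoImplicit false

namespace Claimed.Agent.R256

open Finset

/-- grid depth of the lattice abscissa `P` -/
def rnI (n off S P : ℕ) : ℕ := n - off - 2 * S * P

/-- the excess (mesh units) -/
def rnEx (pd : ℝ) (D : ℕ → ℕ → ℝ) (i j : ℕ) : ℝ := D i j - 4 * j - pd * i

/-- the excess on the lattice -/
def rnEl (n off S : ℕ) (pd : ℝ) (D : ℕ → ℕ → ℝ) (P q : ℕ) : ℝ := rnEx pd D (rnI n off S P) (q * S)

/-- the row `H b a = J i a b` of the angular array -/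
def rnRow (J : ℕ → ℕ → ℕ → ℝ) (i : ℕ) : ℕ → ℕ → ℝ := fun b a => J i a b

/-- the angular rate of the block `q` at `y(P)` is above the threshold -/
def RnHi (n off S : ℕ) (d κ : ℝ) (J : ℕ → ℕ → ℕ → ℝ) (P q : ℕ) : Prop :=
  (2 - 2 * d - κ) * S < J (rnI n off S (P + 1) + S) (q * S) (q * S + S)

/-- good lattice points -/
structure RnGood (n off S S' r K : ℕ) (χ η KL : ℝ) (J : ℕ → ℕ → ℕ → ℝ) (P q : ℕ) : Prop where
  st1 : J (rnI n off S (P + 1) + S) (q * S) (q * S + K * S)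
      - J (rnI n off S (P + 1) + S + K * S) (q * S) (q * S + K * S) ≤ χ * S'
  st2 : J (rnI n off S (P + 1)) (q * S) (q * S + K * S)
      - J (rnI n off S (P + 1) + K * S) (q * S) (q * S + K * S) ≤ χ * S'
  st3 : J (rnI n off S (P + 1)) (q * S) (q * S + S) - J (rnI n off S (P + 1) + S) (q * S) (q * S + S) ≤ χ * S'
  lin1 : LayLin (rnRow J (rnI n off S (P + 1) + S)) KL η (q * S) S' r
  lin2 : LayLin (rnRow J (rnI n off S (P + 1))) KL η (q * S) S' r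

/-- one level of (rv) -/
def RnRV1 (n K S : ℕ) (d ε : ℝ) (D : ℕ → ℕ → ℝ) (J : ℕ → ℕ → ℕ → ℝ) : Prop :=
  ∀ i j, RnDom n K i j S → D i (j + S) - D i j ≤ J i j (j + S) + (D (i + S) j - D i j) + (1 - d + ε) * S

/-- one level of (round-out) -/
def RnOUT1 (n K S S' r : ℕ) (d ξ χ : ℝ) (D : ℕ → ℕ → ℝ) (J : ℕ → ℕ → ℕ → ℝ) : Prop :=
  ∀ i j, RnDom n K i j S → ∀ m : ℝ, 0 ≤ m → m ≤ 2 →
    J i j (j + K * S) - J (i + K * S) j (j + K * S) ≤ χ * S' →
    (∀ l l', l ≤ l' → l' ≤ r → (m * ((l' : ℝ) - l) - χ) * S' ≤ J i j (j + l' * S') - J i j (j + l * S')) →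
    (3 * d + min 1 (d + m / 2) - ξ) * S ≤ D (i + S) j - D i j

/-- LEAF ST1.  increments from the root `j` dominate the block values (`jIncr` with `u = j`, `u' = a = j + l S'`, `jDiag`) -/
theorem rn_lin_lower {n : ℕ} {pd e : ℝ} {D : ℕ → ℕ → ℝ} {J : ℕ → ℕ → ℕ → ℝ} (hA : RnArr n pd e D J)
    {i j S' r : ℕ} {KL η g : ℝ} (hv : RnVal n i (j + r * S'))
    (hg : ∀ l l', l ≤ l' → l' ≤ r → |rnRow J i (j + l' * S') (j + l * S') - g * (((l' : ℝ) - l) * S')| ≤ η * ((r : ℝ) * S'))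
    (l l' : ℕ) (hl : l ≤ l') (hl' : l' ≤ r) :
    g * (((l' : ℝ) - l) * S') - η * ((r : ℝ) * S') - 2 * e ≤ J i j (j + l' * S') - J i j (j + l * S') := by
  have h1 : l * S' ≤ l' * S' := Nat.mul_le_mul_right _ hl
  have h2 : l' * S' ≤ r * S' := Nat.mul_le_mul_right _ hl'
  have hvb : RnVal n i (j + l' * S') := ⟨hv.1, by have := hv.2; omega⟩
  have hva : RnVal n i (j + l * S') := ⟨hv.1, by have := hv.2; omega⟩
  have hI := hA.jIncr i j (j + l * S') (j + l * S') (j + l' * S') hvb (Nat.le_add_right _ _) le_rfl (by omega)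
  have hD := abs_le.1 (hA.jDiag i (j + l * S') hva)
  have hG := abs_le.1 (hg l l' hl hl')
  have hG1 : -(η * ((r : ℝ) * S')) ≤ J i (j + l * S') (j + l' * S') - g * (((l' : ℝ) - l) * S') := hG.1
  linarith [hD.2]

/-- LEAF ST1.  the block value (`l = 0`, `l' = r`) -/
theorem rn_lin_block {J : ℕ → ℕ → ℕ → ℝ} {i j S' r : ℕ} {η g : ℝ}
    (hg : ∀ l l', l ≤ l' → l' ≤ r → |rnRow J i (j + l' * S') (j + l * S') - g * (((l' : ℝ) - l) * S')| ≤ η * ((r : ℝ) * S')) :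
    |J i j (j + r * S') - g * ((r : ℝ) * S')| ≤ η * ((r : ℝ) * S') := by
  have h := hg 0 r (Nat.zero_le _) le_rfl
  simpa [rnRow] using h

/-- LEAF ST4.  the lattice region lies in the query domain (pure `ℕ` arithmetic; `x = rnI (P+1)`, both `x` and `x + S` are admissible roots, `x + 2 S = rnI P`) -/
theorem rn_in_dom {n off S K P0 W e0 P q : ℕ} (hS : 0 < S) (hfit : off + 2 * S * (P0 + W + 1) < n) (he : 3 * K ≤ 2 * e0)
    (he0 : 0 < e0) (h2 : 2 * e0 ≤ P0) (h : RnIn P0 W e0 P q) :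
    RnDom n K (rnI n off S (P + 1)) (q * S) S ∧ RnDom n K (rnI n off S (P + 1) + S) (q * S) S ∧
      rnI n off S (P + 1) + S + S = rnI n off S P ∧ RnVal n (rnI n off S P) (q * S + S) := by
  obtain ⟨h1, h3, h4, h5⟩ := h
  unfold RnDom RnVal rnI
  obtain ⟨A, hA⟩ : ∃ A, A = S * P := ⟨_, rfl⟩
  obtain ⟨B, hB⟩ : ∃ B, B = q * S := ⟨_, rfl⟩
  obtain ⟨Ck, hCk⟩ : ∃ Ck, Ck = K * S := ⟨_, rfl⟩
  obtain ⟨E, hE⟩ : ∃ E, E = e0 * S := ⟨_, rfl⟩
  obtain ⟨F, hF⟩ : ∃ F, F = S * (P0 + W + 1) := ⟨_, rfl⟩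
  have e1 : 2 * S * (P + 1) = 2 * A + 2 * S := by rw [hA]; ring
  have e2 : 2 * S * P = 2 * A := by rw [hA]; ring
  have e3 : 2 * S * (P0 + W + 1) = 2 * F := by rw [hF]; ring
  have f1 : B + E ≤ A := by
    rw [hB, hE, hA, ← Nat.add_mul, Nat.mul_comm S P]
    exact Nat.mul_le_mul_right S h4
  have f2 : 3 * Ck ≤ 2 * E := by
    rw [hCk, hE, ← Nat.mul_assoc, ← Nat.mul_assoc]
    exact Nat.mul_le_mul_right S he
  have f3 : S ≤ E := by
    rw [hE]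
    exact Nat.le_mul_of_pos_left S he0
  have f4 : 0 < B := by
    rw [hB]
    exact Nat.mul_pos (by omega) hS
  have f5 : A + 2 * S ≤ F := by
    rw [hA, hF]
    calc S * P + 2 * S = S * (P + 2) := by ring
      _ ≤ S * (P0 + W + 1) := Nat.mul_le_mul_left S (by omega)
  rw [e1, e2, ← hB, ← hCk]
  rw [e3] at hfit
  omega

/-- common part of ST2, ST3: (round-out) at a linear block with the clipped rate -/
theorem rn_out_lin {n K S S' r : ℕ} {pd d e ξ χ η KL : ℝ} {D : ℕ → ℕ → ℝ} {J : ℕ → ℕ → ℕ → ℝ}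
    (hA : RnArr n pd e D J) (hOUT : RnOUT1 n K S S' r d ξ χ D J)
    (hS : S = r * S') (hsm : η * ((r : ℝ) * S') + 2 * e ≤ χ * S')
    {y j : ℕ} (hy : RnDom n K y j S) (hv : RnVal n y (j + S))
    (st : J y j (j + K * S) - J (y + K * S) j (j + K * S) ≤ χ * S')
    (lin : LayLin (rnRow J y) KL η j S' r) :
    ∃ g : ℝ, 0 ≤ g ∧ |J y j (j + S) - g * S| ≤ η * S ∧ (3 * d + min 1 (d + min g 2 / 2) - ξ) * S ≤ D (y + S) j - D y j := by
  obtain ⟨g, hg0, -, hg⟩ := lin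
  have hSr : (S : ℝ) = (r : ℝ) * S' := by rw [hS]; push_cast; ring
  have hb := rn_lin_block (J := J) (i := y) (j := j) (S' := S') (r := r) (η := η) (g := g) hg
  rw [← hS, ← hSr] at hb
  refine ⟨g, hg0, hb, ?_⟩
  refine hOUT y j hy (min g 2) (le_min hg0 (by norm_num)) (min_le_right _ _) st ?_
  intro l l' hl hl'
  have h1 := rn_lin_lower hA (KL := KL) (by rw [← hS]; exact hv) hg l l' hl hl'
  have hS'0 : (0 : ℝ) ≤ S' := Nat.cast_nonneg _
  have hll : (0 : ℝ) ≤ (l' : ℝ) - l := sub_nonneg.2 (Nat.cast_le.2 hl)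
  have h2 : min g 2 * (((l' : ℝ) - l) * S') ≤ g * (((l' : ℝ) - l) * S') :=
    mul_le_mul_of_nonneg_right (min_le_left _ _) (mul_nonneg hll hS'0)
  nlinarith

/-- LEAF ST2.  **the diagonal step** (header; constants: `5η/2 + χ/r + ξ + ε ≤ Γ`) -/
theorem rn_step_diag {n K S S' r : ℕ} {d Γ e ε ξ χ η KL : ℝ} {D : ℕ → ℕ → ℝ} {J : ℕ → ℕ → ℕ → ℝ}
    (hA : RnArr n (1 + 3 * d - 2 * Γ) e D J) (hRV : RnRV1 n K S d ε D J) (hOUT : RnOUT1 n K S S' r d ξ χ D J)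
    (hS : S = r * S') (hS' : 0 < S') (hr : 0 < r) (hd0 : 0 < d) (hd1 : d ≤ 1) (he0 : 0 ≤ e) (hη0 : 0 ≤ η)
    (hsm : η * ((r : ℝ) * S') + 2 * e ≤ χ * S') (hnum : 5 / 2 * η + χ + ξ + ε ≤ Γ) (hχ : 0 ≤ χ)
    {x j : ℕ} (hx : RnDom n K x j S) (hy : RnDom n K (x + S) j S) (hv : RnVal n (x + S + S) (j + S))
    (st1 : J (x + S) j (j + K * S) - J (x + S + K * S) j (j + K * S) ≤ χ * S')
    (st3 : J x j (j + S) - J (x + S) j (j + S) ≤ χ * S')
    (lin1 : LayLin (rnRow J (x + S)) KL η j S' r)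
    (hlow : J (x + S) j (j + S) ≤ (2 - 2 * d) * S) :
    rnEx (1 + 3 * d - 2 * Γ) D x (j + S) ≤ rnEx (1 + 3 * d - 2 * Γ) D (x + S + S) j - 3 * Γ * S := by
  obtain ⟨g, hg0, hgb, hout⟩ := rn_out_lin hA hOUT hS hsm hy ⟨hy.1, by have := hv.2; omega⟩ st1 lin1
  have hrv := hRV x j hx
  have hSpos : (0 : ℝ) < S := by
    rw [hS]
    exact_mod_cast Nat.mul_pos hr hS'
  have hS'S : (S' : ℝ) ≤ S := by
    rw [hS]
    exact_mod_cast Nat.le_mul_of_pos_left S' hr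
  have hχS : χ * S' ≤ χ * S := mul_le_mul_of_nonneg_left hS'S hχ
  obtain ⟨G, hG⟩ : ∃ G, G = J (x + S) j (j + S) := ⟨_, rfl⟩
  rw [← hG] at hgb hlow st3
  obtain ⟨hgb1, hgb2⟩ := abs_le.1 hgb
  -- the key numeric inequality
  have key : G - min 1 (d + min g 2 / 2) * S ≤ (1 - 2 * d + 3 / 2 * η) * S := by
    by_cases hc : 1 ≤ d + min g 2 / 2
    · rw [min_eq_left hc]
      nlinarith
    · rw [not_le] at hc
      rw [min_eq_right hc.le]
      have hg2 : g ≤ 2 := by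
        by_contra hcon
        rw [not_le] at hcon
        rw [min_eq_right hcon.le] at hc
        linarith
      rw [min_eq_left hg2]
      -- `g S ≤ G + η S ≤ (2 - 2 d + η) S`
      nlinarith
  unfold rnEx
  push_cast
  nlinarith

/-- LEAF ST3.  **the horizontal (double) step** (constants: `κ + 3η/2 + 2ξ ≤ Γ`, `e ≤ η S`) -/
theorem rn_step_hor {n K S S' r : ℕ} {d Γ e ξ χ η κ KL : ℝ} {D : ℕ → ℕ → ℝ} {J : ℕ → ℕ → ℕ → ℝ}
    (hA : RnArr n (1 + 3 * d - 2 * Γ) e D J) (hOUT : RnOUT1 n K S S' r d ξ χ D J)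
    (hS : S = r * S') (hS' : 0 < S') (hr : 0 < r) (hd0 : 0 < d) (hd1 : d ≤ 1) (he0 : 0 ≤ e) (hη0 : 0 ≤ η) (hκ : 0 ≤ κ)
    (hsm : η * ((r : ℝ) * S') + 2 * e ≤ χ * S') (heS : e ≤ η * S) (hnum : κ + 3 / 2 * η + 2 * ξ ≤ Γ)
    {x j : ℕ} (hx : RnDom n K x j S) (hy : RnDom n K (x + S) j S) (hv : RnVal n (x + S + S) (j + S))
    (st1 : J (x + S) j (j + K * S) - J (x + S + K * S) j (j + K * S) ≤ χ * S')
    (st2 : J x j (j + K * S) - J (x + K * S) j (j + K * S) ≤ χ * S')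
    (lin1 : LayLin (rnRow J (x + S)) KL η j S' r) (lin2 : LayLin (rnRow J x) KL η j S' r)
    (hhigh : (2 - 2 * d - κ) * S ≤ J (x + S) j (j + S)) :
    rnEx (1 + 3 * d - 2 * Γ) D x j ≤ rnEx (1 + 3 * d - 2 * Γ) D (x + S + S) j - 3 * Γ * S := by
  have hvy : RnVal n (x + S) (j + S) := ⟨hy.1, by have := hv.2; omega⟩
  obtain ⟨g1, hg10, hgb1, hout1⟩ := rn_out_lin hA hOUT hS hsm hy hvy st1 lin1
  obtain ⟨g2, hg20, hgb2, hout2⟩ := rn_out_lin hA hOUT hS hsm hx ⟨hx.1, by have := hv.2; omega⟩ st2 lin2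
  have hmono := hA.jMono x (x + S) j (j + S) hx.1 hvy (Nat.le_add_right _ _) (Nat.le_add_right _ _)
  have hSpos : (0 : ℝ) < S := by
    rw [hS]
    exact_mod_cast Nat.mul_pos hr hS'
  have a1 := (abs_le.1 hgb1).2
  have a2 := (abs_le.1 hgb2).2
  -- lower bounds of the rates
  have r1 : 2 - 2 * d - κ - η ≤ g1 := by
    have : (2 - 2 * d - κ - η) * S ≤ g1 * S := by nlinarith
    exact le_of_mul_le_mul_right this hSpos
  have r2 : 2 - 2 * d - κ - 2 * η ≤ g2 := by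
    have : (2 - 2 * d - κ - 2 * η) * S ≤ g2 * S := by nlinarith
    exact le_of_mul_le_mul_right this hSpos
  have m1 : 1 - κ / 2 - η / 2 ≤ min 1 (d + min g1 2 / 2) := by
    refine le_min (by linarith) ?_
    have : 2 - 2 * d - κ - η ≤ min g1 2 := le_min r1 (by linarith)
    linarith
  have m2 : 1 - κ / 2 - η ≤ min 1 (d + min g2 2 / 2) := by
    refine le_min (by linarith) ?_
    have : 2 - 2 * d - κ - 2 * η ≤ min g2 2 := le_min r2 (by linarith)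
    linarith
  have o1 : (3 * d + (1 - κ / 2 - η / 2) - ξ) * S ≤ D (x + S + S) j - D (x + S) j :=
    le_trans (mul_le_mul_of_nonneg_right (by linarith) hSpos.le) hout1
  have o2 : (3 * d + (1 - κ / 2 - η) - ξ) * S ≤ D (x + S) j - D x j :=
    le_trans (mul_le_mul_of_nonneg_right (by linarith) hSpos.le) hout2
  unfold rnEx
  push_cast
  nlinarith

/-- LEAF ST4.  crude diagonal step (`dvHi`, `daLo`, `pd ≤ 4`) -/
theorem rn_step_crude_diag {n S : ℕ} {pd e : ℝ} {D : ℕ → ℕ → ℝ} {J : ℕ → ℕ → ℕ → ℝ} (hA : RnArr n pd e D J)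
    (hpd : pd ≤ 4) {x j : ℕ} (hx : 0 < x) (hv : RnVal n (x + S + S) (j + S)) :
    rnEx pd D x (j + S) ≤ rnEx pd D (x + S + S) j + (10 * S + 2 * e) := by
  have h1 := hA.dvHi x j (j + S) ⟨hx, by have := hv.2; omega⟩ (Nat.le_add_right _ _)
  have h2 := hA.daLo x (x + S + S) j hx ⟨hv.1, by have := hv.2; omega⟩ (by omega)
  unfold rnEx
  push_cast at h1 ⊢
  have hS : (0 : ℝ) ≤ S := Nat.cast_nonneg _
  have h3 : pd * S ≤ 4 * S := mul_le_mul_of_nonneg_right hpd hS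
  nlinarith

/-- LEAF ST4.  crude horizontal step -/
theorem rn_step_crude_hor {n S : ℕ} {pd e : ℝ} {D : ℕ → ℕ → ℝ} {J : ℕ → ℕ → ℕ → ℝ} (hA : RnArr n pd e D J)
    (hpd : pd ≤ 4) (he : 0 ≤ e) {x j : ℕ} (hx : 0 < x) (hv : RnVal n (x + S + S) j) :
    rnEx pd D x j ≤ rnEx pd D (x + S + S) j + (10 * S + 2 * e) := by
  have h2 := hA.daLo x (x + S + S) j hx hv (by omega)
  unfold rnEx
  push_cast
  have hS : (0 : ℝ) ≤ S := Nat.cast_nonneg _
  have h3 : pd * S ≤ 4 * S := mul_le_mul_of_nonneg_right hpd hS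
  nlinarith

/-- LEAF ST4.  the rate persists along a row (`jMono`, ONE application: `rnI (P'+1) ≤ rnI (P+1)`) -/
theorem rn_step_mono {n off S : ℕ} {pd e d κ : ℝ} {D : ℕ → ℕ → ℝ} {J : ℕ → ℕ → ℕ → ℝ} (hA : RnArr n pd e D J)
    (heκ : e ≤ κ * S) {P P' q : ℕ} (hPP : P ≤ P') (hpos : off + 2 * S * (P' + 1) < n)
    (hv : RnVal n (rnI n off S (P + 1) + S) (q * S + S)) (h : RnHi n off S d 0 J P q) :
    (2 - 2 * d - κ) * S ≤ J (rnI n off S (P' + 1) + S) (q * S) (q * S + S) := by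
  have hle : rnI n off S (P' + 1) ≤ rnI n off S (P + 1) := by
    unfold rnI
    have : 2 * S * (P + 1) ≤ 2 * S * (P' + 1) := Nat.mul_le_mul_left _ (by omega)
    omega
  have hp : 0 < rnI n off S (P' + 1) := by
    unfold rnI
    omega
  have h1 := hA.jMono (rnI n off S (P' + 1) + S) (rnI n off S (P + 1) + S) (q * S) (q * S + S) (by omega) hv (by omega) (Nat.le_add_right _ _)
  unfold RnHi at h
  nlinarith

/-- LEAF ST5.  **assembly of the descent at one level.** -/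
theorem rn_desc {n off S S' r K P0 W e0 : ℕ} {d Γ e χ η κ KL : ℝ} {D : ℕ → ℕ → ℝ} {J : ℕ → ℕ → ℕ → ℝ}
    (hA : RnArr n (1 + 3 * d - 2 * Γ) e D J) (hRV : RnRV1 n K S d (Γ / 20) D J)
    (hOUT : RnOUT1 n K S S' r d (Γ / 20) χ D J)
    (hS : S = r * S') (hS' : 0 < S') (hr : 0 < r) (hd0 : 0 < d) (hd1 : d ≤ 1) (hΓ : 0 < Γ) (hΓd : Γ ≤ d)
    (he0 : 0 ≤ e) (hη0 : 0 ≤ η) (hηΓ : η ≤ Γ / 40) (hχ0 : 0 ≤ χ) (hχΓ : χ ≤ Γ / 40) (hκ : κ = Γ / 40)
    (hsm : η * ((r : ℝ) * S') + 2 * e ≤ χ * S') (heS : e ≤ η * S) (heκ : e ≤ κ * S)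
    (hfit : off + 2 * S * (P0 + W + 1) < n) (he : 3 * K ≤ 2 * e0) (he0p : 0 < e0) (h2 : 2 * e0 ≤ P0) :
    RnDesc P0 W e0 (rnEl n off S (1 + 3 * d - 2 * Γ) D) (RnHi n off S d 0 J)
      (fun P q => (2 - 2 * d - κ) * S ≤ J (rnI n off S (P + 1) + S) (q * S) (q * S + S))
      (RnGood n off S S' r K χ η KL J) (3 * Γ * S) (10 * S + 2 * e) := by
  have hSpos : 0 < S := by
    rw [hS]
    exact Nat.mul_pos hr hS'
  have hpd : 1 + 3 * d - 2 * Γ ≤ 4 := by linarith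
  have hκ0 : 0 ≤ κ := by
    rw [hκ]
    positivity
  have hdom := fun P q (h : RnIn P0 W e0 P q) => rn_in_dom (n := n) (off := off) (K := K) hSpos hfit he he0p h2 h
  have eE1 : ∀ P q, rnEl n off S (1 + 3 * d - 2 * Γ) D (P + 1) (q + 1)
      = rnEx (1 + 3 * d - 2 * Γ) D (rnI n off S (P + 1)) (q * S + S) := by
    intro P q
    unfold rnEl
    rw [Nat.succ_mul]
  have eE2 : ∀ P q, RnIn P0 W e0 P q → rnEl n off S (1 + 3 * d - 2 * Γ) D P q
      = rnEx (1 + 3 * d - 2 * Γ) D (rnI n off S (P + 1) + S + S) (q * S) := by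
    intro P q h
    unfold rnEl
    rw [(hdom P q h).2.2.1]
  have eE3 : ∀ P q, rnEl n off S (1 + 3 * d - 2 * Γ) D (P + 1) q
      = rnEx (1 + 3 * d - 2 * Γ) D (rnI n off S (P + 1)) (q * S) := fun P q => rfl
  refine ⟨?_, ?_, ?_, ?_, ?_⟩
  · intro P q h hG hHi
    obtain ⟨hx, hy, h3, hv⟩ := hdom P q h
    rw [eE1, eE2 P q h]
    rw [← h3] at hv
    refine rn_step_diag hA hRV hOUT hS hS' hr hd0 hd1 he0 hη0 hsm (by linarith) hχ0 hx hy hv hG.st1 hG.st3 hG.lin1 ?_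
    unfold RnHi at hHi
    have h4 := not_lt.1 hHi
    rw [sub_zero] at h4
    exact h4
  · intro P q h hG hHi
    obtain ⟨hx, hy, h3, hv⟩ := hdom P q h
    rw [eE3, eE2 P q h]
    rw [← h3] at hv
    exact rn_step_hor hA hOUT hS hS' hr hd0 hd1 he0 hη0 hκ0 hsm heS (by linarith) hx hy hv hG.st1 hG.st2 hG.lin1 hG.lin2 hHi
  · intro P q h
    obtain ⟨hx, hy, h3, hv⟩ := hdom P q h
    rw [eE1, eE2 P q h]
    rw [← h3] at hv
    exact rn_step_crude_diag hA hpd hx.1 hv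
  · intro P q h
    obtain ⟨hx, hy, h3, hv⟩ := hdom P q h
    rw [eE3, eE2 P q h]
    rw [← h3] at hv
    refine rn_step_crude_hor hA hpd he0 hx.1 ⟨hv.1, ?_⟩
    have := hv.2
    omega
  · intro P q h hHi P' hPP hP'
    obtain ⟨hx, hy, h3, hv⟩ := hdom P q h
    rw [← h3] at hv
    refine rn_step_mono hA heκ hPP ?_ ⟨by omega, ?_⟩ hHi
    · have h5 : 2 * S * (P' + 1) ≤ 2 * S * (P0 + W + 1) := Nat.mul_le_mul_left _ (by omega)
      omega
    · have := hv.2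
      omega

/-- LEAF ST5.  the start: distance `≤ (2 e0 + 1) S` from the boundary (`dvLo`, `bdry`; if `n - i` is odd pass to `i + 1` by `daLo`) -/
theorem rn_start {n off S P0 e0 e' : ℕ} {pd e : ℝ} {D : ℕ → ℕ → ℝ} {J : ℕ → ℕ → ℕ → ℝ} (hA : RnArr n pd e D J)
    (hpd0 : 0 ≤ pd) (hpd : pd ≤ 4) (he0 : 0 ≤ e) (hoff : off < 2 * S) (hfit : off + 2 * S * (P0 + 1) < n)
    (h1 : e' < 2 * e0) (h2 : 2 * e0 ≤ P0) :
    rnEl n off S pd D P0 (P0 - e') ≤ 4 * ((2 * e0 + 1 : ℕ) : ℝ) * S + 4 + 3 * e := by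
  have a1 : 2 * S * P0 = 2 * (P0 * S) := by ring
  have a1' : 2 * S * (P0 + 1) = 2 * (P0 * S) + 2 * S := by ring
  have a2 : e' * S ≤ 2 * (e0 * S) := by
    have : e' * S ≤ (2 * e0) * S := Nat.mul_le_mul_right S (by omega)
    rwa [Nat.mul_assoc] at this
  have a3 : e' * S ≤ P0 * S := Nat.mul_le_mul_right S (by omega)
  have a4 : (P0 - e') * S = P0 * S - e' * S := Nat.sub_mul _ _ _
  have a5 : (2 * e0 + 1) * S = 2 * (e0 * S) + S := by ring
  unfold rnEl rnEx rnI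
  rw [a1, a4]
  rw [a1'] at hfit
  obtain ⟨i, hi⟩ : ∃ i, i = n - off - 2 * (P0 * S) := ⟨_, rfl⟩
  obtain ⟨j, hj⟩ : ∃ j, j = P0 * S - e' * S := ⟨_, rfl⟩
  rw [← hi, ← hj]
  have hi0 : 0 < i := by omega
  rcases Nat.even_or_odd' off with ⟨o, ho | ho⟩
  · obtain ⟨js, hjs⟩ : ∃ js, js = o + P0 * S := ⟨_, rfl⟩
    have hb : 2 * js + i = n := by omega
    have hjs0 : 0 < js := by
      have := Nat.mul_pos (show 0 < P0 by omega) (show 0 < S by omega)
      omega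
    have h3 := hA.dvLo i j js ⟨hi0, hb.le⟩ (by omega)
    have h4 := hA.bdry i js hi0 hjs0 hb
    have h5 : js ≤ j + (2 * e0 + 1) * S := by omega
    have h6 : (js : ℝ) ≤ (j : ℝ) + ((2 * e0 + 1 : ℕ) : ℝ) * S := by exact_mod_cast h5
    linarith
  · obtain ⟨js, hjs⟩ : ∃ js, js = o + P0 * S := ⟨_, rfl⟩
    have hb : 2 * js + (i + 1) = n := by omega
    have h2' := hA.daLo i (i + 1) j hi0 ⟨by omega, by omega⟩ (by omega)
    have h3 := hA.dvLo (i + 1) j js ⟨by omega, hb.le⟩ (by omega)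
    have hjs0 : 0 < js := by
      have := Nat.mul_pos (show 0 < P0 by omega) (show 0 < S by omega)
      omega
    have h4 := hA.bdry (i + 1) js (by omega) hjs0 hb
    have h5 : js ≤ j + (2 * e0 + 1) * S := by omega
    have h6 : (js : ℝ) ≤ (j : ℝ) + ((2 * e0 + 1 : ℕ) : ℝ) * S := by exact_mod_cast h5
    have h7 : ((i + 1 : ℕ) : ℝ) = (i : ℝ) + 1 := by push_cast; ring
    rw [h7] at h4
    linarith

/-- LEAF ST5.  the excess is nonnegative (`exc`) -/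
theorem rn_endpt {n off S P q : ℕ} {pd e : ℝ} {D : ℕ → ℕ → ℝ} {J : ℕ → ℕ → ℕ → ℝ} (hA : RnArr n pd e D J)
    (hfit : off + 2 * S * P < n) (hq : q ≤ P) : -e ≤ rnEl n off S pd D P q := by
  have a1 : 2 * S * P = 2 * (P * S) := by ring
  have a2 : q * S ≤ P * S := Nat.mul_le_mul_right S hq
  unfold rnEl rnEx rnI
  have h := hA.exc (n - off - 2 * S * P) (q * S) ⟨by omega, by omega⟩
  linarith

end Claimed.Agent.R256
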